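import Vale.Agent.Propeller.Defs

/-!
# P226, part ALG: the derivative condition and the linear algebra of the optimal configuration
-/

namespace Vale.Agent.Propeller.Alg

open MeasureTheory ProbabilityTheory Vale.Agent.Propeller Finset

section Basic

variable {n : ℕ} {ι : Type} [Fintype ι] [Nonempty ι]

lemma le_hmax (w : ι → E n) (x : E n) (i : ι) : inner ℝ (w i) x ≤ hmax w x :=
  Finset.le_sup' (fun i => inner ℝ (w i) x) (Finset.mem_univ i)

lemma hmax_le (w : ι → E n) (x : E n) (a : ℝ) (h : ∀ i, inner ℝ (w i) x ≤ a) : hmax w x ≤ a :=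
  Finset.sup'_le _ _ (fun i _ => h i)

lemma cont_hmax (w : ι → E n) : Continuous (hmax w) := by
  unfold hmax
  exact Continuous.finset_sup'_apply _ (fun i _ => by fun_prop)

lemma cont_hmin (w : ι → E n) : Continuous (hmin w) := by
  unfold hmin
  exact Continuous.finset_inf'_apply _ (fun i _ => by fun_prop)

lemma abs_hmax_le (w : ι → E n) (x : E n) : |hmax w x| ≤ (∑ i, ‖w i‖) * ‖x‖ := by
  have h1 : ∀ i, |inner ℝ (w i) x| ≤ (∑ i, ‖w i‖) * ‖x‖ := by
    intro i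
    refine (abs_real_inner_le_norm _ _).trans ?_
    apply mul_le_mul_of_nonneg_right _ (norm_nonneg _)
    exact Finset.single_le_sum (f := fun i => ‖w i‖) (fun i _ => norm_nonneg _) (Finset.mem_univ i)
  rw [abs_le]
  constructor
  · obtain ⟨i⟩ := (inferInstance : Nonempty ι)
    have := abs_le.1 (h1 i)
    exact this.1.trans (le_hmax w x i)
  · exact hmax_le w x _ (fun i => (abs_le.1 (h1 i)).2)

lemma integrable_norm : Integrable (fun x : E n => ‖x‖) (gs n) :=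
  (IsGaussian.integrable_id (μ := gs n)).norm

lemma integrable_of_le {f : E n → ℝ} (hf : Continuous f) (c : ℝ) (h : ∀ x, |f x| ≤ c * ‖x‖) :
    Integrable f (gs n) := by
  refine Integrable.mono' (integrable_norm.const_mul c) hf.aestronglyMeasurable ?_
  exact Filter.Eventually.of_forall (fun x => by simpa [Real.norm_eq_abs] using h x)

lemma integrable_hmax (w : ι → E n) : Integrable (hmax w) (gs n) :=
  integrable_of_le (cont_hmax w) _ (abs_hmax_le w)

lemma integrable_inner (c : E n) : Integrable (fun x => inner ℝ c x) (gs n) :=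
  integrable_of_le (by fun_prop) ‖c‖ (fun x => abs_real_inner_le_norm _ _)

lemma integral_inner_zero (c : E n) : ∫ x, inner ℝ c x ∂gs n = 0 := by
  have := integral_strongDual_stdGaussian (E := E n) (innerSL ℝ c)
  simpa using this

lemma hmax_add (w : ι → E n) (c : E n) (x : E n) :
    hmax (fun i => w i + c) x = hmax w x + inner ℝ c x := by
  apply le_antisymm
  · apply hmax_le
    intro i
    rw [inner_add_left]
    have := le_hmax w x i
    linarith
  · rw [← le_sub_iff_add_le]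
    apply hmax_le
    intro i
    have := le_hmax (fun i => w i + c) x i
    simp only [inner_add_left] at this
    linarith

lemma emax_add (w : ι → E n) (c : E n) : emax (fun i => w i + c) = emax w := by
  unfold emax
  simp only [hmax_add]
  rw [integral_add (integrable_hmax w) (integrable_inner c), integral_inner_zero, add_zero]

/-- the bound for the centred configuration -/
lemma bd_centred {C : ℝ} (h : Bd n ι C) (w : ι → E n) :
    emax w ^ 2 ≤ C * (∑ i, ‖w i‖ ^ 2 - ‖∑ i, w i‖ ^ 2 / Fintype.card ι) := by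
  have hk : (0 : ℝ) < Fintype.card ι := by exact_mod_cast Fintype.card_pos
  have h1 := h (fun i => w i + (-(1 / (Fintype.card ι : ℝ)) • ∑ j, w j))
  rw [emax_add] at h1
  refine h1.trans_eq ?_
  congr 1
  set m : E n := ∑ j, w j with hm
  have : ∀ i, ‖w i + (-(1 / (Fintype.card ι : ℝ)) • m)‖ ^ 2
      = ‖w i‖ ^ 2 - 2 / (Fintype.card ι : ℝ) * inner ℝ (w i) m
        + (1 / (Fintype.card ι : ℝ)) ^ 2 * ‖m‖ ^ 2 := by
    intro i
    rw [norm_add_sq_real, inner_smul_right, norm_smul, mul_pow, Real.norm_eq_abs, sq_abs]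
    ring
  simp only [this]
  rw [Finset.sum_add_distrib, Finset.sum_sub_distrib, ← Finset.mul_sum, ← sum_inner, ← hm,
    Finset.sum_const, real_inner_self_eq_norm_sq, Finset.card_univ, nsmul_eq_mul]
  field_simp
  ring

end Basic

section Opt

variable {n k : ℕ} [NeZero k] {M : ℝ} {w : Fin k → E n}

lemma sum_zero (h : Opt n k M w) : ∑ i, w i = 0 := by
  have hk : (0 : ℝ) < k := by exact_mod_cast Nat.pos_of_ne_zero (NeZero.ne k)
  have h1 := bd_centred h.bd w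
  rw [h.emax_eq, h.sumsq, Fintype.card_fin] at h1
  have h2 : ‖∑ i, w i‖ ^ 2 / (k : ℝ) ≤ 0 := by
    have := h.pos
    by_contra hc
    push Not at hc
    have : M * (M - ‖∑ i, w i‖ ^ 2 / (k : ℝ)) < M * M := by
      apply mul_lt_mul_of_pos_left _ this
      linarith
    nlinarith
  have h3 : ‖∑ i, w i‖ ^ 2 ≤ 0 := by
    by_contra hc
    push Not at hc
    have := div_pos hc hk
    linarith
  have h4 : ‖∑ i, w i‖ = 0 := by
    have := sq_nonneg ‖∑ i, w i‖
    exact pow_eq_zero_iff (two_ne_zero) |>.1 (le_antisymm h3 this)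
  exact norm_eq_zero.1 h4

/-- the configuration with `w i0` moved by `δ` -/
noncomputable def mv (w : Fin k → E n) (i0 : Fin k) (δ : E n) : Fin k → E n :=
  fun i => w i + if i = i0 then δ else 0

omit [NeZero k] in
lemma sum_mv (w : Fin k → E n) (i0 : Fin k) (δ : E n) : ∑ i, mv w i0 δ i = ∑ i, w i + δ := by
  unfold mv
  rw [Finset.sum_add_distrib, Finset.sum_ite_eq' Finset.univ i0]
  simp

omit [NeZero k] in
lemma sumsq_mv (w : Fin k → E n) (i0 : Fin k) (δ : E n) :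
    ∑ i, ‖mv w i0 δ i‖ ^ 2 = ∑ i, ‖w i‖ ^ 2 + (2 * inner ℝ (w i0) δ + ‖δ‖ ^ 2) := by
  have h1 : ∀ i, ‖mv w i0 δ i‖ ^ 2 = ‖w i‖ ^ 2
      + if i = i0 then 2 * inner ℝ (w i0) δ + ‖δ‖ ^ 2 else 0 := by
    intro i
    unfold mv
    split_ifs with hi
    · rw [norm_add_sq_real, hi]; ring
    · simp
  simp only [h1]
  rw [Finset.sum_add_distrib, Finset.sum_ite_eq' Finset.univ i0]
  simp

lemma emax_mv (h : Opt n k M w) (i0 : Fin k) (δ : E n) :
    emax (mv w i0 δ) ≤ M + inner ℝ (w i0) δ + (1 - 1 / (k : ℝ)) / 2 * ‖δ‖ ^ 2 := by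
  have h1 := bd_centred h.bd (mv w i0 δ)
  rw [sum_mv, sumsq_mv, sum_zero h, h.sumsq, zero_add, Fintype.card_fin] at h1
  set D : ℝ := M + (2 * inner ℝ (w i0) δ + ‖δ‖ ^ 2) - ‖δ‖ ^ 2 / (k : ℝ) with hD
  have h2 : emax (mv w i0 δ) ^ 2 ≤ ((M + D) / 2) ^ 2 := by
    refine h1.trans ?_
    nlinarith [sq_nonneg (M - D)]
  have hMD : 0 ≤ (M + D) / 2 := by
    have hM := h.pos
    by_contra hc
    push Not at hc
    have hD' : D < 0 := by linarith
    have : M * D < 0 := mul_neg_of_pos_of_neg hM hD'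
    have := sq_nonneg (emax (mv w i0 δ))
    linarith
  have h3 := abs_le_of_sq_le_sq h2 hMD
  have h4 : emax (mv w i0 δ) ≤ (M + D) / 2 := (abs_le.1 (abs_le_of_sq_le_sq' h2 hMD |> fun h => abs_le.2 h)).2
  refine h4.trans_eq ?_
  rw [hD]
  ring

/-- the vectors `w i0 - w j` -/
noncomputable def df (w : Fin k → E n) (i0 : Fin k) : {j : Fin k // j ≠ i0} → E n :=
  fun j => w i0 - w j.1

lemma max_identity (u a : ℝ) :
    max (|a| - |u|) 0 = max (u + a) 0 + max (u - a) 0 - 2 * max u 0 := by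
  rcases abs_cases a with ⟨ha, ha'⟩ | ⟨ha, ha'⟩ <;> rcases abs_cases u with ⟨hu, hu'⟩ | ⟨hu, hu'⟩ <;>
    rw [ha, hu] <;>
    rcases max_cases u 0 with ⟨h1, h1'⟩ | ⟨h1, h1'⟩ <;>
    rcases max_cases (u + a) 0 with ⟨h2, h2'⟩ | ⟨h2, h2'⟩ <;>
    rcases max_cases (u - a) 0 with ⟨h3, h3'⟩ | ⟨h3, h3'⟩ <;>
    rw [h1, h2, h3] <;> 
    first
      | (rw [max_eq_left (by linarith)]; linarith)
      | (rw [max_eq_right (by linarith)]; linarith)

lemma hmax_mv (w : Fin k → E n) (i0 : Fin k) [Nonempty {j : Fin k // j ≠ i0}] (δ x : E n) :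
    hmax (mv w i0 δ) x = (inner ℝ (w i0) x - hmin (df w i0) x)
      + max (hmin (df w i0) x + inner ℝ δ x) 0 := by
  have hle : ∀ j : {j : Fin k // j ≠ i0}, hmin (df w i0) x ≤ inner ℝ (w i0) x - inner ℝ (w j.1) x := by
    intro j
    have := Finset.inf'_le (fun i => inner ℝ (df w i0 i) x) (Finset.mem_univ j)
    unfold hmin
    refine this.trans_eq ?_
    simp only [df]
    rw [inner_sub_left]
  apply le_antisymm
  · apply hmax_le
    intro i
    by_cases hi : i = i0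
    · have : inner ℝ (mv w i0 δ i) x = inner ℝ (w i0) x + inner ℝ δ x := by
        unfold mv
        rw [if_pos hi, hi, inner_add_left]
      rw [this]
      have := le_max_left (hmin (df w i0) x + inner ℝ δ x) 0
      linarith
    · have : inner ℝ (mv w i0 δ i) x = inner ℝ (w i) x := by
        unfold mv
        rw [if_neg hi, add_zero]
      rw [this]
      have := le_max_right (hmin (df w i0) x + inner ℝ δ x) 0
      have := hle ⟨i, hi⟩
      linarith
  · have h0 : inner ℝ (w i0) x + inner ℝ δ x ≤ hmax (mv w i0 δ) x := by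
      refine le_trans (le_of_eq ?_) (le_hmax (mv w i0 δ) x i0)
      unfold mv
      rw [if_pos rfl, inner_add_left]
    obtain ⟨j, -, hj⟩ := Finset.exists_mem_eq_inf' (s := Finset.univ) Finset.univ_nonempty
      (fun i => inner ℝ (df w i0 i) x)
    have h1 : inner ℝ (w i0) x - hmin (df w i0) x ≤ hmax (mv w i0 δ) x := by
      refine le_trans (le_of_eq ?_) (le_hmax (mv w i0 δ) x j.1)
      unfold mv
      rw [if_neg j.2, add_zero]
      unfold hmin
      rw [hj]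
      simp only [df]
      rw [inner_sub_left]
      ring
    rcases max_cases (hmin (df w i0) x + inner ℝ δ x) 0 with ⟨h2, -⟩ | ⟨h2, -⟩ <;> rw [h2] <;> linarith

/-- condition (F) -/
lemma cond_F (h : Opt n k M w) (i0 : Fin k) [Nonempty {j : Fin k // j ≠ i0}] (δ : E n) :
    ∫ x, max (|inner ℝ δ x| - |hmin (df w i0) x|) 0 ∂gs n ≤ (1 - 1 / (k : ℝ)) * ‖δ‖ ^ 2 := by
  have h1 := emax_mv h i0 δ
  have h2 := emax_mv h i0 (-δ)
  have h0 : emax (mv w i0 0) = M := by
    rw [← h.emax_eq]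
    congr 1
    funext i
    simp [mv]
  have key : ∀ x, max (|inner ℝ δ x| - |hmin (df w i0) x|) 0
      = hmax (mv w i0 δ) x + hmax (mv w i0 (-δ)) x - 2 * hmax (mv w i0 0) x := by
    intro x
    rw [max_identity, hmax_mv, hmax_mv, hmax_mv]
    simp only [inner_neg_left, inner_zero_left, add_zero]
    have : hmin (df w i0) x + -inner ℝ δ x = hmin (df w i0) x - inner ℝ δ x := by ring
    rw [this]
    ring
  simp only [key]
  have hi : Integrable (fun x => hmax (mv w i0 δ) x + hmax (mv w i0 (-δ)) x) (gs n) :=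
    (integrable_hmax _).add (integrable_hmax _)
  rw [integral_sub hi ((integrable_hmax _).const_mul 2),
    integral_add (integrable_hmax _) (integrable_hmax _), integral_const_mul]
  change emax (mv w i0 δ) + emax (mv w i0 (-δ)) - 2 * emax (mv w i0 0) ≤ _
  rw [h0]
  rw [inner_neg_right, norm_neg] at h2
  linarith

lemma coeff_nonpos (h : Opt n k M w) (i0 : Fin k) (g : {j : Fin k // j ≠ i0} → ℝ)
    (hg : ∑ j, g j • w j.1 = 0) (i : {j : Fin k // j ≠ i0}) : g i ≤ 0 := by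
  set y : E n := ∑ j, max (g j) 0 • w j.1 with hy
  have hy' : y = ∑ j, max (-g j) 0 • w j.1 := by
    rw [← sub_eq_zero, hy, ← Finset.sum_sub_distrib, ← hg]
    apply Finset.sum_congr rfl
    intro j _
    rw [← sub_smul]
    congr 1
    rcases max_cases (g j) 0 with ⟨h1, h2⟩ | ⟨h1, h2⟩ <;>
      rcases max_cases (-g j) 0 with ⟨h3, h4⟩ | ⟨h3, h4⟩ <;> rw [h1, h3] <;> linarith
  have h1 : inner ℝ y y ≤ 0 := by
    nth_rewrite 1 [hy]
    rw [hy', sum_inner]
    apply Finset.sum_nonpos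
    intro a _
    rw [inner_sum]
    apply Finset.sum_nonpos
    intro b _
    rw [inner_smul_left, inner_smul_right]
    by_cases hab : a = b
    · subst hab
      simp only [conj_trivial]
      rcases max_cases (g a) 0 with ⟨h1, h2⟩ | ⟨h1, h2⟩
      · rw [max_eq_right (by linarith : -g a ≤ 0)]
        simp
      · rw [h1]
        simp
    · have := h.neg a.1 b.1 (fun e => hab (Subtype.ext e))
      simp only [conj_trivial]
      have h5 : 0 ≤ max (g a) 0 := le_max_right _ _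
      have h6 : 0 ≤ max (-g b) 0 := le_max_right _ _
      exact mul_nonpos_of_nonneg_of_nonpos h5 (mul_nonpos_of_nonneg_of_nonpos h6 this.le)
  have h2 : y = 0 := by
    rw [real_inner_self_nonpos] at h1
    exact h1
  have h3 : ∑ j, max (g j) 0 * inner ℝ (w j.1) (w i0) = 0 := by
    have : inner ℝ y (w i0) = 0 := by rw [h2, inner_zero_left]
    rw [hy, sum_inner] at this
    refine Eq.trans ?_ this
    apply Finset.sum_congr rfl
    intro j _
    rw [inner_smul_left]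
    rfl
  have h4 := (Finset.sum_eq_zero_iff_of_nonpos (fun j _ => by
    have := h.neg j.1 i0 j.2
    have h5 : 0 ≤ max (g j) 0 := le_max_right _ _
    exact mul_nonpos_of_nonneg_of_nonpos h5 this.le)).1 h3 i (Finset.mem_univ i)
  rcases mul_eq_zero.1 h4 with h5 | h5
  · rw [← h5]
    exact le_max_left _ _
  · exact absurd h5 (h.neg i.1 i0 i.2).ne

/-- the vectors `w j`, `j ≠ i0`, are linearly independent -/
lemma lin_indep (h : Opt n k M w) (i0 : Fin k) :
    LinearIndependent ℝ (fun j : {j : Fin k // j ≠ i0} => w j.1) := by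
  rw [Fintype.linearIndependent_iff]
  intro g hg i
  apply le_antisymm
  · exact coeff_nonpos h i0 g hg i
  · have := coeff_nonpos h i0 (fun j => -g j) (by simpa [Finset.sum_neg_distrib] using hg) i
    linarith

lemma exists_q (h : Opt n k M w) (i0 : Fin k) :
    ∃ q : E n, (∀ j : {j : Fin k // j ≠ i0}, inner ℝ q (w j.1) = -(1 / (k : ℝ)))
      ∧ inner ℝ q (w i0) = 1 - 1 / (k : ℝ) := by
  have hk : (0 : ℝ) < k := by exact_mod_cast Nat.pos_of_ne_zero (NeZero.ne k)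
  have hli := lin_indep h i0
  obtain ⟨f, hf⟩ := LinearMap.exists_extend
    ((Finsupp.linearCombination ℝ (fun _ : {j : Fin k // j ≠ i0} => -(1 / (k : ℝ)))).comp hli.repr)
  have hfj : ∀ j : {j : Fin k // j ≠ i0}, f (w j.1) = -(1 / (k : ℝ)) := by
    intro j
    have hmem : w j.1 ∈ Submodule.span ℝ (Set.range fun j : {j : Fin k // j ≠ i0} => w j.1) :=
      Submodule.subset_span ⟨j, rfl⟩
    have h1 := LinearMap.congr_fun hf ⟨w j.1, hmem⟩
    rw [LinearMap.comp_apply, Submodule.subtype_apply, LinearMap.comp_apply,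
      hli.repr_eq_single j ⟨w j.1, hmem⟩ rfl, Finsupp.linearCombination_single] at h1
    simpa using h1
  refine ⟨(InnerProductSpace.toDual ℝ (E n)).symm (LinearMap.toContinuousLinearMap f), ?_, ?_⟩
  · intro j
    rw [InnerProductSpace.toDual_symm_apply]
    exact hfj j
  · rw [InnerProductSpace.toDual_symm_apply]
    change f (w i0) = _
    have h2 : w i0 = - ∑ j : {j : Fin k // j ≠ i0}, w j.1 := by
      have h3 := sum_zero h
      rw [← Finset.add_sum_erase _ _ (Finset.mem_univ i0)] at h3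
      rw [eq_neg_iff_add_eq_zero, ← h3]
      congr 1
      symm
      apply Finset.sum_subtype
      intro x
      simp
    rw [h2, map_neg, map_sum, Finset.sum_congr rfl (fun j _ => hfj j), Finset.sum_const,
      Finset.card_univ, Fintype.card_subtype_compl]
    simp only [Fintype.card_fin, Fintype.card_unique, nsmul_eq_mul]
    have : 1 ≤ k := Nat.pos_of_ne_zero (NeZero.ne k)
    rw [Nat.cast_sub this]
    field_simp
    push_cast
    ring

omit [NeZero k] in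
lemma cell_eq (w : Fin k → E n) (i0 : Fin k) :
    cell w i0 = {x | ∀ j : {j : Fin k // j ≠ i0}, 0 < inner ℝ (df w i0 j) x} := by
  ext x
  simp only [cell, df, Set.mem_ofPred_eq, inner_sub_left, sub_pos, Subtype.forall]

end Opt

section LinAlg

variable {n k : ℕ} {w : Fin k → E n}

/-- weights -/
noncomputable def wt (w : Fin k → E n) (i j : Fin k) : ℝ := if i = j then 0 else -inner ℝ (w i) (w j)

lemma wt_symm (w : Fin k → E n) (i j : Fin k) : wt w i j = wt w j i := by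
  unfold wt
  by_cases h : i = j
  · rw [if_pos h, if_pos h.symm]
  · rw [if_neg h, if_neg (fun e => h e.symm), real_inner_comm]

lemma wt_nonneg (hneg : ∀ i j, i ≠ j → inner ℝ (w i) (w j) < 0) (i j : Fin k) : 0 ≤ wt w i j := by
  unfold wt
  split_ifs with h
  · exact le_rfl
  · linarith [hneg i j h]

lemma sum_wt (hs : ∑ i, w i = 0) (i : Fin k) : ∑ j, wt w i j = ‖w i‖ ^ 2 := by
  have h1 : ∀ j, wt w i j = (if j = i then ‖w i‖ ^ 2 else 0) - inner ℝ (w i) (w j) := by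
    intro j
    unfold wt
    by_cases h : i = j
    · subst h
      simp
    · rw [if_neg h, if_neg (fun e => h e.symm), zero_sub]
  simp only [h1]
  rw [Finset.sum_sub_distrib, ← inner_sum, hs, inner_zero_right,
    Finset.sum_ite_eq' Finset.univ i]
  simp

lemma inner_comb (hs : ∑ i, w i = 0) (c : Fin k → ℝ) (i : Fin k) :
    inner ℝ (w i) (∑ j, c j • w j) = ∑ j, wt w i j * (c i - c j) := by
  have h1 : ∀ j, wt w i j * (c i - c j) = inner ℝ (w i) (c j • w j) - c i * inner ℝ (w i) (w j) := by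
    intro j
    unfold wt
    rw [inner_smul_right]
    by_cases h : i = j
    · subst h
      simp
    · rw [if_neg h]
      ring
  simp only [h1]
  rw [Finset.sum_sub_distrib, ← Finset.mul_sum, ← inner_sum, ← inner_sum, hs]
  simp

lemma double_symm (a : Fin k → Fin k → ℝ) (ha : ∀ i j, a i j = a j i) (f : Fin k → ℝ)
    (g : Fin k → Fin k → ℝ) (hg : ∀ i j, g i j = g j i) :
    ∑ i, ∑ j, f i * (a i j * g i j) = (∑ i, ∑ j, (f i + f j) * (a i j * g i j)) / 2 := by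
  have h1 : ∑ i, ∑ j, f j * (a i j * g i j) = ∑ i, ∑ j, f i * (a i j * g i j) := by
    rw [Finset.sum_comm]
    apply Finset.sum_congr rfl
    intro i _
    apply Finset.sum_congr rfl
    intro j _
    rw [ha j i, hg j i]
  simp only [add_mul, Finset.sum_add_distrib]
  rw [h1]
  ring

lemma norm_comb (hs : ∑ i, w i = 0) (c : Fin k → ℝ) :
    ‖∑ j, c j • w j‖ ^ 2 = (∑ i, ∑ j, wt w i j * (c i - c j) ^ 2) / 2 := by
  rw [← real_inner_self_eq_norm_sq]
  nth_rewrite 1 [sum_inner]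
  simp only [inner_smul_left, conj_trivial, inner_comb hs c]
  have h1 : ∑ i, c i * ∑ j, wt w i j * (c i - c j)
      = -∑ i, ∑ j, c j * (wt w i j * (c i - c j)) := by
    rw [Finset.sum_comm, ← Finset.sum_neg_distrib]
    apply Finset.sum_congr rfl
    intro i _
    rw [Finset.mul_sum, ← Finset.sum_neg_distrib]
    apply Finset.sum_congr rfl
    intro j _
    rw [wt_symm w j i]
    ring
  have h2 : ∑ i, c i * ∑ j, wt w i j * (c i - c j) - ∑ i, ∑ j, c j * (wt w i j * (c i - c j))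
      = ∑ i, ∑ j, wt w i j * (c i - c j) ^ 2 := by
    rw [← Finset.sum_sub_distrib]
    apply Finset.sum_congr rfl
    intro i _
    rw [Finset.mul_sum, ← Finset.sum_sub_distrib]
    apply Finset.sum_congr rfl
    intro j _
    ring
  linarith

/-- the weighted Anderson-Morley bound -/
lemma norm_comb_le (hs : ∑ i, w i = 0) (hneg : ∀ i j, i ≠ j → inner ℝ (w i) (w j) < 0) (L : ℝ)
    (hL : ∀ i j, i ≠ j → ‖w i‖ ^ 2 + ‖w j‖ ^ 2 ≤ L) (hL0 : 0 ≤ L) (c : Fin k → ℝ) :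
    ‖∑ j, c j • w j‖ ^ 2 ≤ L * ∑ j, c j ^ 2 := by
  set y : E n := ∑ j, c j • w j with hy
  have h1 : ∀ i, (inner ℝ (w i) y) ^ 2 ≤ ‖w i‖ ^ 2 * ∑ j, wt w i j * (c i - c j) ^ 2 := by
    intro i
    rw [hy, inner_comb hs, ← sum_wt hs i]
    apply Finset.sum_sq_le_sum_mul_sum_of_sq_le_mul
    · intro j _
      exact wt_nonneg hneg i j
    · intro j _
      exact mul_nonneg (wt_nonneg hneg i j) (sq_nonneg _)
    · intro j _
      apply le_of_eq
      ring
  have h2 : ∑ i, (inner ℝ (w i) y) ^ 2 ≤ L * ‖y‖ ^ 2 := by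
    refine (Finset.sum_le_sum (fun i _ => h1 i)).trans ?_
    simp only [Finset.mul_sum]
    rw [double_symm (wt w) (wt_symm w) (fun i => ‖w i‖ ^ 2) (fun i j => (c i - c j) ^ 2)
      (fun i j => by ring), hy, norm_comb hs c, ← mul_div_assoc]
    apply div_le_div_of_nonneg_right _ (by norm_num)
    rw [Finset.mul_sum]
    apply Finset.sum_le_sum
    intro i _
    rw [Finset.mul_sum]
    apply Finset.sum_le_sum
    intro j _
    by_cases hij : i = j
    · subst hij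
      simp
    · exact mul_le_mul_of_nonneg_right (hL i j hij)
        (mul_nonneg (wt_nonneg hneg i j) (sq_nonneg _))
  have h3 : (‖y‖ ^ 2) ^ 2 ≤ (∑ j, c j ^ 2) * (L * ‖y‖ ^ 2) := by
    have h4 : ‖y‖ ^ 2 = ∑ i, c i * inner ℝ (w i) y := by
      rw [← real_inner_self_eq_norm_sq]
      nth_rewrite 1 [hy]
      rw [sum_inner]
      simp only [inner_smul_left, conj_trivial]
    calc (‖y‖ ^ 2) ^ 2 = (∑ i, c i * inner ℝ (w i) y) ^ 2 := by rw [← h4]
      _ ≤ (∑ i, c i ^ 2) * ∑ i, (inner ℝ (w i) y) ^ 2 := Finset.sum_mul_sq_le_sq_mul_sq _ _ _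
      _ ≤ _ := mul_le_mul_of_nonneg_left h2 (Finset.sum_nonneg (fun _ _ => sq_nonneg _))
  have h5 : 0 ≤ L * ∑ j, c j ^ 2 := mul_nonneg hL0 (Finset.sum_nonneg (fun _ _ => sq_nonneg _))
  by_contra hc
  push Not at hc
  have h6 : 0 < ‖y‖ ^ 2 := lt_of_le_of_lt h5 hc
  nlinarith

/-- bound of the quadratic form -/
lemma form_bound (i0 : Fin k) (B : Finset (Fin k)) (hB : 1 ≤ B.card) (L : ℝ)
    (hL : ∀ c : Fin k → ℝ, (∀ j, j ∉ B → c j = 0) → ∑ j, c j = 0 →
      ‖∑ j, c j • w j‖ ^ 2 ≤ L * ∑ j, c j ^ 2) (hL0 : 0 ≤ L) (x : E n) :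
    ∑ j ∈ B, (inner ℝ (w i0 - w j) x) ^ 2 - (∑ j ∈ B, inner ℝ (w i0 - w j) x) ^ 2
      ≤ L * ‖x‖ ^ 2 := by
  have hm : (1 : ℝ) ≤ B.card := by exact_mod_cast hB
  have hm0 : (0 : ℝ) < B.card := by linarith
  set m : ℝ := (B.card : ℝ) with hmdef
  set X : Fin k → ℝ := fun j => inner ℝ (w j) x with hX
  set A : ℝ := (∑ j ∈ B, X j) / m with hA
  set c : Fin k → ℝ := fun j => if j ∈ B then X j - A else 0 with hc
  have hsumA : ∑ j ∈ B, X j = m * A := by
    rw [hA]; field_simp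
  have hc0 : ∑ j, c j = 0 := by
    rw [hc, Finset.sum_ite_mem, Finset.univ_inter, Finset.sum_sub_distrib, hsumA,
      Finset.sum_const, nsmul_eq_mul]
    ring
  have hc1 : ∀ j, j ∉ B → c j = 0 := by
    intro j hj
    rw [hc]
    simp only [if_neg hj]
  have hS : ∑ j, c j ^ 2 = ∑ j ∈ B, (X j - A) ^ 2 := by
    rw [← Finset.sum_subset (Finset.subset_univ B) (f := fun j => c j ^ 2)
      (fun j _ hj => by rw [hc1 j hj]; ring)]
    apply Finset.sum_congr rfl
    intro j hj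
    rw [hc]
    simp only [if_pos hj]
  have hS2 : ∑ j, c j ^ 2 = inner ℝ (∑ j, c j • w j) x := by
    rw [sum_inner]
    simp only [inner_smul_left, conj_trivial]
    have : ∑ j, c j * inner ℝ (w j) x = ∑ j, c j * (X j - A) + A * ∑ j, c j := by
      rw [Finset.mul_sum, ← Finset.sum_add_distrib]
      apply Finset.sum_congr rfl
      intro j _
      ring
    rw [this, hc0, mul_zero, add_zero]
    apply Finset.sum_congr rfl
    intro j _
    by_cases hj : j ∈ B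
    · rw [hc]
      simp only [if_pos hj]
      ring
    · rw [hc1 j hj]
      ring
  have hfin : ∑ j, c j ^ 2 ≤ L * ‖x‖ ^ 2 := by
    have h0 : 0 ≤ ∑ j, c j ^ 2 := Finset.sum_nonneg (fun _ _ => sq_nonneg _)
    have h1 : (∑ j, c j ^ 2) ^ 2 ≤ (L * ∑ j, c j ^ 2) * ‖x‖ ^ 2 := by
      calc (∑ j, c j ^ 2) ^ 2 = (inner ℝ (∑ j, c j • w j) x) ^ 2 := by rw [← hS2]
        _ ≤ ‖∑ j, c j • w j‖ ^ 2 * ‖x‖ ^ 2 := by
          rw [← mul_pow, ← sq_abs]
          exact pow_le_pow_left₀ (abs_nonneg _) (abs_real_inner_le_norm _ _) 2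
        _ ≤ _ := mul_le_mul_of_nonneg_right (hL c hc1 hc0) (sq_nonneg _)
    by_contra hcon
    push Not at hcon
    have h2 : 0 ≤ L * ‖x‖ ^ 2 := mul_nonneg hL0 (sq_nonneg _)
    have h3 : 0 < ∑ j, c j ^ 2 := lt_of_le_of_lt h2 hcon
    nlinarith
  refine le_trans ?_ hfin
  rw [hS]
  have e1 : ∑ j ∈ B, inner ℝ (w i0 - w j) x = m * (X i0 - A) := by
    simp only [inner_sub_left]
    rw [Finset.sum_sub_distrib, Finset.sum_const, nsmul_eq_mul, hsumA]
    ring
  have e2 : ∑ j ∈ B, (inner ℝ (w i0 - w j) x) ^ 2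
      = ∑ j ∈ B, (X j - A) ^ 2 + m * (X i0 - A) ^ 2 := by
    have : ∀ j, (inner ℝ (w i0 - w j) x) ^ 2
        = (X j - A) ^ 2 + (X i0 - A) ^ 2 - 2 * (X i0 - A) * (X j - A) := by
      intro j
      rw [inner_sub_left]
      ring
    simp only [this]
    rw [Finset.sum_sub_distrib, Finset.sum_add_distrib, ← Finset.mul_sum, Finset.sum_sub_distrib,
      hsumA, Finset.sum_const, Finset.sum_const, nsmul_eq_mul, nsmul_eq_mul]
    ring
  rw [e1, e2]
  nlinarith [sq_nonneg (X i0 - A)]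

/-- the trace side -/
lemma trace_eq (w : Fin k → E n) (i0 : Fin k) (B : Finset (Fin k)) :
    ∑ j ∈ B, ‖w i0 - w j‖ ^ 2 - ‖∑ j ∈ B, (w i0 - w j)‖ ^ 2
      = ∑ j ∈ B, ‖w j‖ ^ 2 - ‖∑ j ∈ B, w j‖ ^ 2
        - (B.card : ℝ) * ((B.card : ℝ) - 1) * ‖w i0‖ ^ 2
        + 2 * ((B.card : ℝ) - 1) * inner ℝ (w i0) (∑ j ∈ B, w j) := by
  rw [Finset.sum_sub_distrib, Finset.sum_const]
  have h1 : ∀ j, ‖w i0 - w j‖ ^ 2 = ‖w i0‖ ^ 2 - 2 * inner ℝ (w i0) (w j) + ‖w j‖ ^ 2 :=
    fun j => norm_sub_sq_real _ _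
  simp only [h1]
  rw [Finset.sum_add_distrib, Finset.sum_sub_distrib, ← Finset.mul_sum, ← inner_sum,
    norm_sub_sq_real, Finset.sum_const, nsmul_eq_mul, ← Nat.cast_smul_eq_nsmul ℝ, norm_smul,
    inner_smul_left, mul_pow, Real.norm_eq_abs, sq_abs, conj_trivial]
  ring

/-- `W = Σ_B w`: `|W|^2 = -⟪W, w i0⟫ - ⟪W, rest⟫` -/
lemma norm_sum_sq (hs : ∑ i, w i = 0) (i0 : Fin k) (B : Finset (Fin k)) (hB : i0 ∉ B) :
    ‖∑ j ∈ B, w j‖ ^ 2 = -inner ℝ (w i0) (∑ j ∈ B, w j)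
      - ∑ j ∈ (univ \ B).erase i0, inner ℝ (w j) (∑ i ∈ B, w i) := by
  have h1 : ∑ j ∈ B, w j + (w i0 + ∑ j ∈ (univ \ B).erase i0, w j) = 0 := by
    rw [Finset.add_sum_erase _ _ (by simp [hB]), add_comm, Finset.sum_sdiff (Finset.subset_univ B)]
    exact hs
  have h2 : ∑ j ∈ B, w j = -(w i0 + ∑ j ∈ (univ \ B).erase i0, w j) := eq_neg_of_add_eq_zero_left h1
  rw [← real_inner_self_eq_norm_sq]
  nth_rewrite 1 [h2]
  rw [inner_neg_left, inner_add_left, sum_inner]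
  ring

lemma inner_sum_ge (hs : ∑ i, w i = 0) (hneg : ∀ i j, i ≠ j → inner ℝ (w i) (w j) < 0)
    (i : Fin k) (B : Finset (Fin k)) (hB : i ∉ B) : -‖w i‖ ^ 2 ≤ inner ℝ (w i) (∑ j ∈ B, w j) := by
  have h1 : w i + ∑ j ∈ univ.erase i, w j = 0 := by
    rw [Finset.add_sum_erase _ _ (Finset.mem_univ i)]
    exact hs
  have h2 : inner ℝ (w i) (w i) + inner ℝ (w i) (∑ j ∈ univ.erase i, w j) = 0 := by
    rw [← inner_add_right, h1, inner_zero_right]
  rw [real_inner_self_eq_norm_sq] at h2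
  have h3 : inner ℝ (w i) (∑ j ∈ univ.erase i, w j) ≤ inner ℝ (w i) (∑ j ∈ B, w j) := by
    rw [inner_sum, inner_sum]
    have hsub : B ⊆ univ.erase i := by
      intro j hj
      rw [Finset.mem_erase]
      exact ⟨fun e => hB (e ▸ hj), Finset.mem_univ j⟩
    rw [← Finset.sum_sdiff hsub]
    have : ∑ j ∈ univ.erase i \ B, inner ℝ (w i) (w j) ≤ 0 := by
      apply Finset.sum_nonpos
      intro j hj
      have := (Finset.mem_erase.1 (Finset.mem_sdiff.1 hj).1).1
      exact (hneg i j (fun e => this e.symm)).le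
    linarith
  linarith

lemma inner_sum_nonpos (hneg : ∀ i j, i ≠ j → inner ℝ (w i) (w j) < 0)
    (i : Fin k) (B : Finset (Fin k)) (hB : i ∉ B) : inner ℝ (w i) (∑ j ∈ B, w j) ≤ 0 := by
  rw [inner_sum]
  apply Finset.sum_nonpos
  intro j hj
  exact (hneg i j (fun e => hB (e ▸ hj))).le

/-- the second order condition -/
def SOC (w : Fin k → E n) (i0 : Fin k) : Prop :=
  ∀ (B : Finset (Fin k)) (L : ℝ), i0 ∉ B → 0 < L →
    (∀ x : E n, ∑ j ∈ B, (inner ℝ (w i0 - w j) x) ^ 2 - (∑ j ∈ B, inner ℝ (w i0 - w j) x) ^ 2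
      ≤ L * ‖x‖ ^ 2) →
    ∑ j ∈ B, ‖w i0 - w j‖ ^ 2 - ‖∑ j ∈ B, (w i0 - w j)‖ ^ 2 ≤ L

theorem alg_b' (hs : ∑ i, w i = 0) (hneg : ∀ i j, i ≠ j → inner ℝ (w i) (w j) < 0)
    (i0 : Fin k) (hsoc : SOC w i0) (B : Finset (Fin k)) (hB : i0 ∉ B) (hB2 : 2 ≤ B.card) (L : ℝ)
    (hL : ∀ i j, i ≠ j → ‖w i‖ ^ 2 + ‖w j‖ ^ 2 ≤ L) (hL0 : 0 < L) :
    ∑ j ∈ B, ‖w j‖ ^ 2 ≤ L + ((B.card : ℝ) ^ 2 + B.card - 1) * ‖w i0‖ ^ 2
      + ∑ j ∈ (univ \ B).erase i0, ‖w j‖ ^ 2 := by
  have h1 := hsoc B L hB hL0 (fun x => form_bound i0 B (by omega) L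
    (fun c _ _ => norm_comb_le hs hneg L hL hL0.le c) hL0.le x)
  rw [trace_eq, norm_sum_sq hs i0 B hB] at h1
  have h2 := inner_sum_ge hs hneg i0 B hB
  have h3 : -∑ j ∈ (univ \ B).erase i0, ‖w j‖ ^ 2
      ≤ ∑ j ∈ (univ \ B).erase i0, inner ℝ (w j) (∑ i ∈ B, w i) := by
    rw [← Finset.sum_neg_distrib]
    apply Finset.sum_le_sum
    intro j hj
    have : j ∉ B := by
      have := Finset.mem_erase.1 hj
      simpa using (Finset.mem_sdiff.1 this.2).2
    exact inner_sum_ge hs hneg j B this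
  have hm : (2 : ℝ) ≤ B.card := by exact_mod_cast hB2
  nlinarith

lemma sum_three (i1 i2 i3 : Fin k) (h12 : i1 ≠ i2) (h13 : i1 ≠ i3)
    (h23 : i2 ≠ i3) {V : Type} [AddCommMonoid V] (f : Fin k → V) :
    ∑ j ∈ ({i1, i2, i3} : Finset (Fin k)), f j = f i1 + (f i2 + f i3) := by
  rw [Finset.sum_insert (by simp [h12, h13]), Finset.sum_insert (by simp [h23]),
    Finset.sum_singleton]

theorem alg_3' (hs : ∑ i, w i = 0) (hneg : ∀ i j, i ≠ j → inner ℝ (w i) (w j) < 0)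
    (i0 i1 i2 i3 : Fin k) (hsoc : SOC w i0) (h01 : i0 ≠ i1) (h02 : i0 ≠ i2) (h03 : i0 ≠ i3)
    (h12 : i1 ≠ i2) (h13 : i1 ≠ i3) (h23 : i2 ≠ i3)
    (hs2 : ‖w i2‖ ≤ ‖w i1‖) (hs3 : ‖w i3‖ ≤ ‖w i1‖) :
    3 / 2 * (‖w i2‖ ^ 2 + ‖w i3‖ ^ 2 - ‖w i1‖ ^ 2) ≤ 23 / 2 * ‖w i0‖ ^ 2
      + 3 / 2 * ∑ j ∈ univ \ {i0, i1, i2, i3}, ‖w j‖ ^ 2 := by
  set B : Finset (Fin k) := {i1, i2, i3} with hB
  have hB0 : i0 ∉ B := by simp [hB, h01, h02, h03]
  have hcard : B.card = 3 := by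
    rw [hB, Finset.card_insert_of_notMem (by simp [h12, h13]),
      Finset.card_insert_of_notMem (by simp [h23]), Finset.card_singleton]
  have hset : (univ \ {i0, i1, i2, i3} : Finset (Fin k)) = (univ \ B).erase i0 := by
    ext j
    simp only [hB, Finset.mem_sdiff, Finset.mem_univ, true_and, Finset.mem_insert,
      Finset.mem_singleton, Finset.mem_erase, not_or]
  have hsum : ∀ f : Fin k → ℝ, ∑ j ∈ B, f j = f i1 + (f i2 + f i3) := fun f => by
    rw [hB]
    exact sum_three i1 i2 i3 h12 h13 h23 f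
  have hsumV : ∀ f : Fin k → E n, ∑ j ∈ B, f j = f i1 + (f i2 + f i3) := fun f => by
    rw [hB]
    exact sum_three i1 i2 i3 h12 h13 h23 f
  set a : ℝ := -inner ℝ (w i1) (w i2) with ha
  set b : ℝ := -inner ℝ (w i1) (w i3) with hb
  set e : ℝ := -inner ℝ (w i2) (w i3) with he
  have ha0 : 0 < a := by have := hneg i1 i2 h12; linarith
  have hb0 : 0 < b := by have := hneg i1 i3 h13; linarith
  have he0 : 0 < e := by have := hneg i2 i3 h23; linarith
  have ha' : inner ℝ (w i2) (w i1) = -a := by rw [real_inner_comm, ha]; ring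
  have hb' : inner ℝ (w i3) (w i1) = -b := by rw [real_inner_comm, hb]; ring
  have he' : inner ℝ (w i3) (w i2) = -e := by rw [real_inner_comm, he]; ring
  have q1 : a + b ≤ ‖w i1‖ ^ 2 := by
    have := inner_sum_ge hs hneg i1 {i2, i3} (by simp [h12, h13])
    rw [Finset.sum_pair h23, inner_add_right] at this
    linarith
  have q2 : a + e ≤ ‖w i2‖ ^ 2 := by
    have := inner_sum_ge hs hneg i2 {i1, i3} (by simp [h12.symm, h23])
    rw [Finset.sum_pair h13, inner_add_right] at this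
    linarith
  have q3 : b + e ≤ ‖w i3‖ ^ 2 := by
    have := inner_sum_ge hs hneg i3 {i1, i2} (by simp [h13.symm, h23.symm])
    rw [Finset.sum_pair h12, inner_add_right] at this
    linarith
  have s2 : ‖w i2‖ ^ 2 ≤ ‖w i1‖ ^ 2 := pow_le_pow_left₀ (norm_nonneg _) hs2 2
  have s3 : ‖w i3‖ ^ 2 ≤ ‖w i1‖ ^ 2 := pow_le_pow_left₀ (norm_nonneg _) hs3 2
  set L : ℝ := 3 * ‖w i1‖ ^ 2 - (a + b + e) with hL
  have hL0 : 0 < L := by
    rw [hL]
    have : 2 * (a + b + e) ≤ 3 * ‖w i1‖ ^ 2 := by linarith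
    linarith
  have key : ∀ c : Fin k → ℝ, (∀ j, j ∉ B → c j = 0) → ∑ j, c j = 0 →
      ‖∑ j, c j • w j‖ ^ 2 ≤ L * ∑ j, c j ^ 2 := by
    intro c hc hc0
    have e1 : ∑ j, c j • w j = c i1 • w i1 + (c i2 • w i2 + c i3 • w i3) := by
      rw [← hsumV (fun j => c j • w j)]
      symm
      apply Finset.sum_subset (Finset.subset_univ B)
      intro j _ hj
      rw [hc j hj, zero_smul]
    have e2 : ∑ j, c j ^ 2 = c i1 ^ 2 + (c i2 ^ 2 + c i3 ^ 2) := by
      rw [← hsum (fun j => c j ^ 2)]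
      symm
      apply Finset.sum_subset (Finset.subset_univ B)
      intro j _ hj
      rw [hc j hj]
      ring
    have e3 : c i1 + (c i2 + c i3) = 0 := by
      rw [← hsum, ← hc0]
      apply Finset.sum_subset (Finset.subset_univ B)
      intro j _ hj
      exact hc j hj
    have e4 : c i3 = -c i1 - c i2 := by linarith
    rw [e1, e2, norm_add_sq_real, norm_add_sq_real, inner_add_right, norm_smul, norm_smul,
      norm_smul, mul_pow, mul_pow, mul_pow, Real.norm_eq_abs, Real.norm_eq_abs, Real.norm_eq_abs,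
      sq_abs, sq_abs, sq_abs, inner_smul_left, inner_smul_right, inner_smul_left, inner_smul_right,
      inner_smul_left, inner_smul_right]
    simp only [conj_trivial]
    have f1 : inner ℝ (w i1) (w i2) = -a := by rw [ha]; ring
    have f2 : inner ℝ (w i1) (w i3) = -b := by rw [hb]; ring
    have f3 : inner ℝ (w i2) (w i3) = -e := by rw [he]; ring
    rw [f1, f2, f3]
    have g1 : 0 ≤ c i1 ^ 2 * (L - (‖w i1‖ ^ 2 + 2 * (a + b) - (a + b + e))) :=
      mul_nonneg (sq_nonneg _) (by rw [hL]; linarith)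
    have g2 : 0 ≤ c i2 ^ 2 * (L - (‖w i2‖ ^ 2 + 2 * (a + e) - (a + b + e))) :=
      mul_nonneg (sq_nonneg _) (by rw [hL]; linarith)
    have g3 : 0 ≤ c i3 ^ 2 * (L - (‖w i3‖ ^ 2 + 2 * (b + e) - (a + b + e))) :=
      mul_nonneg (sq_nonneg _) (by rw [hL]; linarith)
    rw [e4] at g3 ⊢
    linarith
  have h1 := hsoc B L hB0 hL0 (fun x => form_bound i0 B (by omega) L key hL0.le x)
  rw [trace_eq, hcard, hsum, hsumV] at h1
  have hW : ‖w i1 + (w i2 + w i3)‖ ^ 2 = ‖w i1‖ ^ 2 + ‖w i2‖ ^ 2 + ‖w i3‖ ^ 2 - 2 * (a + b + e) := by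
    rw [norm_add_sq_real, norm_add_sq_real, inner_add_right, ha, hb, he]
    ring
  have h4 := norm_sum_sq hs i0 B hB0
  rw [hsumV, hW] at h4
  rw [hW] at h1
  have h2 := inner_sum_ge hs hneg i0 B hB0
  rw [hsumV] at h2
  have h3 : -∑ j ∈ (univ \ B).erase i0, ‖w j‖ ^ 2
      ≤ ∑ j ∈ (univ \ B).erase i0, inner ℝ (w j) (w i1 + (w i2 + w i3)) := by
    rw [← Finset.sum_neg_distrib]
    apply Finset.sum_le_sum
    intro j hj
    have hj' : j ∉ B := by
      have := Finset.mem_erase.1 hj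
      simpa using (Finset.mem_sdiff.1 this.2).2
    have := inner_sum_ge hs hneg j B hj'
    rwa [hsumV] at this
  rw [hset]
  push_cast at h1
  rw [hL] at h1
  linarith

end LinAlg

section Final

/-- the statement of `core_abstract` -/
def CoreSt (n : ℕ) : Prop :=
  ∀ (ι : Type) (_ : Fintype ι) (_ : Nonempty ι) (d : ι → E n)
    (q : E n) (_ : ∀ j, inner ℝ q (d j) = 1) (β : ℝ) (_ : 0 < β)
    (_ : inner ℝ q (∫ x in {x | ∀ j, 0 < inner ℝ (d j) x}, x ∂gs n) = β)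
    (_ : ∀ δ : E n, ∫ x, max (|inner ℝ δ x| - |hmin d x|) 0 ∂gs n ≤ β * ‖δ‖ ^ 2)
    (B : Finset ι) (L : ℝ) (_ : 0 < L)
    (_ : ∀ x : E n, ∑ j ∈ B, (inner ℝ (d j) x) ^ 2 - (∑ j ∈ B, inner ℝ (d j) x) ^ 2
      ≤ L * ‖x‖ ^ 2),
    ∑ j ∈ B, ‖d j‖ ^ 2 - ‖∑ j ∈ B, d j‖ ^ 2 ≤ L

theorem soc_of_core {n k : ℕ} [NeZero k] (hk : 2 ≤ k) (hcore : CoreSt n) {M : ℝ} {w : Fin k → E n}
    (h : Opt n k M w) (i0 : Fin k) : SOC w i0 := by
  intro B L hB hL hf
  have hk0 : (0 : ℝ) < k := by positivity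
  have hne : Nonempty {j : Fin k // j ≠ i0} := by
    have : Nontrivial (Fin k) := Fin.nontrivial_iff_two_le.2 hk
    obtain ⟨j, hj⟩ := exists_ne i0
    exact ⟨⟨j, hj⟩⟩
  obtain ⟨q, hq1, hq2⟩ := exists_q h i0
  have hβ : 0 < 1 - 1 / (k : ℝ) := by
    rw [sub_pos, div_lt_one hk0]
    exact_mod_cast hk
  have hsum : ∀ {V : Type} [AddCommMonoid V] (f : Fin k → V),
      ∑ j ∈ B.subtype (fun j => j ≠ i0), f j.1 = ∑ j ∈ B, f j := by
    intro V _ f
    exact Finset.sum_subtype_of_mem f (fun x hx => fun e => hB (e ▸ hx))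
  have h1 := hcore {j : Fin k // j ≠ i0} inferInstance hne (df w i0) q
    (fun j => by
      simp only [df]
      rw [inner_sub_right, hq1, hq2]
      ring) (1 - 1 / (k : ℝ)) hβ
    (by rw [← cell_eq, h.mom, hq2]) (fun δ => cond_F h i0 δ)
    (B.subtype (fun j => j ≠ i0)) L hL
    (fun x => by
      simp only [df]
      rw [hsum (fun j => (inner ℝ (w i0 - w j) x) ^ 2), hsum (fun j => inner ℝ (w i0 - w j) x)]
      exact hf x)
  simp only [df] at h1
  rw [hsum (fun j => ‖w i0 - w j‖ ^ 2), hsum (fun j => w i0 - w j)] at h1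
  exact h1

theorem alg_b_of {n k : ℕ} [NeZero k] (hk : 4 ≤ k) (hcore : CoreSt n) {M : ℝ} {w : Fin k → E n}
    (h : Opt n k M w) (i0 : Fin k) (B : Finset (Fin k)) (hB : i0 ∉ B) (hB2 : 2 ≤ B.card) (L : ℝ)
    (hL : ∀ i j, i ≠ j → ‖w i‖ ^ 2 + ‖w j‖ ^ 2 ≤ L) :
    ∑ j ∈ B, ‖w j‖ ^ 2 ≤ L + ((B.card : ℝ) ^ 2 + B.card - 1) * ‖w i0‖ ^ 2
      + ∑ j ∈ (univ \ B).erase i0, ‖w j‖ ^ 2 := by
  have hL0 : 0 < L := by
    have : Nontrivial (Fin k) := Fin.nontrivial_iff_two_le.2 (by omega)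
    obtain ⟨j, hj⟩ := exists_ne i0
    have h1 := hL i0 j hj.symm
    have h2 := h.neg i0 j hj.symm
    have h3 : w i0 ≠ 0 := by
      intro h0
      rw [h0, inner_zero_left] at h2
      exact lt_irrefl _ h2
    have h4 : 0 < ‖w i0‖ := norm_pos_iff.2 h3
    have := sq_nonneg ‖w j‖
    nlinarith
  exact alg_b' (sum_zero h) h.neg i0 (soc_of_core (by omega) hcore h i0) B hB hB2 L hL hL0

theorem alg_3_of {n k : ℕ} [NeZero k] (hk : 4 ≤ k) (hcore : CoreSt n) {M : ℝ} {w : Fin k → E n}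
    (h : Opt n k M w) (i0 i1 i2 i3 : Fin k) (h01 : i0 ≠ i1) (h02 : i0 ≠ i2) (h03 : i0 ≠ i3)
    (h12 : i1 ≠ i2) (h13 : i1 ≠ i3) (h23 : i2 ≠ i3)
    (hs2 : ‖w i2‖ ≤ ‖w i1‖) (hs3 : ‖w i3‖ ≤ ‖w i1‖) :
    3 / 2 * (‖w i2‖ ^ 2 + ‖w i3‖ ^ 2 - ‖w i1‖ ^ 2) ≤ 23 / 2 * ‖w i0‖ ^ 2
      + 3 / 2 * ∑ j ∈ univ \ {i0, i1, i2, i3}, ‖w j‖ ^ 2 :=
  alg_3' (sum_zero h) h.neg i0 i1 i2 i3 (soc_of_core (by omega) hcore h i0) h01 h02 h03 h12 h13 h23
    hs2 hs3

end Final

end Vale.Agent.Propeller.Alg
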