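import Vale.Agent.Propeller.Core5

/-!
# P226, part CORE: the second order condition
-/

namespace Vale.Agent.Propeller

open MeasureTheory ProbabilityTheory Measure Metric Set Filter
open scoped ENNReal Topology

variable {n : ℕ} {ι : Type} [Fintype ι] [Nonempty ι]

theorem Hf_tendsto (d : ι → E n) (q : E n) (hq : ∀ j, inner ℝ q (d j) = 1) (hq0 : q ≠ 0) (C' : ℝ)
    (z : E n × (ℝ × ℝ)) (hz : pr (‖q‖⁻¹ • q) z.1 ≠ 0) :
    Tendsto (fun m : ℕ => Hf d q C' (1 / ((m : ℝ) + 1)) z) atTop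
      (𝓝 (ENNReal.ofReal (‖q‖ * gaussianPDFReal 0 1 (‖q‖ * hmin d (pr (‖q‖⁻¹ • q) z.1))) *
        ENNReal.ofReal (|z.2.2| - |z.2.1|))) := by
  have hκ : 0 < ‖q‖ := norm_pos_iff.2 hq0
  set y := pr (‖q‖⁻¹ • q) z.1 with hy
  set v := z.2.1
  set ξ := z.2.2
  have hnn : ∀ t : ℝ, 0 ≤ ‖q‖ * gaussianPDFReal 0 1 t := fun t =>
    mul_nonneg hκ.le (gaussianPDFReal_nonneg _ _ _)
  have h1 : ∀ ε : ℝ, Hf d q C' ε z = ENNReal.ofReal
      ((‖q‖ * gaussianPDFReal 0 1 (‖q‖ * (ε * v - hmin d y))) *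
      (|ξ| - C' * |ξ| * |hmin d (dir (y + (ε * v - hmin d y) • q))| - |v|)) := by
    intro ε
    rw [Hf, ENNReal.ofReal_mul (hnn _)]
  simp only [h1]
  have h0 : (|ξ| - |v|) = |ξ| - C' * |ξ| * |hmin d (dir (y + (0 * v - hmin d y) • q))| - |v| := by
    have h2 : hmin d (y + (0 * v - hmin d y) • q) = 0 := by
      rw [hmin_add d q hq]
      ring
    have h3 : y + (0 * v - hmin d y) • q ≠ 0 := by
      intro h
      have h4 : inner ℝ q (y + (0 * v - hmin d y) • q) = 0 := by rw [h, inner_zero_right]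
      rw [inner_add_right, inner_smul_right, hy, inner_pr q hq0, ← hy,
        real_inner_self_eq_norm_sq, zero_add] at h4
      rcases mul_eq_zero.1 h4 with h5 | h5
      · rw [h5, zero_smul, add_zero] at h
        exact hz h
      · exact hκ.ne' (pow_eq_zero_iff two_ne_zero |>.1 h5)
    have h6 := hmin_dir d (y + (0 * v - hmin d y) • q)
    rw [h2] at h6
    rcases mul_eq_zero.1 h6 with h7 | h7
    · exact absurd (norm_eq_zero.1 h7) h3
    · rw [h7, abs_zero]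
      ring
  have h0' : gaussianPDFReal 0 1 (‖q‖ * hmin d y) =
      gaussianPDFReal 0 1 (‖q‖ * (0 * v - hmin d y)) := by
    rw [pdf_eq, pdf_eq]
    congr 2
    ring
  rw [h0, h0', ← ENNReal.ofReal_mul (hnn _)]
  apply ENNReal.tendsto_ofReal
  have hε : Tendsto (fun m : ℕ => 1 / ((m : ℝ) + 1)) atTop (𝓝 0) :=
    tendsto_one_div_add_atTop_nhds_zero_nat
  have h3 : y + (0 * v - hmin d y) • q ≠ 0 := by
    intro h
    have h4 : inner ℝ q (y + (0 * v - hmin d y) • q) = 0 := by rw [h, inner_zero_right]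
    rw [inner_add_right, inner_smul_right, hy, inner_pr q hq0, ← hy,
      real_inner_self_eq_norm_sq, zero_add] at h4
    rcases mul_eq_zero.1 h4 with h5 | h5
    · rw [h5, zero_smul, add_zero] at h
      exact hz h
    · exact hκ.ne' (pow_eq_zero_iff two_ne_zero |>.1 h5)
  have hca : ContinuousAt (fun ε : ℝ => (‖q‖ * gaussianPDFReal 0 1 (‖q‖ * (ε * v - hmin d y))) *
      (|ξ| - C' * |ξ| * |hmin d (dir (y + (ε * v - hmin d y) • q))| - |v|)) 0 := by
    have hd : ContinuousAt (fun ε : ℝ => hmin d (dir (y + (ε * v - hmin d y) • q))) 0 := by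
      have h8 : ContinuousAt (fun ε : ℝ => y + (ε * v - hmin d y) • q) 0 := by fun_prop
      have h9 : ContinuousAt (fun ε : ℝ => dir (y + (ε * v - hmin d y) • q)) 0 := by
        unfold dir
        exact (h8.norm.inv₀ (norm_ne_zero_iff.2 h3)).smul h8
      exact (continuous_hmin d).continuousAt.comp h9
    have hp : Continuous fun ε : ℝ => gaussianPDFReal 0 1 (‖q‖ * (ε * v - hmin d y)) :=
      continuous_pdf.comp (by fun_prop)
    exact (continuousAt_const.mul hp.continuousAt).mul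
      ((continuousAt_const.sub (continuousAt_const.mul hd.abs)).sub continuousAt_const)
  exact hca.tendsto.comp hε

theorem lintegral_H0 (d : ι → E n) (q : E n) (hq : ∀ j, inner ℝ q (d j) = 1) (hq0 : q ≠ 0)
    (β : ℝ) (hz : inner ℝ q (∫ x in {x | ∀ j, 0 < inner ℝ (d j) x}, x ∂gs n) = β) :
    ∫⁻ z : E n × (ℝ × ℝ),
      (ENNReal.ofReal (‖q‖ * gaussianPDFReal 0 1 (‖q‖ * hmin d (pr (‖q‖⁻¹ • q) z.1))) *
        ENNReal.ofReal (|z.2.2| - |z.2.1|))
        ∂((gs n).prod ((volume : Measure ℝ).prod (gaussianReal 0 1))) = ENNReal.ofReal β := by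
  have hp : Measurable (pr (‖q‖⁻¹ • q)) := (continuous_pr _).measurable
  have hum : Measurable (hmin d) := (continuous_hmin d).measurable
  have hg : Measurable (gaussianPDFReal 0 1) := continuous_pdf.measurable
  rw [lintegral_prod_mul (μ := gs n) (ν := (volume : Measure ℝ).prod (gaussianReal 0 1))
    (f := fun x => ENNReal.ofReal (‖q‖ * gaussianPDFReal 0 1
      (‖q‖ * hmin d (pr (‖q‖⁻¹ • q) x))))
    (g := fun w : ℝ × ℝ => ENNReal.ofReal (|w.2| - |w.1|)) (by fun_prop) (by fun_prop),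
    beta_eq d q hq hq0 β hz, lintegral_prod_symm _ (by fun_prop)]
  simp only [lintegral_tent, lintegral_sq_gaussian, mul_one]

theorem fatou (hn : 2 ≤ n) (d : ι → E n) (q : E n) (hq : ∀ j, inner ℝ q (d j) = 1) (hq0 : q ≠ 0)
    (C' β : ℝ) (hz : inner ℝ q (∫ x in {x | ∀ j, 0 < inner ℝ (d j) x}, x ∂gs n) = β) (K : ℝ≥0∞)
    (hK : ∀ ε : ℝ, 0 < ε →
      ∫⁻ z, Hf d q C' ε z ∂((gs n).prod ((volume : Measure ℝ).prod (gaussianReal 0 1))) ≤ K) :
    ENNReal.ofReal β ≤ K := by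
  rw [← lintegral_H0 d q hq hq0 β hz]
  set μ := (gs n).prod ((volume : Measure ℝ).prod (gaussianReal 0 1)) with hμ
  have h1 : ∀ᵐ z ∂μ, pr (‖q‖⁻¹ • q) z.1 ≠ 0 :=
    Measure.quasiMeasurePreserving_fst.ae (pr_ne_zero hn (‖q‖⁻¹ • q))
  have h2 : ∀ᵐ z ∂μ,
      (ENNReal.ofReal (‖q‖ * gaussianPDFReal 0 1 (‖q‖ * hmin d (pr (‖q‖⁻¹ • q) z.1))) *
        ENNReal.ofReal (|z.2.2| - |z.2.1|)) =
      liminf (fun m : ℕ => Hf d q C' (1 / ((m : ℝ) + 1)) z) atTop := by
    filter_upwards [h1] with z hz'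
    exact (Hf_tendsto d q hq hq0 C' z hz').liminf_eq.symm
  rw [lintegral_congr_ae h2]
  refine (lintegral_liminf_le fun m => measurable_Hf d q C' _).trans ?_
  refine liminf_le_of_le (by isBoundedDefault) fun b hb => ?_
  obtain ⟨m, hm⟩ := hb.exists
  exact hm.trans (hK _ (by positivity))

/-- the lower bound of `‖T x‖` -/
theorem T_lower (d : ι → E n) (B : Finset ι) (L : ℝ) (hL : 0 < L) (T : E n →ₗ[ℝ] E n)
    (hT : ∀ x, ‖T x‖ ^ 2 = ‖x‖ ^ 2 + L⁻¹ * ((∑ j ∈ B, inner ℝ (d j) x) ^ 2 -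
      ∑ j ∈ B, (inner ℝ (d j) x) ^ 2)) :
    ∃ C' : ℝ, ∀ x, ‖x‖ - C' * |hmin d x| ≤ ‖T x‖ := by
  classical
  set D : ℝ := ∑ j, ‖d j‖ with hD
  have hDj : ∀ j, ‖d j‖ ≤ D := fun j =>
    Finset.single_le_sum (f := fun j => ‖d j‖) (fun _ _ => norm_nonneg _) (Finset.mem_univ j)
  have hD0 : 0 ≤ D := Finset.sum_nonneg fun _ _ => norm_nonneg _
  refine ⟨L⁻¹ * (4 * (B.card : ℝ) ^ 2 * D), fun x => ?_⟩
  set a := |hmin d x| with ha
  have ha0 : 0 ≤ a := abs_nonneg _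
  have hax : a ≤ D * ‖x‖ := abs_hmin_le d D hDj x
  have hb : ∀ j, |inner ℝ (d j) x| ≤ D * ‖x‖ := fun j =>
    (abs_real_inner_le_norm _ _).trans (mul_le_mul_of_nonneg_right (hDj j) (norm_nonneg _))
  have hbl : ∀ j, -a ≤ inner ℝ (d j) x := fun j =>
    (neg_abs_le (hmin d x)).trans (hmin_le d x j)
  set t := 4 * a * (D * ‖x‖) with ht
  have ht0 : 0 ≤ t := by positivity
  have hpair : ∀ i j, -t ≤ inner ℝ (d i) x * inner ℝ (d j) x := by
    intro i j
    have h1 := hbl i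
    have h2 := hbl j
    have h3 := (abs_le.1 (hb i)).2
    have h4 := (abs_le.1 (hb j)).2
    have h5 : 0 ≤ (inner ℝ (d i) x + a) * (inner ℝ (d j) x + a) :=
      mul_nonneg (by linarith) (by linarith)
    have h6 : a * (inner ℝ (d i) x + inner ℝ (d j) x) ≤ a * (2 * (D * ‖x‖)) :=
      mul_le_mul_of_nonneg_left (by linarith) ha0
    have h7 : a * a ≤ a * (D * ‖x‖) := mul_le_mul_of_nonneg_left hax ha0
    nlinarith
  have hsum : -((B.card : ℝ) ^ 2 * t) ≤ (∑ j ∈ B, inner ℝ (d j) x) ^ 2 -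
      ∑ j ∈ B, (inner ℝ (d j) x) ^ 2 := by
    have e1 : (∑ j ∈ B, inner ℝ (d j) x) ^ 2 - ∑ j ∈ B, (inner ℝ (d j) x) ^ 2 =
        ∑ i ∈ B, ∑ j ∈ B.erase i, inner ℝ (d i) x * inner ℝ (d j) x := by
      rw [sq, Finset.sum_mul_sum, ← Finset.sum_sub_distrib]
      refine Finset.sum_congr rfl fun i hi => ?_
      rw [Finset.sum_erase_eq_sub hi, sq]
    rw [e1]
    calc -((B.card : ℝ) ^ 2 * t) = ∑ i ∈ B, ((B.card : ℝ) * (-t)) := by
          rw [Finset.sum_const, nsmul_eq_mul]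
          ring
      _ ≤ ∑ i ∈ B, ∑ j ∈ B.erase i, inner ℝ (d i) x * inner ℝ (d j) x := by
          refine Finset.sum_le_sum fun i hi => ?_
          calc (B.card : ℝ) * (-t) ≤ ((B.erase i).card : ℝ) * (-t) := by
                have : ((B.erase i).card : ℝ) ≤ B.card := by
                  exact_mod_cast Finset.card_le_card (Finset.erase_subset i B)
                nlinarith
            _ = ∑ j ∈ B.erase i, (-t) := by rw [Finset.sum_const, nsmul_eq_mul]
            _ ≤ _ := Finset.sum_le_sum fun j _ => hpair i j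
  have hT2 : ‖x‖ ^ 2 - L⁻¹ * (4 * (B.card : ℝ) ^ 2 * D) * a * ‖x‖ ≤ ‖T x‖ ^ 2 := by
    rw [hT x]
    have := mul_le_mul_of_nonneg_left hsum (inv_nonneg.2 hL.le)
    rw [ht] at this
    nlinarith
  set C' := L⁻¹ * (4 * (B.card : ℝ) ^ 2 * D) with hC'
  have hC0 : 0 ≤ C' := by positivity
  by_cases h : ‖x‖ - C' * a ≤ 0
  · exact h.trans (norm_nonneg _)
  · push Not at h
    have h8 : (‖x‖ - C' * a) ^ 2 ≤ ‖T x‖ ^ 2 := by
      refine le_trans ?_ hT2
      nlinarith [mul_nonneg hC0 ha0, norm_nonneg x]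
    exact le_of_sq_le_sq h8 (norm_nonneg _)

theorem trace_T (d : ι → E n) (B : Finset ι) (L : ℝ) (T : E n →ₗ[ℝ] E n)
    (hT : ∀ x, ‖T x‖ ^ 2 = ‖x‖ ^ 2 + L⁻¹ * ((∑ j ∈ B, inner ℝ (d j) x) ^ 2 -
      ∑ j ∈ B, (inner ℝ (d j) x) ^ 2)) :
    ∑ i, ‖T (EuclideanSpace.basisFun (Fin n) ℝ i)‖ ^ 2 =
      n + L⁻¹ * (‖∑ j ∈ B, d j‖ ^ 2 - ∑ j ∈ B, ‖d j‖ ^ 2) := by
  have hv : ∀ v : E n, ∑ i, (inner ℝ v (EuclideanSpace.basisFun (Fin n) ℝ i)) ^ 2 = ‖v‖ ^ 2 := by
    intro v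
    rw [← (EuclideanSpace.basisFun (Fin n) ℝ).sum_sq_norm_inner_left]
    refine Finset.sum_congr rfl fun i _ => ?_
    rw [Real.norm_eq_abs, sq_abs]
  simp only [hT, ← sum_inner]
  rw [Finset.sum_add_distrib, ← Finset.mul_sum, Finset.sum_sub_distrib, hv]
  congr 1
  · simp
  · rw [Finset.sum_comm]
    simp only [hv]

theorem core_abstract (n : ℕ) (hn : 2 ≤ n) {ι : Type} [Fintype ι] [Nonempty ι] (d : ι → E n)
    (q : E n) (hq : ∀ j, inner ℝ q (d j) = 1) (β : ℝ) (hβ : 0 < β)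
    (hz : inner ℝ q (∫ x in {x | ∀ j, 0 < inner ℝ (d j) x}, x ∂gs n) = β)
    (hF : ∀ δ : E n, ∫ x, max (|inner ℝ δ x| - |hmin d x|) 0 ∂gs n ≤ β * ‖δ‖ ^ 2)
    (B : Finset ι) (L : ℝ) (hL : 0 < L)
    (hf : ∀ x : E n, ∑ j ∈ B, (inner ℝ (d j) x) ^ 2 - (∑ j ∈ B, inner ℝ (d j) x) ^ 2
      ≤ L * ‖x‖ ^ 2) :
    ∑ j ∈ B, ‖d j‖ ^ 2 - ‖∑ j ∈ B, d j‖ ^ 2 ≤ L := by
  have hq0 : q ≠ 0 := by
    intro h
    obtain ⟨j⟩ := (inferInstance : Nonempty ι)
    have := hq j
    rw [h, inner_zero_left] at this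
    exact zero_ne_one this
  have hF' : ∀ δ : E n, ∫⁻ x, ENNReal.ofReal (|inner ℝ δ x| - |hmin d x|) ∂gs n ≤
      ENNReal.ofReal (β * ‖δ‖ ^ 2) := by
    intro δ
    have h0 : ∀ x : E n, ENNReal.ofReal (|inner ℝ δ x| - |hmin d x|) =
        ENNReal.ofReal (max (|inner ℝ δ x| - |hmin d x|) 0) := by
      intro x
      rcases le_total 0 (|inner ℝ δ x| - |hmin d x|) with h | h
      · rw [max_eq_left h]
      · rw [max_eq_right h, ENNReal.ofReal_of_nonpos h, ENNReal.ofReal_zero]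
    simp only [h0]
    have hc : Continuous (fun x : E n => max (|inner ℝ δ x| - |hmin d x|) 0) := by
      have := continuous_hmin d
      fun_prop
    have hi : Integrable (fun x : E n => max (|inner ℝ δ x| - |hmin d x|) 0) (gs n) := by
      refine (Opt1.int_inner δ).abs.mono' hc.aestronglyMeasurable (ae_of_all _ fun x => ?_)
      rw [Real.norm_eq_abs, abs_of_nonneg (le_max_right _ _)]
      exact max_le (by linarith [abs_nonneg (hmin d x)]) (abs_nonneg _)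
    rw [← ofReal_integral_eq_lintegral_ofReal hi (ae_of_all _ fun x => le_max_right _ _)]
    exact ENNReal.ofReal_le_ofReal (hF δ)
  obtain ⟨T, hT⟩ := exists_sqrt d B L hL hf
  obtain ⟨C', hC'⟩ := T_lower d B L hL T hT
  have htr := trace_T d B L T hT
  set tr := ∑ i, ‖T (EuclideanSpace.basisFun (Fin n) ℝ i)‖ ^ 2 with htrdef
  have htr0 : 0 ≤ tr := Finset.sum_nonneg fun _ _ => sq_nonneg _
  -- moments
  have hmom := norm_inv_moment n hn
  set a := ∫ x : E n, ‖x‖ ∂gs n with ha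
  set a' := ∫ x : E n, ‖x‖⁻¹ ∂gs n with ha'
  have ha0 : 0 < a := by
    rw [ha, integral_pos_iff_support_of_nonneg (fun x => norm_nonneg x) (Opt1.int_norm n)]
    have h1 : (gs n) {x : E n | inner ℝ q x = 0} = 0 := Opt1.hyper_null q hq0
    rw [pos_iff_ne_zero]
    intro h2
    have h3 : (gs n) univ = 0 := by
      have : (univ : Set (E n)) ⊆ Function.support (fun x : E n => ‖x‖) ∪
          {x : E n | inner ℝ q x = 0} := by
        intro x _
        by_cases hx : x = 0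
        · right
          rw [mem_ofPred_eq, hx, inner_zero_right]
        · left
          rw [Function.mem_support]
          exact norm_ne_zero_iff.2 hx
      exact measure_mono_null this (measure_union_null h2 h1)
    rw [measure_univ] at h3
    exact one_ne_zero h3
  have hn1 : (0 : ℝ) < (n : ℝ) - 1 := by
    have : (2 : ℝ) ≤ n := by exact_mod_cast hn
    linarith
  have ha'0 : 0 < a' := by
    by_contra h
    push Not at h
    have := mul_nonpos_of_nonneg_of_nonpos hn1.le h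
    linarith
  have hint' : Integrable (fun x : E n => ‖x‖⁻¹) (gs n) := by
    by_contra h
    have : a' = 0 := integral_undef h
    linarith
  have hA : ∫⁻ x : E n, ENNReal.ofReal ‖x‖ ∂gs n = ENNReal.ofReal a := by
    rw [ha, ofReal_integral_eq_lintegral_ofReal (Opt1.int_norm n)
      (ae_of_all _ fun x => norm_nonneg x)]
  have hA' : ∫⁻ x : E n, ENNReal.ofReal ‖x‖⁻¹ ∂gs n = ENNReal.ofReal a' := by
    rw [ha', ofReal_integral_eq_lintegral_ofReal hint'
      (ae_of_all _ fun x => inv_nonneg.2 (norm_nonneg x))]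
  have hx0 : ∀ᵐ x' : E n ∂gs n, x' ≠ 0 := by
    have h1 := Opt1.hyper_null q hq0
    rw [ae_iff]
    refine measure_mono_null ?_ h1
    intro x hx
    simp only [ne_eq, not_not, mem_ofPred_eq] at hx ⊢
    rw [hx, inner_zero_right]
  have key : ∀ ε : ℝ, 0 < ε →
      ∫⁻ z, Hf d q C' ε z ∂((gs n).prod ((volume : Measure ℝ).prod (gaussianReal 0 1))) ≤
        ENNReal.ofReal (β * tr * a' / a) := by
    intro ε hε
    set X := ∫⁻ z, Hf d q C' ε z ∂((gs n).prod ((volume : Measure ℝ).prod (gaussianReal 0 1)))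
      with hX
    have h1 := lower (by omega) d T C' hC' ε hε
    rw [rescale d q hq hq0 C' ε hε, hA, ← hX] at h1
    have h2 : ∫⁻ x' : E n, ∫⁻ x, ∫⁻ ξ, ENNReal.ofReal (ε * ‖T x‖ * |ξ| - ‖x'‖ * |hmin d x|)
        ∂gaussianReal 0 1 ∂gs n ∂gs n ≤
        ∫⁻ x' : E n, ENNReal.ofReal (β * ε ^ 2 * tr) * ENNReal.ofReal ‖x'‖⁻¹ ∂gs n := by
      refine lintegral_mono_ae ?_
      filter_upwards [hx0] with x' hx'
      exact upper (hmin d) (continuous_hmin d).measurable β hβ.le hF' T ε ‖x'‖ hε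
        (norm_pos_iff.2 hx')
    rw [lintegral_const_mul _ (by fun_prop), hA', ← ENNReal.ofReal_mul (by positivity)] at h2
    have h3 := h1.trans h2
    have h4 : X = ENNReal.ofReal (a * ε ^ 2)⁻¹ * (ENNReal.ofReal a *
        (ENNReal.ofReal (ε ^ 2) * X)) := by
      rw [← mul_assoc, ← mul_assoc, ← ENNReal.ofReal_mul (by positivity),
        ← ENNReal.ofReal_mul (by positivity), mul_assoc, inv_mul_cancel₀ (by positivity),
        ENNReal.ofReal_one, one_mul]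
    rw [h4]
    refine (mul_le_mul_right h3 _).trans ?_
    rw [← ENNReal.ofReal_mul (by positivity)]
    apply le_of_eq
    congr 1
    field_simp
  have h5 := fatou hn d q hq hq0 C' β hz _ key
  rw [ENNReal.ofReal_le_ofReal_iff (by positivity)] at h5
  rw [le_div_iff₀ ha0, hmom] at h5
  have h6 : (n : ℝ) - 1 ≤ tr := by
    have h7 : β * a' * ((n : ℝ) - 1) ≤ β * a' * tr := by nlinarith
    exact le_of_mul_le_mul_left h7 (by positivity)
  rw [htr] at h6
  have h8 : L⁻¹ * (∑ j ∈ B, ‖d j‖ ^ 2 - ‖∑ j ∈ B, d j‖ ^ 2) ≤ 1 := by nlinarith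
  rw [inv_mul_le_iff₀ hL, mul_one] at h8
  exact h8

end Vale.Agent.Propeller
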