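import Vale.Agent.Propeller.Alg
import Vale.Agent.Propeller.Core

/-!
# P226, part ALG: final form
-/

namespace Vale.Agent.Propeller

open MeasureTheory ProbabilityTheory Finset

namespace Alg

theorem coreSt (n : ℕ) (hn : 2 ≤ n) : CoreSt n :=
  fun _ _ _ d q hq β hβ hz hF B L hL hf => core_abstract n hn d q hq β hβ hz hF B L hL hf

end Alg

theorem alg_b (n k : ℕ) [NeZero k] (hk : 4 ≤ k) (hn : 2 ≤ n) (M : ℝ) (w : Fin k → E n)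
    (h : Opt n k M w) (i0 : Fin k) (B : Finset (Fin k)) (hB : i0 ∉ B) (hB2 : 2 ≤ B.card) (L : ℝ)
    (hL : ∀ i j, i ≠ j → ‖w i‖ ^ 2 + ‖w j‖ ^ 2 ≤ L) :
    ∑ j ∈ B, ‖w j‖ ^ 2 ≤ L + ((B.card : ℝ) ^ 2 + B.card - 1) * ‖w i0‖ ^ 2
      + ∑ j ∈ (univ \ B).erase i0, ‖w j‖ ^ 2 :=
  Alg.alg_b_of hk (Alg.coreSt n hn) h i0 B hB hB2 L hL

theorem alg_3 (n k : ℕ) [NeZero k] (hk : 4 ≤ k) (hn : 2 ≤ n) (M : ℝ) (w : Fin k → E n)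
    (h : Opt n k M w) (i0 i1 i2 i3 : Fin k) (h01 : i0 ≠ i1) (h02 : i0 ≠ i2) (h03 : i0 ≠ i3)
    (h12 : i1 ≠ i2) (h13 : i1 ≠ i3) (h23 : i2 ≠ i3)
    (hs2 : ‖w i2‖ ≤ ‖w i1‖) (hs3 : ‖w i3‖ ≤ ‖w i1‖) :
    3 / 2 * (‖w i2‖ ^ 2 + ‖w i3‖ ^ 2 - ‖w i1‖ ^ 2) ≤ 23 / 2 * ‖w i0‖ ^ 2
      + 3 / 2 * ∑ j ∈ univ \ {i0, i1, i2, i3}, ‖w j‖ ^ 2 :=
  Alg.alg_3_of hk (Alg.coreSt n hn) h i0 i1 i2 i3 h01 h02 h03 h12 h13 h23 hs2 hs3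

end Vale.Agent.Propeller
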