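import Vale.Agent.Propeller.Defs

/-!
# P226: density of the standard Gaussian measure, independence of norm and direction
-/

namespace Vale.Agent.Propeller

open MeasureTheory ProbabilityTheory Measure Metric
open scoped ENNReal

/-- radial density -/
noncomputable def rdens (n : ℕ) (r : ℝ) : ℝ :=
  (2 * Real.pi) ^ (-(n : ℝ) / 2) * Real.exp (-r ^ 2 / 2)

theorem rdens_pos (n : ℕ) (r : ℝ) : 0 < rdens n r := by
  unfold rdens
  positivity

theorem continuous_rdens (n : ℕ) : Continuous (rdens n) := by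
  unfold rdens
  fun_prop

theorem integral_rdens (n : ℕ) : ∫ x : E n, rdens n ‖x‖ = 1 := by
  have h := GaussianFourier.integral_rexp_neg_mul_sq_norm (V := E n) (b := 1 / 2) (by norm_num)
  have h2 : ∀ x : E n, rdens n ‖x‖ =
      (2 * Real.pi) ^ (-(n : ℝ) / 2) * Real.exp (-(1 / 2) * ‖x‖ ^ 2) := by
    intro x
    unfold rdens
    congr 2
    ring
  simp only [h2]
  rw [integral_const_mul, h, finrank_euclideanSpace_fin]
  have h3 : Real.pi / (1 / 2) = 2 * Real.pi := by ring
  rw [h3, ← Real.rpow_add (by positivity)]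
  have : -(n : ℝ) / 2 + n / 2 = 0 := by ring
  rw [this, Real.rpow_zero]

theorem integrable_rdens (n : ℕ) : Integrable (fun x : E n => rdens n ‖x‖) := by
  by_contra h
  have := integral_undef h
  rw [integral_rdens] at this
  exact one_ne_zero this

/-- the standard Gaussian measure has the usual density -/
theorem gs_eq_withDensity (n : ℕ) :
    gs n = (volume : Measure (E n)).withDensity (fun x => ENNReal.ofReal (rdens n ‖x‖)) := by
  have hfin : IsFiniteMeasure
      ((volume : Measure (E n)).withDensity (fun x => ENNReal.ofReal (rdens n ‖x‖))) := by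
    refine isFiniteMeasure_withDensity_ofReal ?_
    exact (integrable_rdens n).2
  apply Measure.ext_of_charFun
  ext t
  rw [charFun_stdGaussian, charFun_apply]
  have hmeas : Measurable (fun x : E n => ENNReal.ofReal (rdens n ‖x‖)) :=
    ((continuous_rdens n).comp continuous_norm).measurable.ennreal_ofReal
  rw [integral_withDensity_eq_integral_toReal_smul hmeas
    (Filter.Eventually.of_forall fun x => ENNReal.ofReal_lt_top)]
  have h2 : ∀ x : E n, (ENNReal.ofReal (rdens n ‖x‖)).toReal •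
      Complex.exp (inner ℝ x t * Complex.I) =
      (((2 * Real.pi) ^ (-(n : ℝ) / 2) : ℝ) : ℂ) *
        Complex.exp (-(1 / 2 : ℂ) * ‖x‖ ^ 2 + Complex.I * inner ℝ t x) := by
    intro x
    rw [ENNReal.toReal_ofReal (rdens_pos n _).le, Complex.real_smul]
    unfold rdens
    rw [Complex.ofReal_mul, mul_assoc, Complex.ofReal_exp, ← Complex.exp_add]
    congr 2
    push_cast
    rw [real_inner_comm]
    ring
  simp only [h2]
  rw [integral_const_mul, GaussianFourier.integral_cexp_neg_mul_sq_norm_add (by norm_num),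
    finrank_euclideanSpace_fin]
  have h3 : ((Real.pi : ℂ) / (1 / 2)) = ((2 * Real.pi : ℝ) : ℂ) := by
    push_cast
    ring
  rw [h3]
  have h4 : (((2 * Real.pi : ℝ) : ℂ)) ^ ((n : ℂ) / 2) = (((2 * Real.pi) ^ ((n : ℝ) / 2) : ℝ) : ℂ) := by
    rw [Complex.ofReal_cpow (by positivity)]
    push_cast
    rfl
  rw [h4, ← mul_assoc, ← Complex.ofReal_mul, ← Real.rpow_add (by positivity)]
  have : -(n : ℝ) / 2 + n / 2 = 0 := by ring
  rw [this, Real.rpow_zero, Complex.ofReal_one, one_mul]
  congr 1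
  rw [Complex.I_sq]
  ring


/-- direction -/
noncomputable def dir {n : ℕ} (x : E n) : E n := ‖x‖⁻¹ • x

theorem measurable_dir {n : ℕ} : Measurable (dir : E n → E n) := by
  unfold dir
  fun_prop

/-- polar coordinates for products of radial and angular functions -/
theorem lintegral_polar (n : ℕ) (hn : 1 ≤ n) (a : ℝ → ℝ≥0∞) (ha : Measurable a)
    (b : E n → ℝ≥0∞) (hb : Measurable b) :
    ∫⁻ x : E n, a ‖x‖ * b (dir x) =
      (∫⁻ θ : sphere (0 : E n) 1, b θ ∂(volume : Measure (E n)).toSphere) *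
        ∫⁻ r : Set.Ioi (0 : ℝ), a r ∂(Measure.volumeIoiPow (n - 1)) := by
  have : Nontrivial (E n) := by
    rw [← Module.finrank_pos_iff (R := ℝ), finrank_euclideanSpace_fin]
    omega
  have hmp := (volume : Measure (E n)).measurePreserving_homeomorphUnitSphereProd
  rw [finrank_euclideanSpace_fin] at hmp
  have h0 : ∫⁻ x : E n, a ‖x‖ * b (dir x) =
      ∫⁻ x : ({0}ᶜ : Set (E n)), a ‖(x : E n)‖ * b (dir (x : E n))
        ∂((volume : Measure (E n)).comap Subtype.val) := by
    rw [lintegral_subtype_comap (measurableSet_singleton _).compl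
      (fun x : E n => a ‖x‖ * b (dir x)), restrict_compl_singleton]
  have h1 := hmp.lintegral_comp_emb (Homeomorph.measurableEmbedding _)
    (fun z : sphere (0 : E n) 1 × Set.Ioi (0 : ℝ) => b z.1 * a z.2)
  have h2 : ∀ x : ({0}ᶜ : Set (E n)), a ‖(x : E n)‖ * b (dir (x : E n)) =
      (fun z : sphere (0 : E n) 1 × Set.Ioi (0 : ℝ) => b z.1 * a z.2)
        (homeomorphUnitSphereProd (E n) x) := by
    intro x
    simp only [homeomorphUnitSphereProd_apply_snd_coe, homeomorphUnitSphereProd_apply_fst_coe]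
    rw [mul_comm]
    rfl
  rw [h0, lintegral_congr h2, h1]
  exact lintegral_prod_mul (f := fun θ : sphere (0 : E n) 1 => b θ)
    (g := fun r : Set.Ioi (0 : ℝ) => a r) (hb.comp measurable_subtype_coe).aemeasurable
    (ha.comp measurable_subtype_coe).aemeasurable

theorem lintegral_gs_polar (n : ℕ) (hn : 1 ≤ n) (a : ℝ → ℝ≥0∞) (ha : Measurable a)
    (b : E n → ℝ≥0∞) (hb : Measurable b) :
    ∫⁻ x : E n, a ‖x‖ * b (dir x) ∂gs n =
      (∫⁻ θ : sphere (0 : E n) 1, b θ ∂(volume : Measure (E n)).toSphere) *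
        ∫⁻ r : Set.Ioi (0 : ℝ), ENNReal.ofReal (rdens n r) * a r
          ∂(Measure.volumeIoiPow (n - 1)) := by
  have hm : Measurable (fun r : ℝ => ENNReal.ofReal (rdens n r)) :=
    (continuous_rdens n).measurable.ennreal_ofReal
  have hm2 : Measurable (fun x : E n => ENNReal.ofReal (rdens n ‖x‖)) := hm.comp measurable_norm
  have hm3 : Measurable (fun x : E n => a ‖x‖ * b (dir x)) :=
    (ha.comp measurable_norm).mul (hb.comp measurable_dir)
  rw [gs_eq_withDensity, lintegral_withDensity_eq_lintegral_mul _ hm2 hm3,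
    ← lintegral_polar n hn (fun r => ENNReal.ofReal (rdens n r) * a r) (hm.mul ha) b hb]
  refine lintegral_congr fun x => ?_
  simp only [Pi.mul_apply]
  rw [mul_assoc]

/-- norm and direction are independent -/
theorem polar (n : ℕ) (hn : 1 ≤ n) :
    (gs n).map (fun x => (‖x‖, dir x)) =
      ((gs n).map (fun x => ‖x‖)).prod ((gs n).map dir) := by
  refine (Measure.prod_eq fun s t hs ht => ?_).symm
  rw [Measure.map_apply (measurable_norm.prodMk measurable_dir) (hs.prod ht),
    Measure.map_apply measurable_norm hs,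
    Measure.map_apply measurable_dir ht]
  set σ := fun b : E n → ℝ≥0∞ => ∫⁻ θ : sphere (0 : E n) 1, b θ ∂(volume : Measure (E n)).toSphere
    with hσ
  set ρ := fun a : ℝ → ℝ≥0∞ => ∫⁻ r : Set.Ioi (0 : ℝ), ENNReal.ofReal (rdens n r) * a r
          ∂(Measure.volumeIoiPow (n - 1)) with hρ
  have key : ∀ (a : ℝ → ℝ≥0∞) (b : E n → ℝ≥0∞), Measurable a → Measurable b →
      ∫⁻ x : E n, a ‖x‖ * b (dir x) ∂gs n = σ b * ρ a := fun a b ha hb =>
    lintegral_gs_polar n hn a ha b hb
  have h11 := key (fun _ => 1) (fun _ => 1) measurable_const measurable_const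
  have hs1 := key (s.indicator 1) (fun _ => 1) (measurable_one.indicator hs) measurable_const
  have ht1 := key (fun _ => 1) (t.indicator 1) measurable_const (measurable_one.indicator ht)
  have hst := key (s.indicator 1) (t.indicator 1) (measurable_one.indicator hs)
    (measurable_one.indicator ht)
  have e1 : (gs n) ((fun x => ‖x‖) ⁻¹' s) = ∫⁻ x : E n, s.indicator 1 ‖x‖ * 1 ∂gs n := by
    rw [← lintegral_indicator_one (measurable_norm hs)]
    refine lintegral_congr fun x => ?_
    rw [mul_one]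
    rfl
  have e2 : (gs n) (dir ⁻¹' t) = ∫⁻ x : E n, 1 * t.indicator 1 (dir x) ∂gs n := by
    rw [← lintegral_indicator_one (measurable_dir ht)]
    refine lintegral_congr fun x => ?_
    rw [one_mul]
    rfl
  have e3 : (gs n) ((fun x => (‖x‖, dir x)) ⁻¹' s ×ˢ t) =
      ∫⁻ x : E n, s.indicator 1 ‖x‖ * t.indicator 1 (dir x) ∂gs n := by
    have hm : MeasurableSet ((fun x : E n => (‖x‖, dir x)) ⁻¹' s ×ˢ t) :=
      (measurable_norm.prodMk measurable_dir) (hs.prod ht)
    rw [← lintegral_indicator_one hm]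
    refine lintegral_congr fun x => ?_
    by_cases h1 : ‖x‖ ∈ s <;> by_cases h2 : dir x ∈ t <;> simp [Set.indicator, h1, h2]
  have e0 : ∫⁻ x : E n, 1 * 1 ∂gs n = 1 := by simp
  rw [e1, e2, e3, hs1, ht1, hst]
  rw [e0] at h11
  calc σ (t.indicator 1) * ρ (s.indicator 1)
      = σ (t.indicator 1) * ρ (s.indicator 1) * (σ (fun _ => 1) * ρ (fun _ => 1)) := by
        rw [← h11, mul_one]
    _ = _ := by ring

/-- first and inverse moments of the norm -/
theorem norm_inv_moment (n : ℕ) (hn : 2 ≤ n) :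
    ∫ x, ‖x‖ ∂gs n = ((n : ℝ) - 1) * ∫ x, ‖x‖⁻¹ ∂gs n := by
  have : Nontrivial (E n) := by
    rw [← Module.finrank_pos_iff (R := ℝ), finrank_euclideanSpace_fin]
    omega
  have hm2 : Measurable (fun x : E n => ENNReal.ofReal (rdens n ‖x‖)) :=
    ((continuous_rdens n).measurable.ennreal_ofReal).comp measurable_norm
  have h1 : ∀ f : ℝ → ℝ, ∫ x, f ‖x‖ ∂gs n =
      (n • (volume : Measure (E n)).real (ball 0 1)) *
        ∫ y in Set.Ioi (0 : ℝ), y ^ (n - 1) * (rdens n y * f y) := by
    intro f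
    rw [gs_eq_withDensity, integral_withDensity_eq_integral_toReal_smul hm2
      (Filter.Eventually.of_forall fun x => ENNReal.ofReal_lt_top)]
    have h2 : ∀ x : E n, (ENNReal.ofReal (rdens n ‖x‖)).toReal • f ‖x‖ =
        (fun r => rdens n r * f r) ‖x‖ := by
      intro x
      rw [ENNReal.toReal_ofReal (rdens_pos n _).le]
      rfl
    simp only [h2]
    rw [integral_fun_norm_addHaar (volume : Measure (E n)) (fun r => rdens n r * f r),
      finrank_euclideanSpace_fin]
    simp only [smul_eq_mul, nsmul_eq_mul]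
    ring
  rw [h1 (fun r => r), h1 (fun r => r⁻¹)]
  have hn' : (2 : ℝ) ≤ n := by exact_mod_cast hn
  have hA : ∫ y in Set.Ioi (0 : ℝ), y ^ (n - 1) * (rdens n y * y) =
      (2 * Real.pi) ^ (-(n : ℝ) / 2) *
        ∫ y in Set.Ioi (0 : ℝ), y ^ (n : ℝ) * Real.exp (-(1 / 2) * y ^ (2 : ℝ)) := by
    rw [← integral_const_mul]
    refine setIntegral_congr_fun measurableSet_Ioi fun y hy => ?_
    unfold rdens
    have hy' : (0 : ℝ) < y := hy
    rw [Real.rpow_natCast, Real.rpow_two]
    have h3 : y ^ n = y ^ (n - 1) * y := by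
      rw [← pow_succ, Nat.sub_add_cancel (by omega)]
    have h4 : -y ^ 2 / 2 = -(1 / 2) * y ^ 2 := by ring
    rw [h3, h4]
    ring
  have hB : ∫ y in Set.Ioi (0 : ℝ), y ^ (n - 1) * (rdens n y * y⁻¹) =
      (2 * Real.pi) ^ (-(n : ℝ) / 2) *
        ∫ y in Set.Ioi (0 : ℝ), y ^ ((n : ℝ) - 2) * Real.exp (-(1 / 2) * y ^ (2 : ℝ)) := by
    rw [← integral_const_mul]
    refine setIntegral_congr_fun measurableSet_Ioi fun y hy => ?_
    unfold rdens
    have hy' : (0 : ℝ) < y := hy
    have h3 : y ^ ((n : ℝ) - 2) = y ^ (n - 1) * y⁻¹ := by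
      have : ((n : ℝ) - 2) = ((n - 2 : ℕ) : ℝ) := by
        rw [Nat.cast_sub hn]; norm_num
      rw [this, Real.rpow_natCast]
      have h5 : y ^ (n - 1) = y ^ (n - 2) * y := by
        rw [← pow_succ]
        congr 1
        omega
      rw [h5]
      field_simp
    have h4 : -y ^ 2 / 2 = -(1 / 2) * y ^ 2 := by ring
    rw [h3, h4, Real.rpow_two]
    ring
  rw [hA, hB, integral_rpow_mul_exp_neg_mul_rpow (by norm_num) (by linarith) (by norm_num),
    integral_rpow_mul_exp_neg_mul_rpow (by norm_num) (by linarith) (by norm_num)]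
  have hG : Real.Gamma (((n : ℝ) + 1) / 2) = (((n : ℝ) - 1) / 2) * Real.Gamma (((n : ℝ) - 2 + 1) / 2) := by
    have : ((n : ℝ) + 1) / 2 = ((n : ℝ) - 2 + 1) / 2 + 1 := by ring
    rw [this, Real.Gamma_add_one (by
      have : (0 : ℝ) < ((n : ℝ) - 2 + 1) / 2 := by linarith
      exact this.ne')]
    ring
  have hP : ((1 : ℝ) / 2) ^ (-((n : ℝ) + 1) / 2) = 2 * (1 / 2) ^ (-((n : ℝ) - 2 + 1) / 2) := by
    have : -((n : ℝ) + 1) / 2 = -((n : ℝ) - 2 + 1) / 2 + (-1) := by ring
    rw [this, Real.rpow_add (by norm_num)]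
    have : ((1 : ℝ) / 2) ^ (-1 : ℝ) = 2 := by
      rw [Real.rpow_neg_one]; norm_num
    rw [this]
    ring
  rw [hG, hP]
  ring

end Vale.Agent.Propeller
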