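import Vale.Agent.Propeller.Cap3
import Vale.Agent.Propeller.Polar

namespace Vale.Agent.Propeller

open MeasureTheory ProbabilityTheory
open scoped InnerProductSpace

namespace Cap

theorem gauss_Ioi_zero : (gaussianReal 0 1).real (Set.Ioi 0) = 1 / 2 := by
  have h1 : (gaussianReal 0 1).real (Set.Iio (0 : ℝ)) = (gaussianReal 0 1).real (Set.Ioi 0) := by
    have h := gaussianReal_map_neg (μ := 0) (v := 1)
    rw [neg_zero] at h
    conv_lhs => rw [← h]
    rw [measureReal_def, Measure.map_apply (by fun_prop) measurableSet_Iio, measureReal_def]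
    congr 2
    ext x
    simp
  have h2 : (gaussianReal 0 1).real (Set.Iic (0 : ℝ)) + (gaussianReal 0 1).real (Set.Ioi 0) = 1 := by
    rw [← Set.compl_Iic, probReal_add_probReal_compl measurableSet_Iic]
  have h3 : (gaussianReal 0 1).real (Set.Iic (0 : ℝ)) = (gaussianReal 0 1).real (Set.Iio 0) := by
    have := nullSingletonClass_gaussianReal (μ := 0) one_ne_zero
    rw [measureReal_def, measureReal_def, measure_congr (MeasureTheory.Iio_ae_eq_Iic).symm]
  linarith

theorem int_norm (n : ℕ) : Integrable (fun x : E n => ‖x‖) (gs n) :=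
  (IsGaussian.integrable_id (μ := gs n)).norm

theorem zero_null (n : ℕ) (e : E n) (he : ‖e‖ = 1) : gs n {0} = 0 := by
  have h1 : gs n ((innerSL ℝ e) ⁻¹' {0}) = 0 := by
    rw [← Measure.map_apply (by fun_prop) (measurableSet_singleton 0), law_inner e he]
    have := nullSingletonClass_gaussianReal (μ := 0) one_ne_zero
    exact measure_singleton 0
  refine measure_mono_null ?_ h1
  intro x hx
  rw [Set.mem_singleton_iff] at hx
  simp [hx]

/-- the norm and the event of a cone are independent -/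
theorem cone_norm (n : ℕ) (e : E n) (he : ‖e‖ = 1) (A : Set (E n)) (hA : MeasurableSet A)
    (hpol : (gs n).map (fun x => (‖x‖, ‖x‖⁻¹ • x)) =
      ((gs n).map (fun x => ‖x‖)).prod ((gs n).map (fun x => ‖x‖⁻¹ • x)))
    (hcone : ∀ x ∈ A, ∀ t : ℝ, 0 < t → t • x ∈ A) :
    ∫ x in A, ‖x‖ ∂gs n = (∫ x, ‖x‖ ∂gs n) * (gs n).real A := by
  have hz := zero_null n e he
  have hmem : ∀ x : E n, x ≠ 0 → (‖x‖⁻¹ • x ∈ A ↔ x ∈ A) := by
    intro x hx
    have hx0 : 0 < ‖x‖ := norm_pos_iff.2 hx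
    refine ⟨fun h => ?_, fun h => hcone x h _ (inv_pos.2 hx0)⟩
    have := hcone _ h ‖x‖ hx0
    rwa [smul_smul, mul_inv_cancel₀ hx0.ne', one_smul] at this
  have hmeas : Measurable fun x : E n => ‖x‖⁻¹ • x := by fun_prop
  have hpair : Measurable fun x : E n => (‖x‖, ‖x‖⁻¹ • x) := by fun_prop
  have h1 : (gs n).real A = ((gs n).map (fun x => ‖x‖⁻¹ • x)).real A := by
    rw [measureReal_def, measureReal_def, Measure.map_apply hmeas hA]
    congr 1
    refine measure_congr ?_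
    have : ∀ᵐ x ∂gs n, x ≠ 0 := by
      rw [ae_iff]; simpa using hz
    filter_upwards [this] with x hx
    exact propext (hmem x hx).symm
  have h2 : ∫ x in A, ‖x‖ ∂gs n =
      ∫ q : ℝ × E n, q.1 * A.indicator (fun _ => (1 : ℝ)) q.2 ∂((gs n).map (fun x => (‖x‖, ‖x‖⁻¹ • x))) := by
    rw [integral_map hpair.aemeasurable, ← integral_indicator hA]
    · refine integral_congr_ae (Filter.Eventually.of_forall fun x => ?_)
      simp only
      by_cases hx : x = 0
      · simp [hx]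
      · by_cases hxA : x ∈ A
        · rw [Set.indicator_of_mem hxA, Set.indicator_of_mem ((hmem x hx).2 hxA), mul_one]
        · rw [Set.indicator_of_notMem hxA, Set.indicator_of_notMem (fun h => hxA ((hmem x hx).1 h)),
            mul_zero]
    · refine Measurable.aestronglyMeasurable ?_
      exact measurable_fst.mul ((measurable_const.indicator hA).comp measurable_snd)
  rw [h2, hpol, integral_prod_mul (fun r : ℝ => r) (A.indicator (fun _ => (1 : ℝ))),
    integral_map (by fun_prop) (by fun_prop), h1, integral_indicator hA]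
  simp

theorem int_excess (n : ℕ) (hn : 3 ≤ n) (e : E n) (he : ‖e‖ = 1) {c : ℝ} (hc : 0 ≤ c) (hc1 : c < 1) :
    ∫ x, max (⟪e, x⟫_ℝ - c * ‖x‖) 0 ∂gs n =
      (√(2 * Real.pi))⁻¹ * ((1 - c ^ 2) ^ (((n : ℝ) - 1) / 2)
        - ((n : ℝ) - 1) * c * (∫ s in c..1, (1 - s ^ 2) ^ (((n : ℝ) - 3) / 2))) := by
  have hn' : (3 : ℝ) ≤ n := by exact_mod_cast hn
  have hmeas : AEStronglyMeasurable (fun x : E n => max (⟪e, x⟫_ℝ - c * ‖x‖) 0) (gs n) := by
    refine Continuous.aestronglyMeasurable ?_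
    fun_prop
  have hnn : 0 ≤ᵐ[gs n] fun x : E n => max (⟪e, x⟫_ℝ - c * ‖x‖) 0 :=
    Filter.Eventually.of_forall fun x => le_max_right _ _
  rw [integral_eq_lintegral_of_nonneg_ae hnn hmeas]
  rcases hc.eq_or_lt with h0 | h0
  · rw [← h0]
    have h1 : ∫⁻ x, ENNReal.ofReal (max (⟪e, x⟫_ℝ - 0 * ‖x‖) 0) ∂gs n =
        ENNReal.ofReal ((√(2 * Real.pi))⁻¹) := by
      have h2 := slice n (by omega) e he le_rfl zero_lt_one
      rw [← lintegral_indicator (meas_cone e 0)] at h2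
      have h3 : ((√(2 * Real.pi))⁻¹ * (1 - (0 : ℝ) ^ 2) ^ (((n : ℝ) - 1) / 2)) = (√(2 * Real.pi))⁻¹ := by
        simp
      rw [h3] at h2
      rw [← h2]
      refine lintegral_congr fun x => ?_
      by_cases hx : 0 * ‖x‖ < ⟪e, x⟫_ℝ
      · rw [Set.indicator_of_mem (show x ∈ {x : E n | 0 * ‖x‖ < ⟪e, x⟫_ℝ} from hx)]
        rw [zero_mul] at hx
        rw [zero_mul, sub_zero, max_eq_left hx.le]
      · rw [Set.indicator_of_notMem (show x ∉ {x : E n | 0 * ‖x‖ < ⟪e, x⟫_ℝ} from hx)]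
        rw [zero_mul] at hx
        rw [zero_mul, sub_zero, max_eq_right (not_lt.1 hx), ENNReal.ofReal_zero]
    rw [h1, ENNReal.toReal_ofReal (by positivity)]
    simp
  · rw [excess n hn e he h0 hc1, ENNReal.toReal_ofReal]
    set p : ℝ := ((n : ℝ) - 1) / 2 with hp
    have hp1 : 1 ≤ p := by rw [hp]; linarith
    have hq : ((n : ℝ) - 3) / 2 = p - 1 := by rw [hp]; ring
    have hI := calc_int h0 hc1 hp1
    have : (n : ℝ) - 1 = 2 * p := by rw [hp]; ring
    rw [hq, this]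
    have h5 : (1 - c ^ 2) ^ p - 2 * p * c * (∫ s in c..1, (1 - s ^ 2) ^ (p - 1)) =
        c * ∫ s in c..1, (1 - s ^ 2) ^ p / s ^ 2 := by
      rw [hI]; field_simp
    rw [h5]
    have h6 : 0 ≤ ∫ s in c..1, (1 - s ^ 2) ^ p / s ^ 2 := by
      refine intervalIntegral.integral_nonneg hc1.le fun s hs => ?_
      have h2 : 0 ≤ (1 - s ^ 2) ^ p := Real.rpow_nonneg (by nlinarith [hs.1, hs.2]) p
      positivity
    positivity

theorem mn_le (n : ℕ) (hn : 3 ≤ n) (e : E n) (he : ‖e‖ = 1) :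
    √(2 * Real.pi) * ∫ x, ‖x‖ ∂gs n ≤
      2 * ((n : ℝ) - 1) * (∫ s in (0 : ℝ)..1, (1 - s ^ 2) ^ (((n : ℝ) - 3) / 2)) := by
  have hpol := polar n (by omega)
  have hn' : (3 : ℝ) ≤ n := by exact_mod_cast hn
  set p : ℝ := ((n : ℝ) - 1) / 2 with hp
  have hp1 : 1 ≤ p := by rw [hp]; linarith
  have hq : ((n : ℝ) - 3) / 2 = p - 1 := by rw [hp]; ring
  set J := ∫ s in (0 : ℝ)..1, (1 - s ^ 2) ^ (((n : ℝ) - 3) / 2) with hJ
  set m := ∫ x, ‖x‖ ∂gs n with hm
  have hpi : 0 < √(2 * Real.pi) := by positivity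
  have hn1 : (n : ℝ) - 1 = 2 * p := by rw [hp]; ring
  have hnn : ∀ s ∈ Set.Icc (0 : ℝ) 1, 0 ≤ (1 - s ^ 2) ^ (((n : ℝ) - 3) / 2) := by
    intro s hs
    exact Real.rpow_nonneg (by nlinarith [hs.1, hs.2]) _
  have hcts : Continuous fun s : ℝ => (1 - s ^ 2) ^ (((n : ℝ) - 3) / 2) :=
    Continuous.rpow_const (by fun_prop) (fun s => Or.inr (by linarith))
  have key : ∀ c : ℝ, 0 < c → c < 1 →
      √(2 * Real.pi) * (m * (gs n).real {x : E n | c * ‖x‖ < ⟪e, x⟫_ℝ}) ≤ p * c + 2 * p * J := by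
    intro c hc hc1
    have h1 := int_excess n hn e he le_rfl zero_lt_one
    have h2 := int_excess n hn e he hc.le hc1
    have hcone := cone_norm n e he {x : E n | c * ‖x‖ < ⟪e, x⟫_ℝ} (meas_cone e c) hpol (by
      intro x hx t ht
      simp only [Set.mem_ofPred_eq] at hx ⊢
      rw [norm_smul, inner_smul_right, Real.norm_eq_abs, abs_of_pos ht]
      nlinarith)
    rw [← hm] at hcone
    rw [← hcone]
    have hi : ∀ c : ℝ, Integrable (fun x : E n => max (⟪e, x⟫_ℝ - c * ‖x‖) 0) (gs n) := by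
      intro c
      have : Integrable (fun x : E n => ⟪e, x⟫_ℝ - c * ‖x‖) (gs n) := by
        refine Integrable.sub ?_ ((int_norm n).const_mul c)
        exact (IsGaussian.integrable_dual (gs n) (innerSL ℝ e))
      exact this.sup (integrable_zero _ _ _)
    have h3 : ∫ x in {x : E n | c * ‖x‖ < ⟪e, x⟫_ℝ}, c * ‖x‖ ∂gs n ≤
        ∫ x, (max (⟪e, x⟫_ℝ - 0 * ‖x‖) 0 - max (⟪e, x⟫_ℝ - c * ‖x‖) 0) ∂gs n := by
      rw [← integral_indicator (meas_cone e c)]
      refine integral_mono ?_ ((hi 0).sub (hi c)) fun x => ?_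
      · exact ((int_norm n).const_mul c).indicator (meas_cone e c)
      · simp only
        by_cases hx : c * ‖x‖ < ⟪e, x⟫_ℝ
        · rw [Set.indicator_of_mem (show x ∈ {x : E n | c * ‖x‖ < ⟪e, x⟫_ℝ} from hx),
            max_eq_left (by linarith : 0 ≤ ⟪e, x⟫_ℝ - c * ‖x‖)]
          have := le_max_left (⟪e, x⟫_ℝ - 0 * ‖x‖) 0
          linarith
        · rw [Set.indicator_of_notMem (show x ∉ {x : E n | c * ‖x‖ < ⟪e, x⟫_ℝ} from hx),
            max_eq_right (by linarith : ⟪e, x⟫_ℝ - c * ‖x‖ ≤ 0)]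
          have := le_max_right (⟪e, x⟫_ℝ - 0 * ‖x‖) 0
          linarith
    rw [integral_sub (hi 0) (hi c), h1, h2, integral_const_mul] at h3
    have h4 : √(2 * Real.pi) * (c * ∫ x in {x : E n | c * ‖x‖ < ⟪e, x⟫_ℝ}, ‖x‖ ∂gs n) ≤
        1 - ((1 - c ^ 2) ^ p - 2 * p * c * (∫ s in c..1, (1 - s ^ 2) ^ (((n : ℝ) - 3) / 2))) := by
      have h5 := mul_le_mul_of_nonneg_left h3 hpi.le
      refine h5.trans (le_of_eq ?_)
      rw [hn1]
      rw [mul_sub, ← mul_assoc, ← mul_assoc, mul_inv_cancel₀ hpi.ne']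
      simp
    have h6 : 1 - p * c ^ 2 ≤ (1 - c ^ 2) ^ p := by
      have := one_add_mul_self_le_rpow_one_add (s := -c ^ 2) (by nlinarith) hp1
      calc 1 - p * c ^ 2 = 1 + p * (-c ^ 2) := by ring
        _ ≤ (1 + -c ^ 2) ^ p := this
        _ = _ := by rw [← sub_eq_add_neg]
    have h7 : (∫ s in c..1, (1 - s ^ 2) ^ (((n : ℝ) - 3) / 2)) ≤ J := by
      have := intervalIntegral.integral_add_adjacent_intervals
        (hcts.intervalIntegrable (μ := volume) 0 c) (hcts.intervalIntegrable (μ := volume) c 1)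
      rw [hJ, ← this]
      have h0 : 0 ≤ ∫ s in (0 : ℝ)..c, (1 - s ^ 2) ^ (((n : ℝ) - 3) / 2) :=
        intervalIntegral.integral_nonneg hc.le fun s hs => hnn s ⟨hs.1, hs.2.trans hc1.le⟩
      linarith
    have h8 : c * (√(2 * Real.pi) * ∫ x in {x : E n | c * ‖x‖ < ⟪e, x⟫_ℝ}, ‖x‖ ∂gs n) ≤
        c * (p * c + 2 * p * J) := by
      have h9 : 2 * p * c * (∫ s in c..1, (1 - s ^ 2) ^ (((n : ℝ) - 3) / 2)) ≤ 2 * p * c * J :=
        mul_le_mul_of_nonneg_left h7 (by positivity)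
      nlinarith
    exact le_of_mul_le_mul_left h8 hc
  -- limit
  have hmono : Monotone fun k : ℕ => {x : E n | (1 / ((k : ℝ) + 2)) * ‖x‖ < ⟪e, x⟫_ℝ} := by
    intro a b hab x hx
    simp only [Set.mem_ofPred_eq] at hx ⊢
    refine lt_of_le_of_lt ?_ hx
    refine mul_le_mul_of_nonneg_right ?_ (norm_nonneg x)
    have : (a : ℝ) ≤ b := by exact_mod_cast hab
    exact one_div_le_one_div_of_le (by positivity) (by linarith)
  have hlim := tendsto_measure_iUnion_atTop (μ := gs n) hmono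
  have hU : (⋃ k : ℕ, {x : E n | (1 / ((k : ℝ) + 2)) * ‖x‖ < ⟪e, x⟫_ℝ}) = {x : E n | 0 < ⟪e, x⟫_ℝ} := by
    ext x
    simp only [Set.mem_iUnion, Set.mem_ofPred_eq]
    constructor
    · rintro ⟨k, hk⟩
      exact lt_of_le_of_lt (by positivity) hk
    · intro hx
      obtain ⟨k, hk⟩ := exists_nat_gt (‖x‖ / ⟪e, x⟫_ℝ)
      refine ⟨k, ?_⟩
      rw [div_lt_iff₀ hx] at hk
      rw [one_div, inv_mul_lt_iff₀ (by positivity)]
      nlinarith
  rw [hU] at hlim
  have hhalf : gs n {x : E n | 0 < ⟪e, x⟫_ℝ} = gaussianReal 0 1 (Set.Ioi 0) := by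
    rw [← law_inner e he, Measure.map_apply (by fun_prop) measurableSet_Ioi]
    rfl
  have hlim2 : Filter.Tendsto (fun k : ℕ => (gs n).real {x : E n | (1 / ((k : ℝ) + 2)) * ‖x‖ < ⟪e, x⟫_ℝ})
      Filter.atTop (nhds (1 / 2)) := by
    rw [← gauss_Ioi_zero, measureReal_def, ← hhalf]
    exact (ENNReal.tendsto_toReal (measure_ne_top _ _)).comp hlim
  have hl1 : Filter.Tendsto (fun k : ℕ => √(2 * Real.pi) * (m *
      (gs n).real {x : E n | (1 / ((k : ℝ) + 2)) * ‖x‖ < ⟪e, x⟫_ℝ})) Filter.atTop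
      (nhds (√(2 * Real.pi) * (m * (1 / 2)))) := (hlim2.const_mul m).const_mul _
  have hl2 : Filter.Tendsto (fun k : ℕ => p * (1 / ((k : ℝ) + 2)) + 2 * p * J) Filter.atTop
      (nhds (p * 0 + 2 * p * J)) := by
    refine Filter.Tendsto.add ?_ tendsto_const_nhds
    refine Filter.Tendsto.const_mul p ?_
    have h := tendsto_one_div_add_atTop_nhds_zero_nat (𝕜 := ℝ)
    have h2 := (Filter.tendsto_add_atTop_iff_nat 1).2 h
    refine h2.congr fun k => ?_
    push_cast
    ring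
  have hfin := le_of_tendsto_of_tendsto' hl1 hl2 (fun k => key _ (by positivity) (by
    rw [div_lt_one (by positivity)]
    have : (0 : ℝ) ≤ k := by positivity
    linarith))
  rw [hn1]
  linarith

end Cap

/-- Part CAP: cap bound for cones in `ℝⁿ`. -/
theorem cap_lin (n : ℕ) (hn : 3 ≤ n) (A : Set (E n)) (hA : MeasurableSet A)
    (hcone : ∀ x ∈ A, ∀ t : ℝ, 0 < t → t • x ∈ A) (c : ℝ) (hc0 : 0 ≤ c) (hc1 : c < 1) :
    Real.sqrt (2 * Real.pi) * ‖∫ x in A, x ∂gs n‖ ≤
      (1 - c ^ 2) ^ (((n : ℝ) - 1) / 2)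
        - ((n : ℝ) - 1) * c * (∫ s in c..1, (1 - s ^ 2) ^ (((n : ℝ) - 3) / 2))
        + 2 * ((n : ℝ) - 1) * (∫ s in (0 : ℝ)..1, (1 - s ^ 2) ^ (((n : ℝ) - 3) / 2)) * c
          * (gs n A).toReal := by
  set z := ∫ x in A, x ∂gs n with hz
  obtain ⟨e, he, hez⟩ : ∃ e : E n, ‖e‖ = 1 ∧ ⟪e, z⟫_ℝ = ‖z‖ := by
    by_cases h0 : z = 0
    · refine ⟨EuclideanSpace.single ⟨0, by omega⟩ 1, by simp, by simp [h0]⟩
    · have hz0 : 0 < ‖z‖ := norm_pos_iff.2 h0
      refine ⟨‖z‖⁻¹ • z, by rw [norm_smul, norm_inv, norm_norm, inv_mul_cancel₀ hz0.ne'], ?_⟩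
      rw [inner_smul_left, real_inner_self_eq_norm_sq]
      simp only [conj_trivial]
      field_simp
  have hpi : 0 < √(2 * Real.pi) := by positivity
  have hid : Integrable (fun x : E n => x) (gs n) := IsGaussian.integrable_id
  have hie : Integrable (fun x : E n => ⟪e, x⟫_ℝ) (gs n) :=
    IsGaussian.integrable_dual (gs n) (innerSL ℝ e)
  have h1 : ‖z‖ = ∫ x in A, ⟪e, x⟫_ℝ ∂gs n := by
    rw [← hez, hz]
    exact (integral_inner hid.integrableOn e).symm
  have hi : Integrable (fun x : E n => max (⟪e, x⟫_ℝ - c * ‖x‖) 0) (gs n) := by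
    have : Integrable (fun x : E n => ⟪e, x⟫_ℝ - c * ‖x‖) (gs n) :=
      hie.sub ((Cap.int_norm n).const_mul c)
    exact this.sup (integrable_zero _ _ _)
  have h2 : ‖z‖ ≤ (∫ x in A, max (⟪e, x⟫_ℝ - c * ‖x‖) 0 ∂gs n) + c * ∫ x in A, ‖x‖ ∂gs n := by
    rw [h1, ← integral_const_mul, ← integral_add hi.integrableOn
      ((Cap.int_norm n).const_mul c).integrableOn]
    refine integral_mono hie.integrableOn (hi.integrableOn.add
      ((Cap.int_norm n).const_mul c).integrableOn) fun x => ?_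
    have := le_max_left (⟪e, x⟫_ℝ - c * ‖x‖) 0
    simp only
    linarith
  have h3 : (∫ x in A, max (⟪e, x⟫_ℝ - c * ‖x‖) 0 ∂gs n) ≤
      ∫ x, max (⟪e, x⟫_ℝ - c * ‖x‖) 0 ∂gs n :=
    setIntegral_le_integral hi (Filter.Eventually.of_forall fun x => le_max_right _ _)
  rw [Cap.int_excess n hn e he hc0 hc1] at h3
  rw [Cap.cone_norm n e he A hA (polar n (by omega)) hcone] at h2
  have hm := Cap.mn_le n hn e he
  set m := ∫ x, ‖x‖ ∂gs n with hmdef
  set J := ∫ s in (0 : ℝ)..1, (1 - s ^ 2) ^ (((n : ℝ) - 3) / 2) with hJ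
  set K := (1 - c ^ 2) ^ (((n : ℝ) - 1) / 2)
        - ((n : ℝ) - 1) * c * (∫ s in c..1, (1 - s ^ 2) ^ (((n : ℝ) - 3) / 2)) with hK
  have h4 : ‖z‖ ≤ (√(2 * Real.pi))⁻¹ * K + c * (m * (gs n).real A) := h2.trans (by linarith)
  have h5 := mul_le_mul_of_nonneg_left h4 hpi.le
  have h6 : √(2 * Real.pi) * ((√(2 * Real.pi))⁻¹ * K + c * (m * (gs n).real A)) =
      K + (√(2 * Real.pi) * m) * (c * (gs n).real A) := by
    field_simp
  rw [h6] at h5
  have h7 : (√(2 * Real.pi) * m) * (c * (gs n).real A) ≤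
      (2 * ((n : ℝ) - 1) * J) * (c * (gs n).real A) :=
    mul_le_mul_of_nonneg_right hm (by positivity)
  have h8 : (gs n A).toReal = (gs n).real A := rfl
  rw [h8]
  linarith


namespace Cap

/-- one dimensional excess -/
theorem excess1 (a : ℝ) (ha : 0 ≤ a) :
    ∫ t, max (t - a) 0 ∂gaussianReal 0 1 = ph a - a * (gaussianReal 0 1).real (Set.Ioi a) := by
  have hid : Integrable (fun t : ℝ => t) (gaussianReal 0 1) :=
    IsGaussian.integrable_id (μ := gaussianReal 0 1)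
  have h1 : ∫ t in Set.Ioi a, t ∂gaussianReal 0 1 = ph a := by
    rw [integral_eq_lintegral_of_nonneg_ae, lint_Ioi a ha, ENNReal.toReal_ofReal (ph_nonneg a)]
    · refine (ae_restrict_iff' measurableSet_Ioi).2 (Filter.Eventually.of_forall fun x hx => ?_)
      exact ha.trans (le_of_lt hx)
    · exact hid.integrableOn.aestronglyMeasurable
  have h2 : ∀ t : ℝ, max (t - a) 0 = (Set.Ioi a).indicator (fun t => t - a) t := by
    intro t
    by_cases h : a < t
    · rw [Set.indicator_of_mem (show t ∈ Set.Ioi a from h), max_eq_left (by linarith)]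
    · rw [Set.indicator_of_notMem (show t ∉ Set.Ioi a from h), max_eq_right (by linarith)]
  simp_rw [h2]
  rw [integral_indicator measurableSet_Ioi, integral_sub hid.integrableOn (integrable_const a), h1,
    integral_const]
  simp [mul_comm]

end Cap

/-- Part CAP: half-space bound for arbitrary sets. -/
theorem half_lin (n : ℕ) (A : Set (E n)) (hA : MeasurableSet A) (a : ℝ) (ha : 0 ≤ a) :
    Real.sqrt (2 * Real.pi) * ‖∫ x in A, x ∂gs n‖ ≤
      Real.exp (-a ^ 2 / 2) + Real.sqrt (2 * Real.pi) * a *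
        ((gs n A).toReal - (gaussianReal 0 1 (Set.Ioi a)).toReal) := by
  set z := ∫ x in A, x ∂gs n with hz
  have hpi : 0 < √(2 * Real.pi) := by positivity
  have hph : √(2 * Real.pi) * Cap.ph a = Real.exp (-a ^ 2 / 2) := by
    rw [Cap.ph, ← mul_assoc, mul_inv_cancel₀ hpi.ne', one_mul]
  have hex := Cap.excess1 a ha
  have hnn : 0 ≤ ∫ t, max (t - a) 0 ∂gaussianReal 0 1 :=
    integral_nonneg fun t => le_max_right _ _
  have hA0 : 0 ≤ (gs n A).toReal := ENNReal.toReal_nonneg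
  have hg : (gaussianReal 0 1 (Set.Ioi a)).toReal = (gaussianReal 0 1).real (Set.Ioi a) := rfl
  rw [hg]
  suffices h : ‖z‖ ≤ (∫ t, max (t - a) 0 ∂gaussianReal 0 1) + a * (gs n A).toReal by
    have h2 := mul_le_mul_of_nonneg_left h hpi.le
    rw [hex] at h2
    rw [← hph]
    refine h2.trans (le_of_eq ?_)
    ring
  by_cases h0 : z = 0
  · rw [h0, norm_zero]
    positivity
  · have hz0 : 0 < ‖z‖ := norm_pos_iff.2 h0
    set e := ‖z‖⁻¹ • z with hedef
    have he : ‖e‖ = 1 := by rw [hedef, norm_smul, norm_inv, norm_norm, inv_mul_cancel₀ hz0.ne']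
    have hez : ⟪e, z⟫_ℝ = ‖z‖ := by
      rw [hedef, inner_smul_left, real_inner_self_eq_norm_sq]
      simp only [conj_trivial]
      field_simp
    have hid : Integrable (fun x : E n => x) (gs n) := IsGaussian.integrable_id
    have hie : Integrable (fun x : E n => ⟪e, x⟫_ℝ) (gs n) :=
      IsGaussian.integrable_dual (gs n) (innerSL ℝ e)
    have h1 : ‖z‖ = ∫ x in A, ⟪e, x⟫_ℝ ∂gs n := by
      rw [← hez, hz]
      exact (integral_inner hid.integrableOn e).symm
    have hi : Integrable (fun x : E n => max (⟪e, x⟫_ℝ - a) 0) (gs n) := by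
      have : Integrable (fun x : E n => ⟪e, x⟫_ℝ - a) (gs n) := hie.sub (integrable_const a)
      exact this.sup (integrable_zero _ _ _)
    have h2 : ‖z‖ ≤ (∫ x in A, max (⟪e, x⟫_ℝ - a) 0 ∂gs n) + ∫ x in A, a ∂gs n := by
      rw [h1, ← integral_add hi.integrableOn (integrable_const a)]
      refine integral_mono hie.integrableOn (hi.integrableOn.add (integrable_const a)) fun x => ?_
      have := le_max_left (⟪e, x⟫_ℝ - a) 0
      simp only
      linarith
    have h3 : (∫ x in A, max (⟪e, x⟫_ℝ - a) 0 ∂gs n) ≤ ∫ x, max (⟪e, x⟫_ℝ - a) 0 ∂gs n :=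
      setIntegral_le_integral hi (Filter.Eventually.of_forall fun x => le_max_right _ _)
    have h4 : ∫ x, max (⟪e, x⟫_ℝ - a) 0 ∂gs n = ∫ t, max (t - a) 0 ∂gaussianReal 0 1 := by
      rw [← Cap.law_inner e he, integral_map (by fun_prop) (by fun_prop)]
      rfl
    rw [h4] at h3
    have h5 : ∫ x in A, a ∂gs n = a * (gs n A).toReal := by
      rw [integral_const]
      simp [measureReal_def, mul_comm]
    rw [h5] at h2
    linarith

end Vale.Agent.Propeller
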