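import Vale.Agent.Propeller.Defs

namespace Vale.Agent.Propeller

open MeasureTheory ProbabilityTheory
open scoped InnerProductSpace

namespace Cap

/-- standard normal density -/
noncomputable def ph (a : ℝ) : ℝ := (√(2 * Real.pi))⁻¹ * Real.exp (-a ^ 2 / 2)

theorem ph_nonneg (a : ℝ) : 0 ≤ ph a := by
  rw [ph]; positivity

theorem pdf_eq (x : ℝ) : gaussianPDFReal 0 1 x = ph x := by
  rw [gaussianPDFReal, ph]
  simp

theorem ph_deriv (x : ℝ) : HasDerivAt (fun x => -ph x) (ph x * x) x := by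
  have h1 : HasDerivAt (fun x : ℝ => -x ^ 2 / 2) (-x) x := by
    have := ((hasDerivAt_pow 2 x).neg.div_const 2)
    refine this.congr_deriv ?_
    push_cast
    ring
  have h2 := (h1.exp.const_mul ((√(2 * Real.pi))⁻¹)).neg
  refine h2.congr_deriv ?_
  rw [ph]; ring

theorem ph_tendsto : Filter.Tendsto (fun x => -ph x) Filter.atTop (nhds 0) := by
  have h1 : Filter.Tendsto (fun x : ℝ => -x ^ 2 / 2) Filter.atTop Filter.atBot := by
    have : Filter.Tendsto (fun x : ℝ => x ^ 2) Filter.atTop Filter.atTop :=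
      Filter.tendsto_pow_atTop (by norm_num)
    have h2 := Filter.tendsto_neg_atTop_atBot.comp (this.atTop_div_const (show (0 : ℝ) < 2 by norm_num))
    refine h2.congr fun x => ?_
    simp [neg_div]
  have h3 := ((Real.tendsto_exp_atBot.comp h1).const_mul ((√(2 * Real.pi))⁻¹)).neg
  simpa [ph] using h3

theorem integrableOn_ph (a : ℝ) (ha : 0 ≤ a) : IntegrableOn (fun x => ph x * x) (Set.Ioi a) :=
  integrableOn_Ioi_deriv_of_nonneg' (fun x _ => ph_deriv x)
    (fun x hx => mul_nonneg (ph_nonneg x) (ha.trans (le_of_lt hx))) ph_tendsto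

theorem int_ph (a : ℝ) (ha : 0 ≤ a) : ∫ x in Set.Ioi a, ph x * x = ph a := by
  have := integral_Ioi_of_hasDerivAt_of_nonneg' (fun x _ => ph_deriv x)
    (fun x (hx : x ∈ Set.Ioi a) => mul_nonneg (ph_nonneg x) (ha.trans (le_of_lt hx))) ph_tendsto
  simpa using this

/-- first moment of the upper tail -/
theorem lint_Ioi (a : ℝ) (ha : 0 ≤ a) :
    ∫⁻ t in Set.Ioi a, ENNReal.ofReal t ∂gaussianReal 0 1 = ENNReal.ofReal (ph a) := by
  rw [gaussianReal, if_neg one_ne_zero,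
    setLIntegral_withDensity_eq_setLIntegral_mul _ (measurable_gaussianPDF 0 1)
      (by fun_prop) measurableSet_Ioi, ← int_ph a ha,
    ofReal_integral_eq_lintegral_ofReal (integrableOn_ph a ha)]
  · refine setLIntegral_congr_fun measurableSet_Ioi fun x hx => ?_
    simp only [Pi.mul_apply, gaussianPDF, pdf_eq]
    rw [← ENNReal.ofReal_mul (ph_nonneg x)]
  · refine (ae_restrict_iff' measurableSet_Ioi).2 (Filter.Eventually.of_forall fun x hx => ?_)
    exact mul_nonneg (ph_nonneg x) (ha.trans (le_of_lt hx))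

theorem mgf1 (κ : ℝ) :
    ∫ t, Real.exp (-κ ^ 2 * t ^ 2 / 2) ∂gaussianReal 0 1 = (√(1 + κ ^ 2))⁻¹ := by
  rw [integral_gaussianReal_eq_integral_smul one_ne_zero]
  have h1 : ∀ x : ℝ, gaussianPDFReal 0 1 x • Real.exp (-κ ^ 2 * x ^ 2 / 2) =
      (√(2 * Real.pi))⁻¹ * Real.exp (-((1 + κ ^ 2) / 2) * x ^ 2) := by
    intro x
    rw [pdf_eq, ph, smul_eq_mul, mul_assoc, ← Real.exp_add]
    congr 2
    ring
  simp_rw [h1]
  rw [integral_const_mul, integral_gaussian]
  have h2 : Real.pi / ((1 + κ ^ 2) / 2) = (2 * Real.pi) / (1 + κ ^ 2) := by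
    field_simp
  rw [h2, Real.sqrt_div (by positivity)]
  have h3 : √(2 * Real.pi) ≠ 0 := by positivity
  field_simp

theorem mgfn (n : ℕ) (κ : ℝ) :
    ∫ x, Real.exp (-κ ^ 2 * ‖x‖ ^ 2 / 2) ∂gs n = (√(1 + κ ^ 2))⁻¹ ^ n := by
  have h := map_pi_eq_stdGaussian (ι := Fin n)
  rw [gs, ← h, integral_map (by fun_prop) (by fun_prop)]
  have h1 : ∀ x : Fin n → ℝ, Real.exp (-κ ^ 2 * ‖WithLp.toLp 2 x‖ ^ 2 / 2) =
      ∏ i, Real.exp (-κ ^ 2 * x i ^ 2 / 2) := by
    intro x
    rw [← Real.exp_sum, EuclideanSpace.real_norm_sq_eq]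
    congr 1
    rw [Finset.mul_sum, Finset.sum_div]
  simp_rw [h1]
  rw [integral_fintype_prod_eq_prod (f := fun _ (t : ℝ) => Real.exp (-κ ^ 2 * t ^ 2 / 2)), mgf1,
    Finset.prod_const, Finset.card_univ, Fintype.card_fin]

/-- removing the component along `e` -/
noncomputable def rmv {d : ℕ} (e : E d) : E d →L[ℝ] E d :=
  ContinuousLinearMap.id ℝ (E d) - (innerSL ℝ e).smulRight e

theorem rmv_apply {d : ℕ} (e x : E d) : rmv e x = x - ⟪e, x⟫_ℝ • e := rfl

theorem indep_rmv {d : ℕ} (e : E d) (he : ‖e‖ = 1) :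
    IndepFun (rmv e) (innerSL ℝ e) (gs d) := by
  have hG : HasGaussianLaw (fun ω : E d => (rmv e ω, innerSL ℝ e ω)) (gs d) := by
    have := (IsGaussian.hasGaussianLaw_id (μ := stdGaussian (E d))).map_fun
      ((rmv e).prod (innerSL ℝ e))
    simpa using this
  refine hG.indepFun_of_covariance_inner ?_
  intro x y
  have hee : ⟪e, e⟫_ℝ = 1 := by rw [real_inner_self_eq_norm_sq, he]; norm_num
  have h1 : (fun ω : E d => ⟪x, rmv e ω⟫_ℝ) = fun ω => ⟪x - ⟪x, e⟫_ℝ • e, ω⟫_ℝ := by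
    funext ω
    rw [rmv_apply, inner_sub_right, inner_smul_right, inner_sub_left, inner_smul_left]
    simp only [conj_trivial]
    ring
  have h2 : (fun ω : E d => ⟪y, innerSL ℝ e ω⟫_ℝ) = fun ω => ⟪y • e, ω⟫_ℝ := by
    funext ω
    rw [inner_smul_left, innerSL_apply_apply]
    simp [mul_comm]
  rw [h1, h2, ← covarianceBilin_apply_eq_cov IsGaussian.memLp_two_id, covarianceBilin_stdGaussian]
  rw [innerSL_apply_apply, inner_smul_right, inner_sub_left, inner_smul_left, hee]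
  simp

theorem law_inner {d : ℕ} (e : E d) (he : ‖e‖ = 1) :
    (gs d).map (innerSL ℝ e) = gaussianReal 0 1 := by
  have h := (IsGaussian.hasGaussianLaw_id (μ := stdGaussian (E d))).map_fun (innerSL ℝ e)
  have h2 := h.map_eq_gaussianReal
  simp only [id] at h2
  rw [integral_strongDual_stdGaussian, variance_dual_stdGaussian] at h2
  simpa [he] using h2

theorem law_pair {d : ℕ} (e : E d) (he : ‖e‖ = 1) :
    (gs d).map (fun x => (rmv e x, innerSL ℝ e x)) =
      ((gs d).map (rmv e)).prod (gaussianReal 0 1) := by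
  have hind := indep_rmv e he
  rw [indepFun_iff_map_prod_eq_prod_map_map (by fun_prop) (by fun_prop)] at hind
  rw [hind, law_inner e he]

theorem norm_rmv {d : ℕ} (e : E d) (he : ‖e‖ = 1) (x : E d) :
    ‖x‖ ^ 2 = ‖rmv e x‖ ^ 2 + (innerSL ℝ e x) ^ 2 := by
  rw [rmv_apply, innerSL_apply_apply, norm_sub_sq_real, inner_smul_right, norm_smul, he,
    real_inner_comm, Real.norm_eq_abs, mul_one, sq_abs]
  ring

theorem mgf_rmv (n : ℕ) (κ : ℝ) (e : E n) (he : ‖e‖ = 1) :
    (∫ y, Real.exp (-κ ^ 2 * ‖y‖ ^ 2 / 2) ∂((gs n).map (rmv e))) * (√(1 + κ ^ 2))⁻¹ =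
      (√(1 + κ ^ 2))⁻¹ ^ n := by
  rw [← mgf1 κ, ← integral_prod_mul, ← law_pair e he, integral_map (by fun_prop) (by fun_prop), mgf1,
    ← mgfn]
  refine integral_congr_ae (Filter.Eventually.of_forall fun x => ?_)
  simp only
  rw [← Real.exp_add, norm_rmv e he x]
  congr 1
  ring

end Cap

end Vale.Agent.Propeller
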