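import Vale.Agent.Propeller.Cap1

namespace Vale.Agent.Propeller

open MeasureTheory ProbabilityTheory
open scoped InnerProductSpace

namespace Cap

/-- `κ = s / √(1 - s²)` -/
noncomputable def kap (s : ℝ) : ℝ := s / √(1 - s ^ 2)

theorem one_sub_sq_pos {s : ℝ} (h0 : 0 ≤ s) (h1 : s < 1) : 0 < 1 - s ^ 2 := by nlinarith

theorem kap_nonneg {s : ℝ} (h0 : 0 ≤ s) : 0 ≤ kap s := by rw [kap]; positivity

theorem kap_sq {s : ℝ} (h0 : 0 ≤ s) (h1 : s < 1) : kap s ^ 2 * (1 - s ^ 2) = s ^ 2 := by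
  have h := one_sub_sq_pos h0 h1
  rw [kap, div_pow, Real.sq_sqrt h.le]
  field_simp

theorem inv_sqrt_kap {s : ℝ} (h0 : 0 ≤ s) (h1 : s < 1) :
    (√(1 + kap s ^ 2))⁻¹ = √(1 - s ^ 2) := by
  have h := one_sub_sq_pos h0 h1
  have h2 : 1 + kap s ^ 2 = (1 - s ^ 2)⁻¹ := by
    refine eq_inv_of_mul_eq_one_left ?_
    rw [add_mul, kap_sq h0 h1]
    ring
  rw [h2, Real.sqrt_inv, inv_inv]

/-- the condition `s ‖x‖ < ⟪e, x⟫` in the coordinates `(y, t)` -/
theorem cone_iff {s r t N : ℝ} (h0 : 0 ≤ s) (h1 : s < 1) (hr : 0 ≤ r) (hN : 0 ≤ N)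
    (hN2 : N ^ 2 = r ^ 2 + t ^ 2) : s * N < t ↔ kap s * r < t := by
  have h := one_sub_sq_pos h0 h1
  have hk := kap_sq h0 h1
  have hk0 := kap_nonneg h0
  constructor
  · intro hlt
    have ht : 0 < t := lt_of_le_of_lt (by positivity) hlt
    have h3 : (s * N) ^ 2 < t ^ 2 := by
      apply pow_lt_pow_left₀ hlt (by positivity) (by norm_num)
    have h4 : (kap s * r) ^ 2 < t ^ 2 := by
      have h5 : (1 - s ^ 2) * (kap s * r) ^ 2 < (1 - s ^ 2) * t ^ 2 := by
        calc (1 - s ^ 2) * (kap s * r) ^ 2 = (kap s ^ 2 * (1 - s ^ 2)) * r ^ 2 := by ring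
          _ = s ^ 2 * r ^ 2 := by rw [hk]
          _ < (1 - s ^ 2) * t ^ 2 := by
              have : (s * N) ^ 2 = s ^ 2 * (r ^ 2 + t ^ 2) := by rw [mul_pow, hN2]
              nlinarith
      exact lt_of_mul_lt_mul_left h5 h.le
    exact lt_of_pow_lt_pow_left₀ 2 ht.le h4
  · intro hlt
    have ht : 0 < t := lt_of_le_of_lt (by positivity) hlt
    have h3 : (kap s * r) ^ 2 < t ^ 2 := by
      apply pow_lt_pow_left₀ hlt (by positivity) (by norm_num)
    have h4 : (s * N) ^ 2 < t ^ 2 := by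
      have h5 := mul_lt_mul_of_pos_left h3 h
      have h6 : (1 - s ^ 2) * (kap s * r) ^ 2 = s ^ 2 * r ^ 2 := by
        calc (1 - s ^ 2) * (kap s * r) ^ 2 = (kap s ^ 2 * (1 - s ^ 2)) * r ^ 2 := by ring
          _ = s ^ 2 * r ^ 2 := by rw [hk]
      rw [h6] at h5
      have : (s * N) ^ 2 = s ^ 2 * (r ^ 2 + t ^ 2) := by rw [mul_pow, hN2]
      nlinarith
    exact lt_of_pow_lt_pow_left₀ 2 ht.le h4

theorem meas_cone {n : ℕ} (e : E n) (s : ℝ) : MeasurableSet {x : E n | s * ‖x‖ < ⟪e, x⟫_ℝ} :=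
  measurableSet_lt (by fun_prop) (by fun_prop)

/-- first moment of a spherical cap cone -/
theorem slice (n : ℕ) (hn : 1 ≤ n) (e : E n) (he : ‖e‖ = 1) {s : ℝ} (h0 : 0 ≤ s) (h1 : s < 1) :
    ∫⁻ x in {x : E n | s * ‖x‖ < ⟪e, x⟫_ℝ}, ENNReal.ofReal ⟪e, x⟫_ℝ ∂gs n =
      ENNReal.ofReal ((√(2 * Real.pi))⁻¹ * (1 - s ^ 2) ^ (((n : ℝ) - 1) / 2)) := by
  have hs := one_sub_sq_pos h0 h1
  rw [← lintegral_indicator (meas_cone e s)]
  let T : Set (E n × ℝ) := {q | kap s * ‖q.1‖ < q.2}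
  have hT : MeasurableSet T := measurableSet_lt (by fun_prop) (by fun_prop)
  have hi : ∀ x : E n, ({x : E n | s * ‖x‖ < ⟪e, x⟫_ℝ}.indicator (fun x => ENNReal.ofReal ⟪e, x⟫_ℝ)) x =
      (T.indicator (fun q => ENNReal.ofReal q.2)) (rmv e x, innerSL ℝ e x) := by
    intro x
    have hc := cone_iff h0 h1 (norm_nonneg (rmv e x)) (norm_nonneg x) (norm_rmv e he x)
    rw [innerSL_apply_apply] at hc
    by_cases hx : s * ‖x‖ < ⟪e, x⟫_ℝ
    · rw [Set.indicator_of_mem (show x ∈ {x : E n | s * ‖x‖ < ⟪e, x⟫_ℝ} from hx),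
        Set.indicator_of_mem (show (rmv e x, innerSL ℝ e x) ∈ T from hc.1 hx)]
      rfl
    · rw [Set.indicator_of_notMem (show x ∉ {x : E n | s * ‖x‖ < ⟪e, x⟫_ℝ} from hx),
        Set.indicator_of_notMem (show (rmv e x, innerSL ℝ e x) ∉ T from fun h => hx (hc.2 h))]
  simp_rw [hi]
  have hmeas : Measurable (T.indicator (fun q : E n × ℝ => ENNReal.ofReal q.2)) :=
    Measurable.indicator (by fun_prop) hT
  rw [← lintegral_map (μ := gs n) (g := fun x => (rmv e x, innerSL ℝ e x)) hmeas (by fun_prop),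
    law_pair e he, lintegral_prod _ hmeas.aemeasurable]
  have hin : ∀ y : E n, ∫⁻ t, T.indicator (fun q => ENNReal.ofReal q.2) (y, t) ∂gaussianReal 0 1 =
      ENNReal.ofReal (ph (kap s * ‖y‖)) := by
    intro y
    rw [← lint_Ioi _ (mul_nonneg (kap_nonneg h0) (norm_nonneg y)), ← lintegral_indicator measurableSet_Ioi]
    refine lintegral_congr fun t => ?_
    by_cases ht : kap s * ‖y‖ < t
    · rw [Set.indicator_of_mem (show (y, t) ∈ T from ht),
        Set.indicator_of_mem (show t ∈ Set.Ioi (kap s * ‖y‖) from ht)]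
    · rw [Set.indicator_of_notMem (show (y, t) ∉ T from ht),
        Set.indicator_of_notMem (show t ∉ Set.Ioi (kap s * ‖y‖) from ht)]
  simp_rw [hin]
  have hp : ∀ y : E n, ph (kap s * ‖y‖) =
      (√(2 * Real.pi))⁻¹ * Real.exp (-kap s ^ 2 * ‖y‖ ^ 2 / 2) := by
    intro y
    rw [ph]
    congr 2
    ring
  have hprob : IsProbabilityMeasure ((gs n).map (rmv e)) :=
    Measure.isProbabilityMeasure_map (by fun_prop)
  rw [← ofReal_integral_eq_lintegral_ofReal]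
  · congr 1
    simp_rw [hp]
    rw [integral_const_mul]
    congr 1
    have h3 := mgf_rmv n (kap s) e he
    rw [inv_sqrt_kap h0 h1] at h3
    have h4 : √(1 - s ^ 2) ^ n = √(1 - s ^ 2) ^ (n - 1) * √(1 - s ^ 2) := by
      rw [← pow_succ]
      congr 1
      omega
    rw [h4] at h3
    have h5 := mul_right_cancel₀ (Real.sqrt_pos.2 hs).ne' h3
    rw [h5, Real.sqrt_eq_rpow, ← Real.rpow_natCast, ← Real.rpow_mul hs.le, Nat.cast_sub hn]
    congr 1
    push_cast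
    ring
  · have hb : ∀ y : E n, ‖ph (kap s * ‖y‖)‖ ≤ (√(2 * Real.pi))⁻¹ := by
      intro y
      rw [Real.norm_eq_abs, abs_of_nonneg (ph_nonneg _), hp]
      have : Real.exp (-kap s ^ 2 * ‖y‖ ^ 2 / 2) ≤ 1 := by
        rw [Real.exp_le_one_iff]
        have : 0 ≤ kap s ^ 2 * ‖y‖ ^ 2 := by positivity
        linarith
      calc _ ≤ (√(2 * Real.pi))⁻¹ * 1 := mul_le_mul_of_nonneg_left this (by positivity)
        _ = _ := mul_one _
    refine Integrable.of_bound ?_ _ (Filter.Eventually.of_forall hb)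
    have : Continuous fun y : E n => ph (kap s * ‖y‖) := by
      unfold ph; fun_prop
    exact this.aestronglyMeasurable
  · exact Filter.Eventually.of_forall fun y => ph_nonneg _

end Cap

end Vale.Agent.Propeller
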