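import Vale.Agent.Propeller.Cap2

namespace Vale.Agent.Propeller

open MeasureTheory ProbabilityTheory
open scoped InnerProductSpace

namespace Cap

/-- `∫_c^t c a / s² ds = a - c r` with `t = a / r` -/
theorem lint_inv_sq {c t : ℝ} (hc : 0 < c) (hct : c ≤ t) :
    ∫⁻ s in Set.Ioo c t, ENNReal.ofReal (1 / s ^ 2) = ENNReal.ofReal (1 / c - 1 / t) := by
  have hd : ∀ s ∈ Set.uIcc c t, HasDerivAt (fun s : ℝ => -(1 / s)) (1 / s ^ 2) s := by
    intro s hs
    rw [Set.uIcc_of_le hct] at hs
    have hs0 : s ≠ 0 := (lt_of_lt_of_le hc hs.1).ne'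
    have := (hasDerivAt_inv hs0).neg
    simp only [neg_neg] at this
    refine (this.congr_deriv ?_).congr_of_eventuallyEq ?_
    · rw [one_div]
    · exact Filter.Eventually.of_forall fun x => by simp [one_div]
  have hcont : ContinuousOn (fun s : ℝ => 1 / s ^ 2) (Set.uIcc c t) := by
    rw [Set.uIcc_of_le hct]
    refine continuousOn_const.div (continuousOn_pow 2) fun s hs => ?_
    exact pow_ne_zero 2 (lt_of_lt_of_le hc hs.1).ne'
  have hint := intervalIntegral.integral_eq_sub_of_hasDerivAt hd hcont.intervalIntegrable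
  rw [intervalIntegral.integral_of_le hct, integral_Ioc_eq_integral_Ioo] at hint
  have h1 : (1 / c - 1 / t : ℝ) = -(1 / t) - -(1 / c) := by ring
  rw [h1, ← hint, ofReal_integral_eq_lintegral_ofReal]
  · exact ((hcont.integrableOn_compact isCompact_uIcc).mono_set
      (by rw [Set.uIcc_of_le hct]; exact Set.Ioo_subset_Icc_self))
  · exact Filter.Eventually.of_forall fun s => by positivity

/-- layer cake representation of the positive part -/
theorem layer {c a r : ℝ} (hc : 0 < c) (hr : 0 ≤ r) (har : a ≤ r) :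
    ENNReal.ofReal (max (a - c * r) 0) =
      ∫⁻ s in Set.Ioo c 1, (if s * r < a then ENNReal.ofReal (c / s ^ 2) * ENNReal.ofReal a else 0) := by
  rcases le_or_gt a (c * r) with h | h
  · rw [max_eq_right (by linarith)]
    symm
    rw [ENNReal.ofReal_zero, setLIntegral_congr_fun (g := fun _ => 0) measurableSet_Ioo]
    · simp
    · intro s hs
      have : ¬ s * r < a := by
        have := mul_le_mul_of_nonneg_right hs.1.le hr
        push Not
        linarith
      simp [this]
  · have ha : 0 < a := lt_of_le_of_lt (by positivity) h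
    have hr0 : 0 < r := lt_of_lt_of_le ha har
    have hct : c < a / r := by rwa [lt_div_iff₀ hr0]
    have ht1 : a / r ≤ 1 := by rwa [div_le_one hr0]
    rw [max_eq_left (by linarith)]
    have hsub : ∀ s ∈ Set.Ioo c 1, (if s * r < a then ENNReal.ofReal (c / s ^ 2) * ENNReal.ofReal a
        else 0) = (Set.Ioo c (a / r)).indicator
          (fun s => ENNReal.ofReal (c * a) * ENNReal.ofReal (1 / s ^ 2)) s := by
      intro s hs
      by_cases h2 : s * r < a
      · rw [if_pos h2, Set.indicator_of_mem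
            (show s ∈ Set.Ioo c (a / r) from ⟨hs.1, by rwa [lt_div_iff₀ hr0]⟩),
          ← ENNReal.ofReal_mul (by positivity), ← ENNReal.ofReal_mul (by positivity)]
        congr 1
        ring
      · rw [if_neg h2, Set.indicator_of_notMem]
        intro h3
        exact h2 (by rw [← lt_div_iff₀ hr0]; exact h3.2)
    rw [setLIntegral_congr_fun measurableSet_Ioo hsub, setLIntegral_indicator measurableSet_Ioo,
      Set.inter_eq_left.2 (Set.Ioo_subset_Ioo_right ht1), lintegral_const_mul _ (by fun_prop),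
      lint_inv_sq hc hct.le, ← ENNReal.ofReal_mul (by positivity)]
    congr 1
    field_simp

/-- the truncated linear functional in terms of slices -/
theorem tonelli (n : ℕ) (hn : 1 ≤ n) (e : E n) (he : ‖e‖ = 1) {c : ℝ} (hc : 0 < c) :
    ∫⁻ x, ENNReal.ofReal (max (⟪e, x⟫_ℝ - c * ‖x‖) 0) ∂gs n =
      ∫⁻ s in Set.Ioo c 1, ENNReal.ofReal (c / s ^ 2) *
        ENNReal.ofReal ((√(2 * Real.pi))⁻¹ * (1 - s ^ 2) ^ (((n : ℝ) - 1) / 2)) := by
  have h1 : ∀ x : E n, ENNReal.ofReal (max (⟪e, x⟫_ℝ - c * ‖x‖) 0) =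
      ∫⁻ s in Set.Ioo c 1, (if s * ‖x‖ < ⟪e, x⟫_ℝ then ENNReal.ofReal (c / s ^ 2) *
        ENNReal.ofReal ⟪e, x⟫_ℝ else 0) := by
    intro x
    refine layer hc (norm_nonneg x) ?_
    have := real_inner_le_norm e x
    rwa [he, one_mul] at this
  simp_rw [h1]
  rw [lintegral_lintegral_swap]
  · refine setLIntegral_congr_fun measurableSet_Ioo fun s hs => ?_
    rw [← slice n hn e he (hc.le.trans hs.1.le) hs.2, ← lintegral_const_mul _ (by fun_prop),
      ← lintegral_indicator (meas_cone e s)]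
    refine lintegral_congr fun x => ?_
    simp only [Set.indicator, Set.mem_ofPred_eq]
  · refine Measurable.aemeasurable ?_
    refine Measurable.ite ?_ ?_ measurable_const
    · exact measurableSet_lt (by fun_prop) (by fun_prop)
    · fun_prop


/-- the calculus identity -/
theorem calc_int {c p : ℝ} (hc : 0 < c) (hc1 : c < 1) (hp : 1 ≤ p) :
    ∫ s in c..1, (1 - s ^ 2) ^ p / s ^ 2 =
      (1 - c ^ 2) ^ p / c - 2 * p * ∫ s in c..1, (1 - s ^ 2) ^ (p - 1) := by
  have hcontp : ∀ q : ℝ, 0 ≤ q → Continuous fun s : ℝ => (1 - s ^ 2) ^ q := by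
    intro q hq
    exact Continuous.rpow_const (by fun_prop) (fun s => Or.inr hq)
  have hcF : ContinuousOn (fun s : ℝ => -((1 - s ^ 2) ^ p / s)) (Set.Icc c 1) := by
    refine (ContinuousOn.div (hcontp p (by linarith)).continuousOn continuousOn_id ?_).neg
    intro s hs
    exact (lt_of_lt_of_le hc hs.1).ne'
  have hd : ∀ s ∈ Set.Ioo c 1, HasDerivAt (fun s : ℝ => -((1 - s ^ 2) ^ p / s))
      (2 * p * (1 - s ^ 2) ^ (p - 1) + (1 - s ^ 2) ^ p / s ^ 2) s := by
    intro s hs
    have hs0 : s ≠ 0 := (hc.trans hs.1).ne'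
    have h1 : HasDerivAt (fun s : ℝ => 1 - s ^ 2) (-(2 * s)) s := by
      have := (hasDerivAt_pow 2 s).const_sub 1
      refine this.congr_deriv ?_
      push_cast
      ring
    have h2 := h1.rpow_const (p := p) (Or.inr hp)
    have h3 := (h2.div (hasDerivAt_id s) hs0).neg
    refine h3.congr_deriv ?_
    simp only [id]
    field_simp
    ring
  have hint1 : IntervalIntegrable (fun s : ℝ => 2 * p * (1 - s ^ 2) ^ (p - 1)) volume c 1 :=
    ((hcontp (p - 1) (by linarith)).intervalIntegrable _ _).const_mul _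
  have hint2 : IntervalIntegrable (fun s : ℝ => (1 - s ^ 2) ^ p / s ^ 2) volume c 1 := by
    refine ContinuousOn.intervalIntegrable ?_
    rw [Set.uIcc_of_le hc1.le]
    refine (hcontp p (by linarith)).continuousOn.div (continuousOn_pow 2) ?_
    intro s hs
    exact pow_ne_zero 2 (lt_of_lt_of_le hc hs.1).ne'
  have h := intervalIntegral.integral_eq_sub_of_hasDerivAt_of_le hc1.le hcF hd (hint1.add hint2)
  rw [intervalIntegral.integral_add hint1 hint2, intervalIntegral.integral_const_mul] at h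
  have h0 : (1 - (1 : ℝ) ^ 2) ^ p = 0 := by
    rw [one_pow, sub_self, Real.zero_rpow (by linarith)]
  rw [h0] at h
  linarith

/-- The expected excess over a cone -/
theorem excess (n : ℕ) (hn : 3 ≤ n) (e : E n) (he : ‖e‖ = 1) {c : ℝ} (hc : 0 < c) (hc1 : c < 1) :
    ∫⁻ x, ENNReal.ofReal (max (⟪e, x⟫_ℝ - c * ‖x‖) 0) ∂gs n =
      ENNReal.ofReal ((√(2 * Real.pi))⁻¹ * ((1 - c ^ 2) ^ (((n : ℝ) - 1) / 2)
        - ((n : ℝ) - 1) * c * (∫ s in c..1, (1 - s ^ 2) ^ (((n : ℝ) - 3) / 2)))) := by
  have hn' : (3 : ℝ) ≤ n := by exact_mod_cast hn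
  set p : ℝ := ((n : ℝ) - 1) / 2 with hp
  have hp1 : 1 ≤ p := by rw [hp]; linarith
  have hq : ((n : ℝ) - 3) / 2 = p - 1 := by rw [hp]; ring
  rw [tonelli n (by omega) e he hc, hq, ← hp]
  have hI := calc_int hc hc1 hp1
  have hrw : (√(2 * Real.pi))⁻¹ * ((1 - c ^ 2) ^ p
        - ((n : ℝ) - 1) * c * (∫ s in c..1, (1 - s ^ 2) ^ (p - 1))) =
      (√(2 * Real.pi))⁻¹ * (c * ∫ s in c..1, (1 - s ^ 2) ^ p / s ^ 2) := by
    rw [hI]
    congr 1
    have : (n : ℝ) - 1 = 2 * p := by rw [hp]; ring
    rw [this]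
    field_simp
  rw [hrw, intervalIntegral.integral_of_le hc1.le, integral_Ioc_eq_integral_Ioo,
    ← integral_const_mul, ← integral_const_mul, ofReal_integral_eq_lintegral_ofReal]
  · refine setLIntegral_congr_fun measurableSet_Ioo fun s hs => ?_
    rw [← ENNReal.ofReal_mul (by positivity)]
    congr 1
    ring
  · refine Integrable.const_mul (Integrable.const_mul ?_ _) _
    have hcont : ContinuousOn (fun s : ℝ => (1 - s ^ 2) ^ p / s ^ 2) (Set.Icc c 1) := by
      refine ContinuousOn.div (Continuous.continuousOn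
        (Continuous.rpow_const (by fun_prop) (fun s => Or.inr (by linarith)))) (continuousOn_pow 2) ?_
      intro s hs
      exact pow_ne_zero 2 (lt_of_lt_of_le hc hs.1).ne'
    exact (hcont.integrableOn_compact isCompact_Icc).mono_set Set.Ioo_subset_Icc_self
  · refine (ae_restrict_iff' measurableSet_Ioo).2 (Filter.Eventually.of_forall fun s hs => ?_)
    have h2 : 0 ≤ (1 - s ^ 2) ^ p := Real.rpow_nonneg (by nlinarith [hs.1, hs.2]) p
    simp only [Pi.zero_apply]
    positivity

end Cap

end Vale.Agent.Propeller
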