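import Vale.Agent.Propeller.NumDefs

/-!
# P226, numerical part: the cap lines for `n = 4`
-/

namespace Vale.Agent.Propeller.Cap4

open MeasureTheory ProbabilityTheory Finset Vale.Agent.Propeller

/-! ### Taylor bounds for sine and cosine -/

/-- Taylor polynomials -/
noncomputable def Tc (n : ℕ) (x : ℝ) : ℝ :=
  ∑ k ∈ range n, (-1) ^ k * x ^ (2 * k) / ((2 * k).factorial : ℝ)

noncomputable def Ts (n : ℕ) (x : ℝ) : ℝ :=
  ∑ k ∈ range n, (-1) ^ k * x ^ (2 * k + 1) / ((2 * k + 1).factorial : ℝ)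

theorem hasDerivAt_Ts (n : ℕ) (x : ℝ) : HasDerivAt (Ts n) (Tc n x) x := by
  unfold Ts Tc
  refine HasDerivAt.fun_sum fun k _ => ?_
  have h := ((hasDerivAt_pow (2 * k + 1) x).const_mul ((-1 : ℝ) ^ k)).div_const
    ((2 * k + 1).factorial : ℝ)
  refine HasDerivAt.congr_deriv h ?_
  have h1 : ((2 * k + 1).factorial : ℝ) = ((2 * k + 1 : ℕ) : ℝ) * ((2 * k).factorial : ℝ) := by
    rw [Nat.factorial_succ]; push_cast; ring
  have h2 : ((2 * k).factorial : ℝ) ≠ 0 := by positivity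
  have h3 : ((2 * k + 1 : ℕ) : ℝ) ≠ 0 := by positivity
  rw [h1]
  simp only [Nat.add_sub_cancel]
  field_simp

theorem hasDerivAt_Tc (n : ℕ) (x : ℝ) : HasDerivAt (Tc (n + 1)) (-Ts n x) x := by
  have h0 : Tc (n + 1) = fun x => (∑ k ∈ range n, (-1) ^ (k + 1) * x ^ (2 * (k + 1)) /
      ((2 * (k + 1)).factorial : ℝ)) + 1 := by
    funext x
    unfold Tc
    rw [sum_range_succ']
    simp
  rw [h0]
  refine HasDerivAt.add_const 1 ?_
  unfold Ts
  rw [← sum_neg_distrib]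
  refine HasDerivAt.fun_sum fun k _ => ?_
  have h := ((hasDerivAt_pow (2 * (k + 1)) x).const_mul ((-1 : ℝ) ^ (k + 1))).div_const
    ((2 * (k + 1)).factorial : ℝ)
  refine HasDerivAt.congr_deriv h ?_
  have h1 : ((2 * (k + 1)).factorial : ℝ) =
      ((2 * (k + 1) : ℕ) : ℝ) * ((2 * k + 1).factorial : ℝ) := by
    have : 2 * (k + 1) = (2 * k + 1) + 1 := by ring
    rw [this, Nat.factorial_succ]; push_cast; ring
  have h2 : ((2 * k + 1).factorial : ℝ) ≠ 0 := by positivity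
  have h3 : ((2 * (k + 1) : ℕ) : ℝ) ≠ 0 := by positivity
  have h4 : 2 * (k + 1) - 1 = 2 * k + 1 := by omega
  rw [h1, h4, pow_succ]
  field_simp

theorem nonneg_of_deriv {F f : ℝ → ℝ} (hF : ∀ x, HasDerivAt F (f x) x) (h0 : 0 ≤ F 0)
    (h : ∀ x, 0 ≤ x → 0 ≤ f x) : ∀ x, 0 ≤ x → 0 ≤ F x := by
  have hm : MonotoneOn F (Set.Ici 0) := by
    refine monotoneOn_of_deriv_nonneg (convex_Ici 0) ?_ ?_ ?_
    · exact fun x _ => (hF x).continuousAt.continuousWithinAt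
    · exact fun x _ => (hF x).differentiableAt.differentiableWithinAt
    · intro x hx
      rw [interior_Ici] at hx
      rw [(hF x).deriv]
      exact h x hx.le
  intro x hx
  exact h0.trans (hm Set.self_mem_Ici hx hx)

theorem taylor (n : ℕ) : (∀ x : ℝ, 0 ≤ x → 0 ≤ (-1) ^ (n + 1) * (Real.cos x - Tc (n + 1) x)) ∧
    (∀ x : ℝ, 0 ≤ x → 0 ≤ (-1) ^ (n + 1) * (Real.sin x - Ts (n + 1) x)) := by
  have hcs : ∀ n, (∀ x : ℝ, 0 ≤ x → 0 ≤ (-1) ^ (n + 1) * (Real.cos x - Tc (n + 1) x)) →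
      (∀ x : ℝ, 0 ≤ x → 0 ≤ (-1) ^ (n + 1) * (Real.sin x - Ts (n + 1) x)) := by
    intro n h
    refine nonneg_of_deriv (f := fun x => (-1) ^ (n + 1) * (Real.cos x - Tc (n + 1) x)) ?_ ?_ h
    · exact fun x => ((Real.hasDerivAt_sin x).sub (hasDerivAt_Ts (n + 1) x)).const_mul _
    · simp [Ts]
  have hsc : ∀ n, (∀ x : ℝ, 0 ≤ x → 0 ≤ (-1) ^ (n + 1) * (Real.sin x - Ts (n + 1) x)) →
      (∀ x : ℝ, 0 ≤ x → 0 ≤ (-1) ^ (n + 2) * (Real.cos x - Tc (n + 2) x)) := by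
    intro n h
    refine nonneg_of_deriv (f := fun x => (-1) ^ (n + 2) * (-Real.sin x - -Ts (n + 1) x)) ?_ ?_ ?_
    · exact fun x => ((Real.hasDerivAt_cos x).sub (hasDerivAt_Tc (n + 1) x)).const_mul _
    · have : Tc (n + 2) 0 = 1 := by
        unfold Tc
        rw [sum_range_succ']
        simp
      rw [this, Real.cos_zero, sub_self, mul_zero]
    · intro x hx
      have := h x hx
      have e : (-1 : ℝ) ^ (n + 2) * (-Real.sin x - -Ts (n + 1) x) =
          (-1) ^ (n + 1) * (Real.sin x - Ts (n + 1) x) := by ring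
      rw [e]; exact this
  induction n with
  | zero =>
    have h1 : ∀ x : ℝ, 0 ≤ x → 0 ≤ (-1) ^ (0 + 1) * (Real.cos x - Tc (0 + 1) x) := by
      intro x _
      have := Real.cos_le_one x
      simp [Tc]
      linarith
    exact ⟨h1, hcs 0 h1⟩
  | succ n ih =>
    have h1 := hsc n ih.2
    exact ⟨h1, hcs (n + 1) h1⟩

/-- upper bound of the sine -/
noncomputable def sU (x : ℝ) : ℝ :=
  x - x ^ 3 / 6 + x ^ 5 / 120 - x ^ 7 / 5040 + x ^ 9 / 362880

noncomputable def cU (x : ℝ) : ℝ :=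
  1 - x ^ 2 / 2 + x ^ 4 / 24 - x ^ 6 / 720 + x ^ 8 / 40320 - x ^ 10 / 3628800 + x ^ 12 / 479001600

noncomputable def cL (x : ℝ) : ℝ :=
  1 - x ^ 2 / 2 + x ^ 4 / 24 - x ^ 6 / 720 + x ^ 8 / 40320 - x ^ 10 / 3628800

theorem sin_le_sU {x : ℝ} (hx : 0 ≤ x) : Real.sin x ≤ sU x := by
  have h := (taylor 4).2 x hx
  have e : Ts (4 + 1) x = sU x := by
    unfold Ts sU
    simp only [sum_range_succ, sum_range_zero, Nat.factorial]
    push_cast
    ring
  rw [e] at h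
  norm_num at h
  linarith

theorem cos_le_cU {x : ℝ} (hx : 0 ≤ x) : Real.cos x ≤ cU x := by
  have h := (taylor 6).1 x hx
  have e : Tc (6 + 1) x = cU x := by
    unfold Tc cU
    simp only [sum_range_succ, sum_range_zero, Nat.factorial]
    push_cast
    ring
  rw [e] at h
  norm_num at h
  linarith

theorem cL_le_cos {x : ℝ} (hx : 0 ≤ x) : cL x ≤ Real.cos x := by
  have h := (taylor 5).1 x hx
  have e : Tc (5 + 1) x = cL x := by
    unfold Tc cL
    simp only [sum_range_succ, sum_range_zero, Nat.factorial]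
    push_cast
    ring
  rw [e] at h
  norm_num at h
  linarith

/-! ### the cap lines -/

theorem int_sqrt {θ : ℝ} (h0 : 0 ≤ θ) (h1 : θ ≤ Real.pi) :
    ∫ s in (Real.cos θ)..1, (1 - s ^ 2) ^ ((1 : ℝ) / 2) =
      (θ - Real.sin θ * Real.cos θ) / 2 := by
  have h2 := intervalIntegral.integral_comp_mul_deriv (a := 0) (b := θ)
    (f := Real.cos) (f' := fun x => -Real.sin x)
    (g := fun s : ℝ => (1 - s ^ 2) ^ ((1 : ℝ) / 2))
    (fun x _ => Real.hasDerivAt_cos x) (Real.continuous_sin.neg.continuousOn)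
    (by
      refine Continuous.rpow_const (by fun_prop) fun x => Or.inr (by norm_num))
  rw [Real.cos_zero] at h2
  rw [intervalIntegral.integral_symm, ← h2, ← intervalIntegral.integral_neg]
  have h3 : ∫ x in (0 : ℝ)..θ, -(((fun s : ℝ => (1 - s ^ 2) ^ ((1 : ℝ) / 2)) ∘ Real.cos) x *
      -Real.sin x) = ∫ x in (0 : ℝ)..θ, Real.sin x ^ 2 := by
    refine intervalIntegral.integral_congr fun x hx => ?_
    rw [Set.uIcc_of_le h0] at hx
    have h4 : 0 ≤ Real.sin x := Real.sin_nonneg_of_nonneg_of_le_pi hx.1 (hx.2.trans h1)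
    simp only [Function.comp]
    rw [← Real.sin_sq, ← Real.sqrt_eq_rpow, Real.sqrt_sq h4]
    ring
  rw [h3, integral_sin_sq]
  simp
  ring

theorem capA4 {θ : ℝ} (h0 : 0 ≤ θ) (h1 : θ ≤ Real.pi) : capA 4 (Real.cos θ) =
    Real.sin θ * (1 + Real.cos θ ^ 2 / 2) - 3 / 2 * θ * Real.cos θ := by
  unfold capA
  have hs : 0 ≤ Real.sin θ := Real.sin_nonneg_of_nonneg_of_le_pi h0 h1
  have e1 : (((4 : ℕ) : ℝ) - 1) / 2 = 3 / 2 := by norm_num
  have e2 : (((4 : ℕ) : ℝ) - 3) / 2 = 1 / 2 := by norm_num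
  have e3 : (((4 : ℕ) : ℝ) - 1) = 3 := by norm_num
  have e4 : (1 - Real.cos θ ^ 2) ^ ((3 : ℝ) / 2) = Real.sin θ ^ 3 := by
    rw [← Real.sin_sq, ← Real.rpow_natCast, ← Real.rpow_mul hs, ← Real.rpow_natCast]
    norm_num
  rw [e1, e2, e3, e4, int_sqrt h0 h1]
  have h5 : Real.sin θ ^ 3 = Real.sin θ * (1 - Real.cos θ ^ 2) := by
    rw [← Real.sin_sq]; ring
  rw [h5]
  ring

theorem capB4 (c : ℝ) : capB 4 c = 3 / 2 * Real.pi * c := by
  unfold capB
  have h := int_sqrt (θ := Real.pi / 2) (by positivity) (by linarith [Real.pi_pos])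
  have e2 : (((4 : ℕ) : ℝ) - 3) / 2 = 1 / 2 := by norm_num
  have e3 : (((4 : ℕ) : ℝ) - 1) = 3 := by norm_num
  rw [Real.cos_pi_div_two] at h
  rw [e2, e3, h, mul_zero, sub_zero]
  ring

/-- the cap inequalities for one cell, in terms of the angle -/
def CapH (y p : ℝ) : Prop := ∀ θ : ℝ, 0 < θ → θ ≤ 157 / 100 →
  y ≤ Real.sin θ * (1 + Real.cos θ ^ 2 / 2) - 3 / 2 * θ * Real.cos θ + 3 / 2 * Real.pi *
    Real.cos θ * p

/-- rational bounds -/
noncomputable def trigA (x : ℝ) : ℝ := sU x * (1 + cU x ^ 2 / 2) - 3 / 2 * x * cL x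

noncomputable def trigB (x : ℝ) : ℝ := 3 / 2 * (3141593 / 1000000) * cU x

theorem CapH.line {y p : ℝ} (H : CapH y p) (hp : 0 ≤ p) (θ A B : ℝ) (h0 : 0 < θ)
    (h1 : θ ≤ 157 / 100) (hA : trigA θ ≤ A) (hB : trigB θ ≤ B) : y ≤ A + B * p := by
  have hpi := Real.pi_gt_d6
  have hpi2 := Real.pi_lt_d6
  have hc : 0 ≤ Real.cos θ := Real.cos_nonneg_of_mem_Icc ⟨by linarith, by linarith⟩
  have hs : 0 ≤ Real.sin θ := Real.sin_nonneg_of_nonneg_of_le_pi h0.le (by linarith)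
  have c1 := cos_le_cU h0.le
  have c2 := cL_le_cos h0.le
  have c3 := sin_le_sU h0.le
  refine (H θ h0 h1).trans ?_
  have h2 : Real.sin θ * (1 + Real.cos θ ^ 2 / 2) ≤ sU θ * (1 + cU θ ^ 2 / 2) := by
    refine mul_le_mul c3 ?_ (by positivity) (hs.trans c3)
    have := pow_le_pow_left₀ hc c1 2
    linarith
  have h3 : 3 / 2 * θ * cL θ ≤ 3 / 2 * θ * Real.cos θ :=
    mul_le_mul_of_nonneg_left c2 (by positivity)
  have h4 : 3 / 2 * Real.pi * Real.cos θ * p ≤ B * p := by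
    refine mul_le_mul_of_nonneg_right (le_trans ?_ hB) hp
    unfold trigB
    exact mul_le_mul (by linarith) c1 hc (by norm_num)
  unfold trigA at hA
  linarith

end Vale.Agent.Propeller.Cap4
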