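import Vale.Agent.Propeller.NumDefs

/-!
# P226, numerical part: the cap lines for `n = 5, 7, 9` are polynomial
-/

namespace Vale.Agent.Propeller.CapPoly

open MeasureTheory ProbabilityTheory Vale.Agent.Propeller

lemma int1 (a b : ℝ) : ∫ s in a..b, (1 - s ^ 2) ^ (1 : ℕ) = (b - b ^ 3 / 3) - (a - a ^ 3 / 3) := by
  rw [intervalIntegral.integral_eq_sub_of_hasDerivAt (f := fun s => s - s ^ 3 / 3)]
  · intro x _
    have h := (hasDerivAt_id x).sub ((hasDerivAt_pow 3 x).div_const 3)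
    refine HasDerivAt.congr_deriv h ?_
    push_cast
    ring
  · exact (by fun_prop : Continuous fun s : ℝ => (1 - s ^ 2) ^ (1 : ℕ)).intervalIntegrable _ _

lemma int2 (a b : ℝ) : ∫ s in a..b, (1 - s ^ 2) ^ (2 : ℕ)
    = (b - 2 * b ^ 3 / 3 + b ^ 5 / 5) - (a - 2 * a ^ 3 / 3 + a ^ 5 / 5) := by
  rw [intervalIntegral.integral_eq_sub_of_hasDerivAt (f := fun s => s - 2 * s ^ 3 / 3 + s ^ 5 / 5)]
  · intro x _
    have h := ((hasDerivAt_id x).sub (((hasDerivAt_pow 3 x).const_mul 2).div_const 3)).add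
      ((hasDerivAt_pow 5 x).div_const 5)
    refine HasDerivAt.congr_deriv h ?_
    push_cast
    ring
  · exact (by fun_prop : Continuous fun s : ℝ => (1 - s ^ 2) ^ (2 : ℕ)).intervalIntegrable _ _

lemma int3 (a b : ℝ) : ∫ s in a..b, (1 - s ^ 2) ^ (3 : ℕ)
    = (b - b ^ 3 + 3 * b ^ 5 / 5 - b ^ 7 / 7) - (a - a ^ 3 + 3 * a ^ 5 / 5 - a ^ 7 / 7) := by
  rw [intervalIntegral.integral_eq_sub_of_hasDerivAt
    (f := fun s => s - s ^ 3 + 3 * s ^ 5 / 5 - s ^ 7 / 7)]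
  · intro x _
    have h := (((hasDerivAt_id x).sub (hasDerivAt_pow 3 x)).add
      (((hasDerivAt_pow 5 x).const_mul 3).div_const 5)).sub ((hasDerivAt_pow 7 x).div_const 7)
    refine HasDerivAt.congr_deriv h ?_
    push_cast
    ring
  · exact (by fun_prop : Continuous fun s : ℝ => (1 - s ^ 2) ^ (3 : ℕ)).intervalIntegrable _ _

lemma capA5 (c : ℝ) : capA 5 c = 1 - 8 / 3 * c + 2 * c ^ 2 - c ^ 4 / 3 := by
  unfold capA
  have e1 : (((5 : ℕ) : ℝ) - 1) / 2 = ((2 : ℕ) : ℝ) := by norm_num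
  have e2 : (((5 : ℕ) : ℝ) - 3) / 2 = ((1 : ℕ) : ℝ) := by norm_num
  simp only [e1, e2, Real.rpow_natCast]
  rw [int1]
  push_cast
  ring

lemma capB5 (c : ℝ) : capB 5 c = 16 / 3 * c := by
  unfold capB
  have e2 : (((5 : ℕ) : ℝ) - 3) / 2 = ((1 : ℕ) : ℝ) := by norm_num
  simp only [e2, Real.rpow_natCast]
  rw [int1]
  push_cast
  ring

lemma capA7 (c : ℝ) : capA 7 c = (1 - c ^ 2) ^ 3
    - 6 * c * (8 / 15 - (c - 2 * c ^ 3 / 3 + c ^ 5 / 5)) := by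
  unfold capA
  have e1 : (((7 : ℕ) : ℝ) - 1) / 2 = ((3 : ℕ) : ℝ) := by norm_num
  have e2 : (((7 : ℕ) : ℝ) - 3) / 2 = ((2 : ℕ) : ℝ) := by norm_num
  simp only [e1, e2, Real.rpow_natCast]
  rw [int2]
  push_cast
  ring

lemma capB7 (c : ℝ) : capB 7 c = 32 / 5 * c := by
  unfold capB
  have e2 : (((7 : ℕ) : ℝ) - 3) / 2 = ((2 : ℕ) : ℝ) := by norm_num
  simp only [e2, Real.rpow_natCast]
  rw [int2]
  push_cast
  ring

lemma capA9 (c : ℝ) : capA 9 c = (1 - c ^ 2) ^ 4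
    - 8 * c * (16 / 35 - (c - c ^ 3 + 3 * c ^ 5 / 5 - c ^ 7 / 7)) := by
  unfold capA
  have e1 : (((9 : ℕ) : ℝ) - 1) / 2 = ((4 : ℕ) : ℝ) := by norm_num
  have e2 : (((9 : ℕ) : ℝ) - 3) / 2 = ((3 : ℕ) : ℝ) := by norm_num
  simp only [e1, e2, Real.rpow_natCast]
  rw [int3]
  push_cast
  ring

lemma capB9 (c : ℝ) : capB 9 c = 256 / 35 * c := by
  unfold capB
  have e2 : (((9 : ℕ) : ℝ) - 3) / 2 = ((3 : ℕ) : ℝ) := by norm_num
  simp only [e2, Real.rpow_natCast]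
  rw [int3]
  push_cast
  ring

end Vale.Agent.Propeller.CapPoly
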