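import Vale.Agent.Propeller.Gauss

/-!
# P226: preparations for the second order condition
-/

namespace Vale.Agent.Propeller

open MeasureTheory ProbabilityTheory Measure Metric
open scoped ENNReal MatrixOrder

variable {n : ℕ} {ι : Type} [Fintype ι] [Nonempty ι]

theorem hmin_le (d : ι → E n) (x : E n) (j : ι) : hmin d x ≤ inner ℝ (d j) x :=
  Finset.inf'_le (fun i => inner ℝ (d i) x) (Finset.mem_univ j)

theorem exists_hmin (d : ι → E n) (x : E n) : ∃ j, hmin d x = inner ℝ (d j) x := by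
  obtain ⟨j, _, hj⟩ := Finset.exists_mem_eq_inf' (Finset.univ_nonempty (α := ι))
    (fun i => inner ℝ (d i) x)
  exact ⟨j, hj⟩

theorem continuous_hmin (d : ι → E n) : Continuous (hmin d) := by
  unfold hmin
  exact Continuous.finset_inf'_apply _ fun i _ => by fun_prop

theorem hmin_add (d : ι → E n) (q : E n) (hq : ∀ j, inner ℝ q (d j) = 1) (x : E n) (t : ℝ) :
    hmin d (x + t • q) = hmin d x + t := by
  apply le_antisymm
  · obtain ⟨j, hj⟩ := exists_hmin d x
    rw [hj]
    refine (hmin_le d _ j).trans ?_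
    rw [inner_add_right, inner_smul_right, real_inner_comm q (d j), hq, mul_one]
  · obtain ⟨j, hj⟩ := exists_hmin d (x + t • q)
    rw [hj, inner_add_right, inner_smul_right, real_inner_comm q, hq, mul_one]
    linarith [hmin_le d x j]

theorem hmin_smul (d : ι → E n) (x : E n) (r : ℝ) (hr : 0 ≤ r) :
    hmin d (r • x) = r * hmin d x := by
  apply le_antisymm
  · obtain ⟨j, hj⟩ := exists_hmin d x
    rw [hj]
    refine (hmin_le d _ j).trans ?_
    rw [inner_smul_right]
  · obtain ⟨j, hj⟩ := exists_hmin d (r • x)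
    rw [hj, inner_smul_right]
    exact mul_le_mul_of_nonneg_left (hmin_le d x j) hr

theorem abs_hmin_le (d : ι → E n) (D : ℝ) (hD : ∀ j, ‖d j‖ ≤ D) (x : E n) :
    |hmin d x| ≤ D * ‖x‖ := by
  obtain ⟨j, hj⟩ := exists_hmin d x
  rw [hj]
  exact (abs_real_inner_le_norm _ _).trans (mul_le_mul_of_nonneg_right (hD j) (norm_nonneg _))

theorem hmin_dir (d : ι → E n) (x : E n) : ‖x‖ * hmin d (dir x) = hmin d x := by
  by_cases hx : x = 0
  · subst hx
    have := hmin_smul d (0 : E n) 0 le_rfl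
    rw [zero_smul, zero_mul] at this
    rw [norm_zero, zero_mul, this]
  · rw [← hmin_smul d _ _ (norm_nonneg x)]
    congr 1
    unfold dir
    rw [smul_smul, mul_inv_cancel₀ (norm_ne_zero_iff.2 hx), one_smul]

/-- a linear map with prescribed (positive) quadratic form -/
theorem exists_sqrt (d : ι → E n) (B : Finset ι) (L : ℝ) (hL : 0 < L)
    (hf : ∀ x : E n, ∑ j ∈ B, (inner ℝ (d j) x) ^ 2 - (∑ j ∈ B, inner ℝ (d j) x) ^ 2
      ≤ L * ‖x‖ ^ 2) :
    ∃ T : E n →ₗ[ℝ] E n, ∀ x, ‖T x‖ ^ 2 = ‖x‖ ^ 2 + L⁻¹ * ((∑ j ∈ B, inner ℝ (d j) x) ^ 2 -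
      ∑ j ∈ B, (inner ℝ (d j) x) ^ 2) := by
  classical
  let D : Fin n → ℝ := fun a => ∑ j ∈ B, d j a
  let C : Matrix (Fin n) (Fin n) ℝ := 1 + L⁻¹ • (Matrix.vecMulVec D D -
    ∑ j ∈ B, Matrix.vecMulVec (d j) (d j))
  have hin : ∀ (v x : E n), inner ℝ v x = ∑ a, v a * x a := by
    intro v x
    rw [PiLp.inner_apply]
    exact Finset.sum_congr rfl fun a _ => by simp [mul_comm]
  have hvm : ∀ (v x : Fin n → ℝ), dotProduct x ((Matrix.vecMulVec v v).mulVec x) =
      (∑ a, v a * x a) ^ 2 := by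
    intro v x
    rw [sq, Finset.sum_mul_sum]
    simp only [dotProduct, Matrix.mulVec, Matrix.vecMulVec_apply, Finset.mul_sum]
    rw [Finset.sum_comm]
    refine Finset.sum_congr rfl fun a _ => Finset.sum_congr rfl fun b _ => by ring
  have hquad : ∀ x : E n, dotProduct (x : Fin n → ℝ) (C.mulVec x) =
      ‖x‖ ^ 2 + L⁻¹ * ((∑ j ∈ B, inner ℝ (d j) x) ^ 2 - ∑ j ∈ B, (inner ℝ (d j) x) ^ 2) := by
    intro x
    simp only [C, Matrix.add_mulVec, Matrix.one_mulVec, Matrix.smul_mulVec, Matrix.sub_mulVec,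
      Matrix.sum_mulVec, dotProduct_add, dotProduct_smul, dotProduct_sub, dotProduct_sum, smul_eq_mul]
    rw [hvm]
    have h1 : ∀ j ∈ B, dotProduct (x : Fin n → ℝ) ((Matrix.vecMulVec (d j) (d j)).mulVec x) =
        (inner ℝ (d j) x) ^ 2 := by
      intro j _
      rw [hvm, hin]
    rw [Finset.sum_congr rfl h1]
    have h2 : ∑ a, D a * x a = ∑ j ∈ B, inner ℝ (d j) x := by
      simp only [D, Finset.sum_mul, hin]
      exact Finset.sum_comm
    rw [h2]
    have h3 : dotProduct (x : Fin n → ℝ) x = ‖x‖ ^ 2 := by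
      rw [EuclideanSpace.real_norm_sq_eq]
      exact Finset.sum_congr rfl fun a _ => by ring
    rw [h3]
  have hC : C.PosSemidef := by
    refine Matrix.PosSemidef.of_dotProduct_mulVec_nonneg ?_ ?_
    · ext a b
      simp only [C, Matrix.conjTranspose_apply, Matrix.add_apply, Matrix.smul_apply,
        Matrix.sub_apply, Matrix.sum_apply, Matrix.vecMulVec_apply, star_trivial,
        Matrix.one_apply, smul_eq_mul]
      have : (if b = a then (1 : ℝ) else 0) = if a = b then 1 else 0 := by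
        simp [eq_comm]
      rw [this, mul_comm (D b)]
      congr 3
      exact Finset.sum_congr rfl fun j _ => by ring
    · intro x
      have h := hquad (WithLp.toLp 2 x)
      have hf' := hf (WithLp.toLp 2 x)
      have e : dotProduct (star x) (C.mulVec x) =
        dotProduct ((WithLp.toLp 2 x : E n) : Fin n → ℝ) (C.mulVec ((WithLp.toLp 2 x : E n))) := rfl
      rw [e, h]
      have : L⁻¹ * (∑ j ∈ B, (inner ℝ (d j) (WithLp.toLp 2 x)) ^ 2 -
          (∑ j ∈ B, inner ℝ (d j) (WithLp.toLp 2 x)) ^ 2) ≤ ‖(WithLp.toLp 2 x : E n)‖ ^ 2 := by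
        rw [inv_mul_le_iff₀ hL]
        exact hf'
      nlinarith [this]
  obtain ⟨Bm, hBm⟩ : ∃ Bm : Matrix (Fin n) (Fin n) ℝ, C = Bm.conjTranspose * Bm :=
    CStarAlgebra.nonneg_iff_eq_star_mul_self.mp hC.nonneg
  refine ⟨Matrix.toEuclideanLin Bm, fun x => ?_⟩
  rw [← hquad, hBm, EuclideanSpace.real_norm_sq_eq]
  rw [← Matrix.mulVec_mulVec, Matrix.conjTranspose_eq_transpose_of_trivial,
    Matrix.dotProduct_mulVec, Matrix.vecMul_transpose]
  simp only [dotProduct]
  exact Finset.sum_congr rfl fun a _ => by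
    simp [Matrix.toEuclideanLin, sq]

end Vale.Agent.Propeller
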