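import Vale.Agent.Propeller.Core1

/-!
# P226: one-dimensional integrals for the second order condition
-/

namespace Vale.Agent.Propeller

open MeasureTheory ProbabilityTheory Measure Metric Set Filter
open scoped ENNReal Topology

/-- affine substitution -/
theorem lintegral_affine (a b : ℝ) (ha : 0 < a) (f : ℝ → ℝ≥0∞) (hf : Measurable f) :
    ∫⁻ x, f x = ENNReal.ofReal a * ∫⁻ x, f (a * x + b) := by
  have h2 : Measurable (fun x : ℝ => f (x + b)) := hf.comp (by fun_prop)
  have h3 : ∫⁻ x, f (x + b) = ∫⁻ x, f x := lintegral_add_right_eq_self f b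
  have h4 := Real.smul_map_volume_mul_left (ne_of_gt ha)
  rw [← h3]
  conv_lhs => rw [← h4]
  rw [lintegral_smul_measure, lintegral_map h2 (by fun_prop), abs_of_pos ha]
  rfl

theorem pdf_eq (x : ℝ) : gaussianPDFReal 0 1 x = (Real.sqrt (2 * Real.pi))⁻¹ *
    Real.exp (-(1 / 2) * x ^ 2) := by
  rw [gaussianPDFReal]
  simp only [NNReal.coe_one, mul_one, sub_zero]
  congr 2
  ring

theorem integral_Ioi_gaussian (a : ℝ) :
    ∫ η in Ioi a, η ∂gaussianReal 0 1 = gaussianPDFReal 0 1 a := by
  rw [← integral_indicator measurableSet_Ioi,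
    integral_gaussianReal_eq_integral_smul (one_ne_zero)]
  have h1 : ∀ x : ℝ, gaussianPDFReal 0 1 x • (Ioi a).indicator (fun η => η) x =
      (Ioi a).indicator (fun η => (Real.sqrt (2 * Real.pi))⁻¹ *
        (η * Real.exp (-(1 / 2) * η ^ 2))) x := by
    intro x
    by_cases hx : x ∈ Ioi a
    · rw [indicator_of_mem hx, indicator_of_mem hx, pdf_eq, smul_eq_mul]
      ring
    · rw [indicator_of_notMem hx, indicator_of_notMem hx, smul_zero]
  simp only [h1]
  rw [integral_indicator measurableSet_Ioi, integral_const_mul, pdf_eq]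
  congr 1
  have hd : ∀ x ∈ Ici a, HasDerivAt (fun x : ℝ => -Real.exp (-(1 / 2) * x ^ 2))
      (x * Real.exp (-(1 / 2) * x ^ 2)) x := by
    intro x _
    have h : HasDerivAt (fun x : ℝ => -Real.exp (-(1 / 2) * x ^ 2))
        (-(Real.exp (-(1 / 2) * x ^ 2) * (-(1 / 2) * ((2 : ℕ) * x ^ (2 - 1))))) x :=
      ((hasDerivAt_pow 2 x).const_mul (-(1 / 2) : ℝ)).exp.neg
    refine h.congr_deriv ?_
    push_cast
    ring
  have hi : IntegrableOn (fun x : ℝ => x * Real.exp (-(1 / 2) * x ^ 2)) (Ioi a) :=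
    (integrable_mul_exp_neg_mul_sq (by norm_num : (0 : ℝ) < 1 / 2)).integrableOn
  have ht : Tendsto (fun x : ℝ => -Real.exp (-(1 / 2) * x ^ 2)) atTop (𝓝 (-0)) := by
    refine (Real.tendsto_exp_atBot.comp ?_).neg
    have h5 : Tendsto (fun x : ℝ => x ^ 2) atTop atTop := tendsto_pow_atTop two_ne_zero
    exact h5.const_mul_atTop_of_neg (by norm_num)
  have := integral_Ioi_of_hasDerivAt_of_tendsto' hd hi ht
  rw [this]
  ring

theorem lintegral_tent (ξ : ℝ) : ∫⁻ v : ℝ, ENNReal.ofReal (|ξ| - |v|) = ENNReal.ofReal (ξ ^ 2) := by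
  have h0 : ∀ v : ℝ, ENNReal.ofReal (|ξ| - |v|) = ENNReal.ofReal (max (|ξ| - |v|) 0) := by
    intro v
    rcases le_total 0 (|ξ| - |v|) with h | h
    · rw [max_eq_left h]
    · rw [max_eq_right h, ENNReal.ofReal_of_nonpos h, ENNReal.ofReal_zero]
  simp only [h0]
  have hc : Continuous (fun v : ℝ => max (|ξ| - |v|) 0) := by fun_prop
  have hsupp : HasCompactSupport (fun v : ℝ => max (|ξ| - |v|) 0) := by
    refine HasCompactSupport.of_support_subset_isCompact (isCompact_Icc (a := -|ξ|) (b := |ξ|)) ?_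
    intro v hv
    rw [Function.mem_support] at hv
    have h : 0 < |ξ| - |v| := by
      by_contra h
      exact hv (max_eq_right (not_lt.1 h))
    exact abs_le.1 (by linarith)
  rw [← ofReal_integral_eq_lintegral_ofReal (hc.integrable_of_hasCompactSupport hsupp)
    (ae_of_all _ fun v => le_max_right _ _)]
  congr 1
  have h1 := integral_comp_abs (f := fun v : ℝ => max (|ξ| - v) 0)
  rw [h1]
  have h2 : ∫ v in Ioi (0 : ℝ), max (|ξ| - v) 0 = ∫ v in Ioc (0 : ℝ) |ξ|, (|ξ| - v) := by
    rw [← integral_indicator measurableSet_Ioi, ← integral_indicator measurableSet_Ioc]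
    congr 1
    funext v
    by_cases h : v ∈ Ioc 0 |ξ|
    · rw [indicator_of_mem h, indicator_of_mem (show v ∈ Ioi (0:ℝ) from h.1), max_eq_left]
      linarith [h.2]
    · rw [indicator_of_notMem h]
      by_cases h' : v ∈ Ioi (0 : ℝ)
      · rw [indicator_of_mem h', max_eq_right]
        have : |ξ| < v := by
          by_contra h3
          exact h ⟨h', not_lt.1 h3⟩
        linarith
      · rw [indicator_of_notMem h']
  rw [h2, ← intervalIntegral.integral_of_le (abs_nonneg ξ), intervalIntegral.integral_sub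
    (by simp) (by simp), integral_id, intervalIntegral.integral_const, smul_eq_mul]
  have h3 := sq_abs ξ
  nlinarith [h3]

theorem lintegral_sq_gaussian : ∫⁻ ξ : ℝ, ENNReal.ofReal (ξ ^ 2) ∂gaussianReal 0 1 = 1 := by
  have h1 := variance_id_gaussianReal (μ := 0) (v := 1)
  have h2 : Integrable (fun ξ : ℝ => ξ ^ 2) (gaussianReal 0 1) := by
    have := (memLp_id_gaussianReal (μ := 0) (v := 1) 2).integrable_sq
    simpa using this
  rw [← ofReal_integral_eq_lintegral_ofReal h2 (ae_of_all _ fun _ => sq_nonneg _)]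
  rw [variance_eq_integral (by fun_prop)] at h1
  simp only [id, integral_id_gaussianReal, sub_zero] at h1
  rw [h1]
  simp

end Vale.Agent.Propeller
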