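import Vale.Agent.Propeller.Defs

/-!
# P226, part OPT: existence of the optimal configuration
-/

namespace Vale.Agent.Propeller

open MeasureTheory ProbabilityTheory Finset

namespace Opt1

variable {n : ℕ} {ι : Type} [Fintype ι]

lemma int_norm (n : ℕ) : Integrable (fun x : E n => ‖x‖) (gs n) :=
  (IsGaussian.integrable_id (μ := gs n)).norm

lemma int_inner (v : E n) : Integrable (fun x : E n => inner ℝ v x) (gs n) := by
  refine (int_norm n |>.const_mul ‖v‖).mono' (by fun_prop) ?_
  exact Filter.Eventually.of_forall fun x => by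
    rw [Real.norm_eq_abs]; exact abs_real_inner_le_norm v x

lemma integral_inner_zero (v : E n) : ∫ x, inner ℝ v x ∂gs n = 0 := by
  have := integral_strongDual_stdGaussian (E := E n) (innerSL ℝ v)
  simpa using this

lemma hyper_null (v : E n) (hv : v ≠ 0) : gs n {x | inner ℝ v x = 0} = 0 := by
  have h1 : (gs n).map (innerSL ℝ v) {(0 : ℝ)} = 0 := by
    have : NullSingletonClass ((gs n).map (innerSL ℝ v)) := by
      rw [IsGaussian.map_eq_gaussianReal (innerSL ℝ v)]
      refine nullSingletonClass_gaussianReal ?_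
      simp only [ne_eq, Real.toNNReal_eq_zero, not_le]
      rw [variance_dual_stdGaussian]
      have : ‖innerSL ℝ v‖ = ‖v‖ := innerSL_apply_norm ℝ v
      rw [this]
      positivity
    rw [measure_singleton]
  rw [Measure.map_apply (by fun_prop) (measurableSet_singleton _)] at h1
  exact h1

variable [Nonempty ι]

lemma le_hmax (w : ι → E n) (i : ι) (x : E n) : inner ℝ (w i) x ≤ hmax w x :=
  Finset.le_sup' (fun i => inner ℝ (w i) x) (mem_univ i)

lemma hmax_le (w : ι → E n) (x : E n) (c : ℝ) (h : ∀ i, inner ℝ (w i) x ≤ c) : hmax w x ≤ c :=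
  Finset.sup'_le _ _ (fun i _ => h i)

lemma exists_hmax (w : ι → E n) (x : E n) : ∃ i, hmax w x = inner ℝ (w i) x := by
  obtain ⟨i, _, hi⟩ := Finset.exists_mem_eq_sup' (univ_nonempty (α := ι))
    (fun i => inner ℝ (w i) x)
  exact ⟨i, hi⟩

lemma continuous_hmax (w : ι → E n) : Continuous (hmax w) := by
  unfold hmax
  exact Continuous.finset_sup'_apply _ (fun i _ => by fun_prop)

lemma abs_hmax_sub (w w' : ι → E n) (x : E n) :
    |hmax w x - hmax w' x| ≤ (∑ i, ‖w i - w' i‖) * ‖x‖ := by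
  have key : ∀ a b : ι → E n, hmax a x ≤ hmax b x + (∑ i, ‖a i - b i‖) * ‖x‖ := by
    intro a b
    apply hmax_le
    intro i
    have h1 : inner ℝ (a i) x = inner ℝ (b i) x + inner ℝ (a i - b i) x := by
      rw [inner_sub_left]; ring
    have h2 : inner ℝ (a i - b i) x ≤ ‖a i - b i‖ * ‖x‖ := real_inner_le_norm _ _
    have h3 : ‖a i - b i‖ ≤ ∑ i, ‖a i - b i‖ :=
      Finset.single_le_sum (f := fun i => ‖a i - b i‖) (fun _ _ => norm_nonneg _) (mem_univ i)
    have h4 := mul_le_mul_of_nonneg_right h3 (norm_nonneg x)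
    have h5 := le_hmax b i x
    linarith
  have h1 := key w w'
  have h2 := key w' w
  have h3 : ∑ i, ‖w' i - w i‖ = ∑ i, ‖w i - w' i‖ :=
    Finset.sum_congr rfl fun i _ => norm_sub_rev _ _
  rw [h3] at h2
  rw [abs_le]
  constructor <;> linarith

lemma int_hmax (w : ι → E n) : Integrable (hmax w) (gs n) := by
  refine ((int_norm n).const_mul (∑ i, ‖w i - 0‖)).mono' (continuous_hmax w).aestronglyMeasurable ?_
  refine Filter.Eventually.of_forall fun x => ?_
  have h := abs_hmax_sub w (fun _ => 0) x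
  have h0 : hmax (fun _ : ι => (0 : E n)) x = 0 := by
    obtain ⟨i, hi⟩ := exists_hmax (fun _ : ι => (0 : E n)) x
    rw [hi, inner_zero_left]
  rw [h0, sub_zero] at h
  rw [Real.norm_eq_abs]
  exact h

lemma emax_nonneg (w : ι → E n) : 0 ≤ emax w := by
  obtain ⟨i⟩ := (inferInstance : Nonempty ι)
  rw [← integral_inner_zero (w i)]
  exact integral_mono (int_inner _) (int_hmax w) (fun x => le_hmax w i x)

lemma abs_emax_sub (w w' : ι → E n) :
    |emax w - emax w'| ≤ (∑ i, ‖w i - w' i‖) * ∫ x, ‖x‖ ∂gs n := by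
  unfold emax
  rw [← integral_sub (int_hmax w) (int_hmax w'), ← integral_const_mul]
  rw [← Real.norm_eq_abs]
  refine norm_integral_le_of_norm_le ((int_norm n).const_mul _) ?_
  exact Filter.Eventually.of_forall fun x => by
    rw [Real.norm_eq_abs]; exact abs_hmax_sub w w' x

lemma continuous_emax : Continuous (fun w : ι → E n => emax w) := by
  set I := ∫ x, ‖x‖ ∂gs n with hI
  have hI0 : 0 ≤ I := integral_nonneg fun x => norm_nonneg x
  have : LipschitzWith (Real.toNNReal ((Fintype.card ι : ℝ) * I)) (fun w : ι → E n => emax w) := by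
    refine LipschitzWith.of_dist_le_mul fun w w' => ?_
    rw [Real.dist_eq, Real.coe_toNNReal _ (by positivity)]
    refine (abs_emax_sub w w').trans ?_
    have h1 : ∑ i, ‖w i - w' i‖ ≤ (Fintype.card ι : ℝ) * dist w w' := by
      have : ∑ i, ‖w i - w' i‖ ≤ ∑ _i : ι, dist w w' :=
        Finset.sum_le_sum fun i _ => by rw [← dist_eq_norm]; exact dist_le_pi_dist w w' i
      simpa using this
    calc (∑ i, ‖w i - w' i‖) * I ≤ ((Fintype.card ι : ℝ) * dist w w') * I :=
          mul_le_mul_of_nonneg_right h1 hI0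
      _ = _ := by ring
  exact this.continuous

lemma hmax_smul (t : ℝ) (ht : 0 ≤ t) (w : ι → E n) (x : E n) :
    hmax (fun i => t • w i) x = t * hmax w x := by
  apply le_antisymm
  · apply hmax_le
    intro i
    rw [real_inner_smul_left]
    exact mul_le_mul_of_nonneg_left (le_hmax w i x) ht
  · obtain ⟨i, hi⟩ := exists_hmax w x
    rw [hi, ← real_inner_smul_left]
    exact le_hmax (fun i => t • w i) i x

lemma emax_smul (t : ℝ) (ht : 0 ≤ t) (w : ι → E n) :
    emax (fun i => t • w i) = t * emax w := by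
  unfold emax
  rw [← integral_const_mul]
  exact integral_congr_ae (Filter.Eventually.of_forall fun x => hmax_smul t ht w x)

/-- existence of a maximiser -/
lemma exists_max (C : ℝ) (hC : 0 ≤ C) (hno : ¬ Bd n ι C) :
    ∃ (M : ℝ) (w : ι → E n), C < M ∧ Bd n ι M ∧ ∑ i, ‖w i‖ ^ 2 = M ∧ emax w = M := by
  classical
  unfold Bd at hno
  push Not at hno
  obtain ⟨v, hv⟩ := hno
  set S : Set (ι → E n) := {w | ∑ i, ‖w i‖ ^ 2 = 1} with hS
  have normalise : ∀ u : ι → E n, 0 < ∑ i, ‖u i‖ ^ 2 →
      ∃ u' ∈ S, emax u ^ 2 = emax u' ^ 2 * ∑ i, ‖u i‖ ^ 2 := by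
    intro u hu
    set s := ∑ i, ‖u i‖ ^ 2 with hs
    have hsq : 0 < Real.sqrt s := Real.sqrt_pos.mpr hu
    refine ⟨fun i => (Real.sqrt s)⁻¹ • u i, ?_, ?_⟩
    · show ∑ i, ‖(Real.sqrt s)⁻¹ • u i‖ ^ 2 = 1
      simp only [norm_smul, mul_pow]
      rw [← Finset.mul_sum, ← hs, norm_inv, Real.norm_of_nonneg hsq.le, inv_pow,
        Real.sq_sqrt hu.le]
      exact inv_mul_cancel₀ hu.ne'
    · rw [emax_smul _ (by positivity)]
      rw [mul_pow, inv_pow, Real.sq_sqrt hu.le]
      field_simp
  have hvpos : 0 < ∑ i, ‖v i‖ ^ 2 := by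
    rcases (Finset.sum_nonneg (fun i (_ : i ∈ univ) => sq_nonneg ‖v i‖)).lt_or_eq with h | h
    · exact h
    · exfalso
      have h0 : ∀ i, v i = 0 := by
        intro i
        have := (Finset.sum_eq_zero_iff_of_nonneg
          (fun i (_ : i ∈ univ) => sq_nonneg ‖v i‖)).mp h.symm i (mem_univ i)
        simpa using this
      have h1 : emax v = 0 := by
        have : v = fun i => (0 : ℝ) • v i := by funext i; simp [h0 i]
        rw [this, emax_smul 0 le_rfl, zero_mul]
      rw [h1, ← h] at hv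
      simp at hv
  obtain ⟨v', hv'S, hv'⟩ := normalise v hvpos
  have hcomp : IsCompact S := by
    refine (isCompact_closedBall (0 : ι → E n) 1).of_isClosed_subset ?_ ?_
    · exact isClosed_eq (by fun_prop) continuous_const
    · intro w hw
      rw [mem_closedBall_zero_iff, pi_norm_le_iff_of_nonneg zero_le_one]
      intro i
      have h1 : ‖w i‖ ^ 2 ≤ ∑ i, ‖w i‖ ^ 2 :=
        Finset.single_le_sum (f := fun i => ‖w i‖ ^ 2) (fun _ _ => sq_nonneg _) (mem_univ i)
      have h2 : ∑ i, ‖w i‖ ^ 2 = 1 := hw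
      rw [h2] at h1
      exact (sq_le_one_iff₀ (norm_nonneg _)).mp h1
  obtain ⟨w0, hw0S, hmax0⟩ := hcomp.exists_isMaxOn ⟨v', hv'S⟩
    (continuous_emax (n := n) (ι := ι)).continuousOn
  have hmax1 : ∀ u ∈ S, emax u ≤ emax w0 := fun u hu => hmax0 hu
  set M := emax w0 ^ 2 with hM
  have he0 : 0 ≤ emax w0 := emax_nonneg w0
  have hCM : C < M := by
    have h1 : emax v' ^ 2 ≤ M := by
      have := hmax1 v' hv'S
      have h2 := emax_nonneg v'
      nlinarith
    rw [hv'] at hv
    have h3 : C < emax v' ^ 2 := lt_of_mul_lt_mul_right hv hvpos.le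
    linarith
  have hMpos : 0 < M := lt_of_le_of_lt hC hCM
  refine ⟨M, fun i => Real.sqrt M • w0 i, hCM, ?_, ?_, ?_⟩
  · intro u
    rcases (Finset.sum_nonneg (fun i (_ : i ∈ univ) => sq_nonneg ‖u i‖)).lt_or_eq with h | h
    · obtain ⟨u', hu', hu''⟩ := normalise u h
      rw [hu'']
      refine mul_le_mul_of_nonneg_right ?_ h.le
      have := hmax1 u' hu'
      have h2 := emax_nonneg u'
      nlinarith
    · have h0 : ∀ i, u i = 0 := by
        intro i
        have := (Finset.sum_eq_zero_iff_of_nonneg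
          (fun i (_ : i ∈ univ) => sq_nonneg ‖u i‖)).mp h.symm i (mem_univ i)
        simpa using this
      have h1 : emax u = 0 := by
        have : u = fun i => (0 : ℝ) • u i := by funext i; simp [h0 i]
        rw [this, emax_smul 0 le_rfl, zero_mul]
      rw [h1, ← h]; simp
  · simp only [norm_smul, mul_pow]
    rw [← Finset.mul_sum]
    have : ∑ i, ‖w0 i‖ ^ 2 = 1 := hw0S
    rw [this, mul_one, Real.norm_of_nonneg (Real.sqrt_nonneg _), Real.sq_sqrt hMpos.le]
  · rw [emax_smul _ (Real.sqrt_nonneg _), hM, Real.sqrt_sq he0]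
    ring

end Opt1

namespace Opt2

open Opt1

variable {n : ℕ} {ι : Type} [Fintype ι]

lemma meas_cell (w : ι → E n) (i : ι) : MeasurableSet (cell w i) := by
  have : cell w i = ⋂ j, ⋂ (_ : j ≠ i), {x | inner ℝ (w j) x < inner ℝ (w i) x} := by
    ext x; simp [cell]
  rw [this]
  exact MeasurableSet.iInter fun j => MeasurableSet.iInter fun _ =>
    measurableSet_lt (by fun_prop) (by fun_prop)

omit [Fintype ι] in
lemma cell_disj (w : ι → E n) : Pairwise (Function.onFun Disjoint (cell w)) := by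
  intro i j hij
  rw [Function.onFun, Set.disjoint_left]
  intro x hi hj
  exact lt_asymm (hi j hij.symm) (hj i hij)

variable [Nonempty ι]

lemma cell_cover (w : ι → E n) (hinj : Function.Injective w) :
    (⋃ i, cell w i) =ᵐ[gs n] Set.univ := by
  have h : ∀ᵐ x ∂gs n, ∀ i j, i ≠ j → inner ℝ (w i - w j) x ≠ 0 := by
    rw [ae_all_iff]; intro i
    rw [ae_all_iff]; intro j
    by_cases hij : i = j
    · exact Filter.Eventually.of_forall fun x h => absurd hij h
    · have h1 := hyper_null (w i - w j) (sub_ne_zero.mpr (fun h => hij (hinj h)))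
      have h2 : ∀ᵐ x ∂gs n, ¬ (inner ℝ (w i - w j) x = 0) := by
        rw [ae_iff]; simpa using h1
      filter_upwards [h2] with x hx _
      exact hx
  rw [ae_eq_univ]
  refine measure_mono_null ?_ (ae_iff.mp h)
  intro x hx hall
  apply hx
  obtain ⟨i, hi⟩ := exists_hmax w x
  rw [Set.mem_iUnion]
  refine ⟨i, fun j hj => ?_⟩
  have h1 : inner ℝ (w j) x ≤ inner ℝ (w i) x := by rw [← hi]; exact le_hmax w j x
  refine lt_of_le_of_ne h1 fun heq => hall i j hj.symm ?_
  rw [inner_sub_left, heq, sub_self]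

lemma sum_cell (w : ι → E n) (hinj : Function.Injective w) (f : E n → ℝ)
    (hf : Integrable f (gs n)) : ∑ i, ∫ x in cell w i, f x ∂gs n = ∫ x, f x ∂gs n := by
  rw [← integral_iUnion_fintype (fun i => meas_cell w i) (cell_disj w)
    (fun i => hf.integrableOn), setIntegral_congr_set (cell_cover w hinj), setIntegral_univ]

omit [Fintype ι] [Nonempty ι] in
lemma inner_mom (w : ι → E n) (i : ι) (v : E n) :
    inner ℝ v (∫ x in cell w i, x ∂gs n) = ∫ x in cell w i, inner ℝ v x ∂gs n := by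
  rw [← integral_inner]
  exact (IsGaussian.integrable_id (μ := gs n)).integrableOn

lemma sum_inner_cell (w : ι → E n) (hinj : Function.Injective w) :
    ∑ i, inner ℝ (w i) (∫ x in cell w i, x ∂gs n) = emax w := by
  unfold emax
  rw [← sum_cell w hinj (hmax w) (int_hmax w)]
  refine Finset.sum_congr rfl fun i _ => ?_
  rw [inner_mom]
  refine setIntegral_congr_fun (meas_cell w i) fun x hx => ?_
  apply le_antisymm (le_hmax w i x)
  apply hmax_le
  intro j
  by_cases hj : j = i
  · rw [hj]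
  · exact (hx j hj).le

/-- moments of the cells of an optimal configuration -/
lemma mom_eq (w : ι → E n) (hinj : Function.Injective w) (M : ℝ) (hM : 0 < M)
    (hbd : Bd n ι M) (hs : ∑ i, ‖w i‖ ^ 2 = M) (he : emax w = M) :
    ∀ i, ∫ x in cell w i, x ∂gs n = w i := by
  set z : ι → E n := fun i => ∫ x in cell w i, x ∂gs n with hz
  have h1 : ∑ i, inner ℝ (w i) (z i) = M := by rw [← he]; exact sum_inner_cell w hinj
  have h2 : ∑ i, ‖z i‖ ^ 2 ≤ emax z := by
    unfold emax
    rw [← sum_cell w hinj (hmax z) (int_hmax z)]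
    refine Finset.sum_le_sum fun i _ => ?_
    rw [← real_inner_self_eq_norm_sq]
    calc inner ℝ (z i) (z i) = ∫ x in cell w i, inner ℝ (z i) x ∂gs n := inner_mom w i (z i)
      _ ≤ _ := setIntegral_mono (int_inner _).integrableOn (int_hmax z).integrableOn
            (fun x => le_hmax z i x)
  have h3 := hbd z
  have h4 : 0 ≤ ∑ i, ‖z i‖ ^ 2 := Finset.sum_nonneg fun i _ => sq_nonneg _
  have h5 : ∑ i, ‖z i‖ ^ 2 ≤ M := by
    by_contra hcon
    push Not at hcon
    have : (∑ i, ‖z i‖ ^ 2) ^ 2 ≤ emax z ^ 2 := by nlinarith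
    nlinarith
  have h6 : ∑ i, ‖w i - z i‖ ^ 2 ≤ 0 := by
    have : ∀ i, ‖w i - z i‖ ^ 2 = ‖w i‖ ^ 2 - 2 * inner ℝ (w i) (z i) + ‖z i‖ ^ 2 :=
      fun i => norm_sub_sq_real _ _
    simp only [this, Finset.sum_add_distrib, Finset.sum_sub_distrib, ← Finset.mul_sum]
    rw [hs, h1]; linarith
  have h7 : ∑ i, ‖w i - z i‖ ^ 2 = 0 := le_antisymm h6 (Finset.sum_nonneg fun i _ => sq_nonneg _)
  intro i
  have h8 := (Finset.sum_eq_zero_iff_of_nonneg
    (fun i (_ : i ∈ univ) => sq_nonneg ‖w i - z i‖)).mp h7 i (mem_univ i)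
  have h9 : w i - z i = 0 := by simpa using h8
  exact (sub_eq_zero.mp h9).symm

end Opt2

open Opt1 Opt2 in
theorem exists_opt (n k : ℕ) [NeZero k] [NeZero (k - 1)] (hk : 2 ≤ k) (C : ℝ) (hC : 0 < C)
    (hb : Bd n (Fin (k - 1)) C) (hno : ¬ Bd n (Fin k) C) :
    ∃ (M : ℝ) (w : Fin k → E n), C < M ∧ Opt n k M w := by
  obtain ⟨m, rfl⟩ : ∃ m, k = m + 1 := ⟨k - 1, by omega⟩
  have : NeZero m := ⟨by omega⟩
  have hb' : Bd n (Fin m) C := hb
  obtain ⟨M, w, hCM, hbd, hs, he⟩ := exists_max C hC.le hno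
  have hM : 0 < M := hC.trans hCM
  have hinj : Function.Injective w := by
    intro i j hij
    by_contra hne
    obtain ⟨l0, hl0⟩ := Fin.exists_succAbove_eq hne
    set v : Fin m → E n := fun l => w (j.succAbove l) with hv
    have h1 : emax w ≤ emax v := by
      refine integral_mono (int_hmax w) (int_hmax v) fun x => ?_
      apply hmax_le
      intro i'
      by_cases h : i' = j
      · have : w i' = v l0 := by rw [h, hv]; simp only [hl0]; exact hij.symm
        rw [this]; exact le_hmax v l0 x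
      · obtain ⟨l, hl⟩ := Fin.exists_succAbove_eq h
        rw [← hl]; exact le_hmax v l x
    have h2 := hb' v
    have h3 : ∑ l, ‖v l‖ ^ 2 ≤ M := by
      rw [← hs, Fin.sum_univ_succAbove _ j]
      have : 0 ≤ ‖w j‖ ^ 2 := sq_nonneg _
      linarith
    rw [he] at h1
    have h4 : M ^ 2 ≤ emax v ^ 2 := by nlinarith
    have h5 : C * ∑ l, ‖v l‖ ^ 2 ≤ C * M := mul_le_mul_of_nonneg_left h3 hC.le
    nlinarith
  have hmom := mom_eq w hinj M hM hbd hs he
  refine ⟨M, w, hCM, ⟨hM, hbd, hs, he, ?_, hmom⟩⟩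
  intro i j hij
  by_contra hcon
  push Not at hcon
  obtain ⟨l0, hl0⟩ := Fin.exists_succAbove_eq hij
  set v : Fin m → E n := fun l => w (j.succAbove l) + if l = l0 then w j else 0 with hv
  have h1 : ∑ l, ‖v l‖ ^ 2 = M + 2 * inner ℝ (w i) (w j) := by
    have e1 : ∀ l, ‖v l‖ ^ 2 = ‖w (j.succAbove l)‖ ^ 2
        + if l = l0 then 2 * inner ℝ (w i) (w j) + ‖w j‖ ^ 2 else 0 := by
      intro l
      by_cases h : l = l0
      · simp only [hv, h, if_true, hl0]
        rw [norm_add_sq_real]; ring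
      · simp [hv, h]
    simp only [e1, Finset.sum_add_distrib, Finset.sum_ite_eq', Finset.mem_univ, if_true]
    rw [← hs, Fin.sum_univ_succAbove (fun i => ‖w i‖ ^ 2) j]
    ring
  have h2 : ∑ l, ‖v l‖ ^ 2 ≤ emax v := by
    have e1 : ∀ l, ‖v l‖ ^ 2 = inner ℝ (v l) (w (j.succAbove l))
        + if l = l0 then inner ℝ (v l0) (w j) else 0 := by
      intro l
      rw [← real_inner_self_eq_norm_sq]
      by_cases h : l = l0
      · subst h
        simp only [if_true]
        rw [← inner_add_right]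
        simp [hv]
      · simp [hv, h]
    simp only [e1, Finset.sum_add_distrib, Finset.sum_ite_eq', Finset.mem_univ, if_true]
    unfold emax
    rw [← sum_cell w hinj (hmax v) (int_hmax v), Fin.sum_univ_succAbove _ j, add_comm]
    refine add_le_add ?_ (Finset.sum_le_sum fun l _ => ?_)
    · calc inner ℝ (v l0) (w j) = ∫ x in cell w j, inner ℝ (v l0) x ∂gs n := by
            rw [← inner_mom, hmom]
        _ ≤ _ := setIntegral_mono (int_inner _).integrableOn (int_hmax v).integrableOn
            (fun x => le_hmax v l0 x)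
    · calc inner ℝ (v l) (w (j.succAbove l))
            = ∫ x in cell w (j.succAbove l), inner ℝ (v l) x ∂gs n := by
            rw [← inner_mom, hmom]
        _ ≤ _ := setIntegral_mono (int_inner _).integrableOn (int_hmax v).integrableOn
            (fun x => le_hmax v l x)
  have h3 := hb' v
  rw [h1] at h2 h3
  have h4 : (M + 2 * inner ℝ (w i) (w j)) ^ 2 ≤ emax v ^ 2 := by nlinarith
  nlinarith

end Vale.Agent.Propeller
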