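import Vale.Agent.Propeller.Core2
import Vale.Agent.Propeller.Opt

/-!
# P226: resampling along `q`
-/

namespace Vale.Agent.Propeller

open MeasureTheory ProbabilityTheory Measure Metric Set Filter
open scoped ENNReal Topology

variable {n : ℕ} {ι : Type} [Fintype ι] [Nonempty ι]

/-- projection orthogonal to the unit vector `e` -/
noncomputable def pr (e x : E n) : E n := x - (inner ℝ x e) • e

theorem continuous_pr (e : E n) : Continuous (pr e) := by
  unfold pr
  fun_prop

theorem rs_eq (q x : E n) (η : ℝ) :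
    rs (‖q‖⁻¹ • q) x η = pr (‖q‖⁻¹ • q) x + (η / ‖q‖) • q := by
  unfold rs pr
  rw [smul_smul η, ← div_eq_mul_inv]

theorem norm_unit (q : E n) (hq0 : q ≠ 0) : ‖‖q‖⁻¹ • q‖ = 1 := by
  rw [norm_smul, norm_inv, norm_norm, inv_mul_cancel₀ (norm_ne_zero_iff.2 hq0)]

theorem hmin_rs (d : ι → E n) (q : E n) (hq : ∀ j, inner ℝ q (d j) = 1) (x : E n) (η : ℝ) :
    hmin d (rs (‖q‖⁻¹ • q) x η) = hmin d (pr (‖q‖⁻¹ • q) x) + η / ‖q‖ := by
  rw [rs_eq, hmin_add d q hq]

theorem inner_pr (q : E n) (hq0 : q ≠ 0) (x : E n) : inner ℝ q (pr (‖q‖⁻¹ • q) x) = 0 := by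
  have h := norm_ne_zero_iff.2 hq0
  unfold pr
  rw [inner_sub_right, inner_smul_right, inner_smul_right, inner_smul_right,
    real_inner_self_eq_norm_sq, real_inner_comm]
  field_simp
  ring

theorem inner_rs (q : E n) (hq0 : q ≠ 0) (x : E n) (η : ℝ) :
    inner ℝ q (rs (‖q‖⁻¹ • q) x η) = ‖q‖ * η := by
  have h := norm_ne_zero_iff.2 hq0
  rw [rs_eq, inner_add_right, inner_pr q hq0, inner_smul_right, real_inner_self_eq_norm_sq]
  field_simp
  ring

theorem beta_eq (d : ι → E n) (q : E n) (hq : ∀ j, inner ℝ q (d j) = 1) (hq0 : q ≠ 0) (β : ℝ)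
    (hz : inner ℝ q (∫ x in {x | ∀ j, 0 < inner ℝ (d j) x}, x ∂gs n) = β) :
    ∫⁻ x, ENNReal.ofReal (‖q‖ * gaussianPDFReal 0 1 (‖q‖ * hmin d (pr (‖q‖⁻¹ • q) x))) ∂gs n =
      ENNReal.ofReal β := by
  have hκ : 0 < ‖q‖ := norm_pos_iff.2 hq0
  set S : Set (E n) := {x | ∀ j, 0 < inner ℝ (d j) x} with hS
  have hS2 : S = {x | 0 < hmin d x} := by
    ext x
    constructor
    · intro h
      obtain ⟨j, hj⟩ := exists_hmin d x
      exact (show 0 < hmin d x by rw [hj]; exact h j)
    · intro h j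
      exact lt_of_lt_of_le h (hmin_le d x j)
  have hSm : MeasurableSet S := by
    rw [hS2]
    exact (isOpen_lt continuous_const (continuous_hmin d)).measurableSet
  have hrs := measurable_rs (‖q‖⁻¹ • q)
  have hint : Integrable (S.indicator fun x => inner ℝ q x) (gs n) :=
    (Opt1.int_inner q).indicator hSm
  have hmeas : Continuous fun x : E n =>
      gaussianPDFReal 0 1 (‖q‖ * hmin d (pr (‖q‖⁻¹ • q) x)) := by
    have h1 : Continuous (hmin d) := continuous_hmin d
    have h2 := continuous_pr (‖q‖⁻¹ • q)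
    have h3 : Continuous (gaussianPDFReal 0 1) := by
      have : gaussianPDFReal 0 1 = fun x => (Real.sqrt (2 * Real.pi))⁻¹ *
          Real.exp (-(1 / 2) * x ^ 2) := funext pdf_eq
      rw [this]
      fun_prop
    exact h3.comp (continuous_const.mul (h1.comp h2))
  have key : β = ∫ x, ‖q‖ * gaussianPDFReal 0 1 (‖q‖ * hmin d (pr (‖q‖⁻¹ • q) x)) ∂gs n := by
    have hz1 : inner ℝ q (∫ x in S, x ∂gs n) = ∫ x in S, inner ℝ q x ∂gs n := by
      rw [← integral_inner]
      exact (IsGaussian.integrable_id (μ := gs n)).integrableOn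
    rw [← hz, hz1, ← integral_indicator hSm]
    conv_lhs => rw [← map_rs n (‖q‖⁻¹ • q) (norm_unit q hq0)]
    rw [integral_map hrs.aemeasurable (by rw [map_rs n _ (norm_unit q hq0)]; exact hint.1),
      integral_prod]
    · refine integral_congr_ae (ae_of_all _ fun x => ?_)
      show (∫ η, S.indicator (fun x => inner ℝ q x) (rs (‖q‖⁻¹ • q) x η) ∂gaussianReal 0 1) = _
      have h1 : ∀ η : ℝ, S.indicator (fun x => inner ℝ q x) (rs (‖q‖⁻¹ • q) x η) =
          (Ioi (-(‖q‖ * hmin d (pr (‖q‖⁻¹ • q) x)))).indicator (fun η => ‖q‖ * η) η := by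
        intro η
        have h2 : rs (‖q‖⁻¹ • q) x η ∈ S ↔ η ∈ Ioi (-(‖q‖ * hmin d (pr (‖q‖⁻¹ • q) x))) := by
          rw [hS2, mem_ofPred_eq, hmin_rs d q hq, mem_Ioi]
          constructor
          · intro h
            have := mul_pos hκ h
            rw [mul_add, mul_div_cancel₀ _ hκ.ne'] at this
            linarith
          · intro h
            have h4 : 0 < ‖q‖ * (hmin d (pr (‖q‖⁻¹ • q) x) + η / ‖q‖) := by
              rw [mul_add, mul_div_cancel₀ _ hκ.ne']
              linarith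
            exact (mul_pos_iff_of_pos_left hκ).1 h4
        by_cases h : rs (‖q‖⁻¹ • q) x η ∈ S
        · rw [indicator_of_mem h, indicator_of_mem (h2.1 h), inner_rs q hq0]
        · rw [indicator_of_notMem h, indicator_of_notMem (fun h' => h (h2.2 h'))]
      simp only [h1]
      rw [integral_indicator measurableSet_Ioi, integral_const_mul, integral_Ioi_gaussian,
        pdf_eq, pdf_eq, neg_sq]
    · have := hint
      rw [← map_rs n (‖q‖⁻¹ • q) (norm_unit q hq0)] at this
      exact (integrable_map_measure (by rw [map_rs n _ (norm_unit q hq0)]; exact hint.1)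
        hrs.aemeasurable).1 this
  rw [key]
  symm
  refine ofReal_integral_eq_lintegral_ofReal ?_ (ae_of_all _ fun x =>
    mul_nonneg hκ.le (gaussianPDFReal_nonneg 0 1 _))
  refine Integrable.of_bound (C := ‖q‖) (continuous_const.mul hmeas).aestronglyMeasurable
    (ae_of_all _ fun x => ?_)
  rw [norm_mul, norm_norm, Real.norm_eq_abs, abs_of_nonneg (gaussianPDFReal_nonneg 0 1 _), pdf_eq]
  have h5 : Real.exp (-(1 / 2) * (‖q‖ * hmin d (pr (‖q‖⁻¹ • q) x)) ^ 2) ≤ 1 := by
    rw [Real.exp_le_one_iff]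
    nlinarith [sq_nonneg (‖q‖ * hmin d (pr (‖q‖⁻¹ • q) x))]
  have h6 : (Real.sqrt (2 * Real.pi))⁻¹ ≤ 1 := by
    apply inv_le_one_of_one_le₀
    rw [Real.one_le_sqrt]
    linarith [Real.pi_gt_three]
  calc ‖q‖ * ((Real.sqrt (2 * Real.pi))⁻¹ *
        Real.exp (-(1 / 2) * (‖q‖ * hmin d (pr (‖q‖⁻¹ • q) x)) ^ 2)) ≤ ‖q‖ * (1 * 1) := by
        gcongr
    _ = ‖q‖ := by ring

end Vale.Agent.Propeller
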