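import Vale.Agent.Propeller.Core3

/-!
# P226: upper and lower bounds of the averaged first-order functional
-/

namespace Vale.Agent.Propeller

open MeasureTheory ProbabilityTheory Measure Metric Set Filter
open scoped ENNReal Topology

variable {n : ℕ} {ι : Type} [Fintype ι] [Nonempty ι]

theorem lintegral_adjoint_sq (T : E n →ₗ[ℝ] E n) :
    ∫⁻ g, ENNReal.ofReal (‖LinearMap.adjoint T g‖ ^ 2) ∂gs n =
      ENNReal.ofReal (∑ i, ‖T (EuclideanSpace.basisFun (Fin n) ℝ i)‖ ^ 2) := by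
  have h1 : ∀ g : E n, ‖LinearMap.adjoint T g‖ ^ 2 =
      ∑ i, (inner ℝ g (T (EuclideanSpace.basisFun (Fin n) ℝ i))) ^ 2 := by
    intro g
    rw [← (EuclideanSpace.basisFun (Fin n) ℝ).sum_sq_norm_inner_right]
    refine Finset.sum_congr rfl fun i _ => ?_
    rw [LinearMap.adjoint_inner_right, real_inner_comm, Real.norm_eq_abs, sq_abs]
  simp only [h1]
  have h2 : ∀ g : E n, ENNReal.ofReal
      (∑ i, (inner ℝ g (T (EuclideanSpace.basisFun (Fin n) ℝ i))) ^ 2) =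
      ∑ i, ENNReal.ofReal ((inner ℝ g (T (EuclideanSpace.basisFun (Fin n) ℝ i))) ^ 2) := by
    intro g
    exact ENNReal.ofReal_sum_of_nonneg fun i _ => sq_nonneg _
  simp only [h2]
  rw [lintegral_finsetSum _ (fun i _ => by fun_prop),
    ENNReal.ofReal_sum_of_nonneg fun i _ => sq_nonneg _]
  refine Finset.sum_congr rfl fun i _ => ?_
  rw [lintegral_inner n _ (fun t => ENNReal.ofReal (t ^ 2)) (by fun_prop)]
  have h3 : ∀ ξ : ℝ, ENNReal.ofReal ((‖T (EuclideanSpace.basisFun (Fin n) ℝ i)‖ * ξ) ^ 2) =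
      ENNReal.ofReal (‖T (EuclideanSpace.basisFun (Fin n) ℝ i)‖ ^ 2) * ENNReal.ofReal (ξ ^ 2) := by
    intro ξ
    rw [← ENNReal.ofReal_mul (sq_nonneg _), mul_pow]
  simp only [h3]
  rw [lintegral_const_mul _ (by fun_prop), lintegral_sq_gaussian, mul_one]

/-- upper bound -/
theorem upper (u : E n → ℝ) (hu : Measurable u) (β : ℝ) (hβ : 0 ≤ β)
    (hF : ∀ δ : E n, ∫⁻ x, ENNReal.ofReal (|inner ℝ δ x| - |u x|) ∂gs n ≤
      ENNReal.ofReal (β * ‖δ‖ ^ 2)) (T : E n →ₗ[ℝ] E n) (ε r : ℝ) (hε : 0 < ε) (hr : 0 < r) :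
    ∫⁻ x, ∫⁻ ξ, ENNReal.ofReal (ε * ‖T x‖ * |ξ| - r * |u x|) ∂gaussianReal 0 1 ∂gs n ≤
      ENNReal.ofReal (β * ε ^ 2 * ∑ i, ‖T (EuclideanSpace.basisFun (Fin n) ℝ i)‖ ^ 2) *
        ENNReal.ofReal r⁻¹ := by
  have hTc : Continuous T := T.continuous_of_finiteDimensional
  have hTac : Continuous (LinearMap.adjoint T) :=
    (LinearMap.adjoint T).continuous_of_finiteDimensional
  have h1 : ∀ x : E n, ∫⁻ ξ, ENNReal.ofReal (ε * ‖T x‖ * |ξ| - r * |u x|) ∂gaussianReal 0 1 =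
      ∫⁻ g, ENNReal.ofReal (ε * |inner ℝ g (T x)| - r * |u x|) ∂gs n := by
    intro x
    rw [lintegral_inner n (T x) (fun t => ENNReal.ofReal (ε * |t| - r * |u x|)) (by fun_prop)]
    refine lintegral_congr fun ξ => ?_
    rw [abs_mul, abs_norm, mul_assoc]
  simp only [h1]
  have hmeas : Measurable (Function.uncurry fun (x g : E n) =>
      ENNReal.ofReal (ε * |inner ℝ g (T x)| - r * |u x|)) := by
    have hT' : Measurable T := hTc.measurable
    unfold Function.uncurry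
    fun_prop
  rw [lintegral_lintegral_swap hmeas.aemeasurable]
  have h2 : ∀ g x : E n, ENNReal.ofReal (ε * |inner ℝ g (T x)| - r * |u x|) =
      ENNReal.ofReal r * ENNReal.ofReal
        (|inner ℝ ((ε / r) • LinearMap.adjoint T g) x| - |u x|) := by
    intro g x
    rw [← ENNReal.ofReal_mul hr.le, inner_smul_left, LinearMap.adjoint_inner_left, conj_trivial,
      abs_mul, abs_of_pos (div_pos hε hr)]
    congr 1
    field_simp
  simp only [h2]
  have hm3 : ∀ g : E n, Measurable fun x : E n => ENNReal.ofReal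
        (|inner ℝ ((ε / r) • LinearMap.adjoint T g) x| - |u x|) := by
    intro g
    fun_prop
  calc ∫⁻ g, ∫⁻ x, ENNReal.ofReal r * ENNReal.ofReal
        (|inner ℝ ((ε / r) • LinearMap.adjoint T g) x| - |u x|) ∂gs n ∂gs n
      = ∫⁻ g, ENNReal.ofReal r * ∫⁻ x, ENNReal.ofReal
        (|inner ℝ ((ε / r) • LinearMap.adjoint T g) x| - |u x|) ∂gs n ∂gs n :=
        lintegral_congr fun g => lintegral_const_mul _ (hm3 g)
    _ ≤ ∫⁻ g, ENNReal.ofReal r * ENNReal.ofReal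
        (β * ‖(ε / r) • LinearMap.adjoint T g‖ ^ 2) ∂gs n :=
        lintegral_mono fun g => mul_le_mul_right (hF _) _
    _ = ∫⁻ g, ENNReal.ofReal (β * ε ^ 2 * r⁻¹) * ENNReal.ofReal
        (‖LinearMap.adjoint T g‖ ^ 2) ∂gs n := by
        refine lintegral_congr fun g => ?_
        rw [← ENNReal.ofReal_mul hr.le, ← ENNReal.ofReal_mul (by positivity), norm_smul,
          Real.norm_eq_abs, abs_of_pos (div_pos hε hr)]
        congr 1
        field_simp
    _ = ENNReal.ofReal (β * ε ^ 2 * r⁻¹) * ENNReal.ofReal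
        (∑ i, ‖T (EuclideanSpace.basisFun (Fin n) ℝ i)‖ ^ 2) := by
        rw [lintegral_const_mul _ (by have := hTac.measurable; fun_prop), lintegral_adjoint_sq]
    _ = _ := by
        rw [← ENNReal.ofReal_mul (by positivity), ← ENNReal.ofReal_mul (by positivity)]
        congr 1
        ring

/-- lower bound -/
theorem lower (hn : 1 ≤ n) (d : ι → E n) (T : E n →ₗ[ℝ] E n) (C' : ℝ)
    (hT : ∀ x, ‖x‖ - C' * |hmin d x| ≤ ‖T x‖) (ε : ℝ) (hε : 0 < ε) :
    (∫⁻ x : E n, ENNReal.ofReal ‖x‖ ∂gs n) * ∫⁻ x, ∫⁻ ξ, ENNReal.ofReal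
      (ε * |ξ| - ε * C' * |ξ| * |hmin d (dir x)| - |hmin d x|) ∂gaussianReal 0 1 ∂gs n ≤
    ∫⁻ x' : E n, ∫⁻ x, ∫⁻ ξ, ENNReal.ofReal (ε * ‖T x‖ * |ξ| - ‖x'‖ * |hmin d x|)
      ∂gaussianReal 0 1 ∂gs n ∂gs n := by
  have hum : Measurable (hmin d) := (continuous_hmin d).measurable
  set G : ℝ × E n → ℝ≥0∞ := fun z => ∫⁻ ξ, ENNReal.ofReal
    (ε * |ξ| - ε * C' * |ξ| * |hmin d z.2| - z.1 * |hmin d z.2|) ∂gaussianReal 0 1 with hG
  have hGm : Measurable G := by
    have : Measurable (fun w : (ℝ × E n) × ℝ => ENNReal.ofReal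
      (ε * |w.2| - ε * C' * |w.2| * |hmin d w.1.2| - w.1.1 * |hmin d w.1.2|)) := by
      fun_prop
    exact this.lintegral_prod_right'
  have h1 : ∀ x' x : E n, ENNReal.ofReal ‖x‖ * G (‖x'‖, dir x) ≤
      ∫⁻ ξ, ENNReal.ofReal (ε * ‖T x‖ * |ξ| - ‖x'‖ * |hmin d x|) ∂gaussianReal 0 1 := by
    intro x' x
    rw [hG]
    simp only
    rw [← lintegral_const_mul _ (by fun_prop)]
    refine lintegral_mono fun ξ => ?_
    simp only
    rw [← ENNReal.ofReal_mul (norm_nonneg _)]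
    apply ENNReal.ofReal_le_ofReal
    have e1 : |hmin d x| = ‖x‖ * |hmin d (dir x)| := by
      rw [← hmin_dir d x, abs_mul, abs_norm]
    have e2 := mul_le_mul_of_nonneg_left (hT x) (mul_nonneg hε.le (abs_nonneg ξ))
    rw [e1] at e2 ⊢
    nlinarith [e2]
  have h2 : ∀ x : E n, (∫⁻ ξ, ENNReal.ofReal (ε * |ξ| - ε * C' * |ξ| * |hmin d (dir x)| -
      |hmin d x|) ∂gaussianReal 0 1) = G (‖x‖, dir x) := by
    intro x
    refine lintegral_congr fun ξ => ?_
    have e1 : |hmin d x| = ‖x‖ * |hmin d (dir x)| := by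
      rw [← hmin_dir d x, abs_mul, abs_norm]
    rw [e1]
  simp only [h2]
  calc (∫⁻ x : E n, ENNReal.ofReal ‖x‖ ∂gs n) * ∫⁻ x : E n, G (‖x‖, dir x) ∂gs n
      = ∫⁻ x' : E n, ∫⁻ x : E n, ENNReal.ofReal ‖x‖ * G (‖x'‖, dir x) ∂gs n ∂gs n := by
        rw [← lintegral_swap n hn G hGm, ← lintegral_const_mul]
        · refine lintegral_congr fun x' => ?_
          rw [lintegral_dir_mul n hn (fun t => ENNReal.ofReal t) (by fun_prop)
            (fun θ => G (‖x'‖, θ)) (hGm.comp measurable_prodMk_left)]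
        · have h5 : Measurable (fun w : E n × E n => G (‖w.1‖, dir w.2)) :=
            hGm.comp ((measurable_norm.comp measurable_fst).prodMk
              (measurable_dir.comp measurable_snd))
          exact h5.lintegral_prod_right'
    _ ≤ _ := lintegral_mono fun x' => lintegral_mono fun x => h1 x' x

end Vale.Agent.Propeller
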