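import Vale.Agent.Propeller.Core4

/-!
# P226: Fatou's lemma for the rescaled functional
-/

namespace Vale.Agent.Propeller

open MeasureTheory ProbabilityTheory Measure Metric Set Filter
open scoped ENNReal Topology

variable {n : ℕ} {ι : Type} [Fintype ι] [Nonempty ι]

theorem pr_ne_zero (hn : 2 ≤ n) (e : E n) : ∀ᵐ x ∂gs n, pr e x ≠ 0 := by
  have h1 : Module.finrank ℝ (Submodule.span ℝ {e})ᗮ ≠ 0 := by
    have h2 := Submodule.finrank_add_finrank_orthogonal (Submodule.span ℝ {e})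
    have h3 : Module.finrank ℝ (Submodule.span ℝ {e}) ≤ 1 := by
      refine (finrank_span_le_card _).trans ?_
      simp
    rw [finrank_euclideanSpace_fin] at h2
    omega
  have h4 : (Submodule.span ℝ {e})ᗮ ≠ ⊥ := by
    intro h
    rw [h, finrank_bot] at h1
    exact h1 rfl
  obtain ⟨v, hv, hv0⟩ := Submodule.exists_mem_ne_zero_of_ne_bot h4
  have h5 := Opt1.hyper_null v hv0
  rw [ae_iff]
  refine measure_mono_null ?_ h5
  intro x hx
  simp only [ne_eq, not_not, mem_ofPred_eq] at hx ⊢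
  unfold pr at hx
  rw [sub_eq_zero.1 hx, inner_smul_right]
  have h6 : inner ℝ e v = 0 := Submodule.mem_orthogonal_singleton_iff_inner_right.1 hv
  rw [real_inner_comm e v, h6, mul_zero]

/-- the rescaled integrand -/
noncomputable def Hf (d : ι → E n) (q : E n) (C' ε : ℝ) (z : E n × (ℝ × ℝ)) : ℝ≥0∞ :=
  ENNReal.ofReal (‖q‖ * gaussianPDFReal 0 1 (‖q‖ * (ε * z.2.1 - hmin d (pr (‖q‖⁻¹ • q) z.1)))) *
    ENNReal.ofReal (|z.2.2| - C' * |z.2.2| * |hmin d (dir (pr (‖q‖⁻¹ • q) z.1 +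
      (ε * z.2.1 - hmin d (pr (‖q‖⁻¹ • q) z.1)) • q))| - |z.2.1|)

theorem continuous_pdf : Continuous (gaussianPDFReal 0 1) := by
  have : gaussianPDFReal 0 1 = fun x => (Real.sqrt (2 * Real.pi))⁻¹ *
      Real.exp (-(1 / 2) * x ^ 2) := funext pdf_eq
  rw [this]
  fun_prop

theorem measurable_Hf (d : ι → E n) (q : E n) (C' ε : ℝ) : Measurable (Hf d q C' ε) := by
  have hum : Measurable (hmin d) := (continuous_hmin d).measurable
  have hp : Measurable (pr (‖q‖⁻¹ • q)) := (continuous_pr _).measurable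
  have hd : Measurable (dir : E n → E n) := measurable_dir
  have hg : Measurable (gaussianPDFReal 0 1) := continuous_pdf.measurable
  unfold Hf
  fun_prop

theorem rescale (d : ι → E n) (q : E n) (hq : ∀ j, inner ℝ q (d j) = 1) (hq0 : q ≠ 0) (C' ε : ℝ)
    (hε : 0 < ε) :
    ∫⁻ x, ∫⁻ ξ, ENNReal.ofReal (ε * |ξ| - ε * C' * |ξ| * |hmin d (dir x)| - |hmin d x|)
      ∂gaussianReal 0 1 ∂gs n =
    ENNReal.ofReal (ε ^ 2) *
      ∫⁻ z, Hf d q C' ε z ∂((gs n).prod ((volume : Measure ℝ).prod (gaussianReal 0 1))) := by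
  have hκ : 0 < ‖q‖ := norm_pos_iff.2 hq0
  have hum : Measurable (hmin d) := (continuous_hmin d).measurable
  have hd : Measurable (dir : E n → E n) := measurable_dir
  have hHm := measurable_Hf d q C' ε
  set F : E n → ℝ≥0∞ := fun x => ∫⁻ ξ, ENNReal.ofReal
    (ε * |ξ| - ε * C' * |ξ| * |hmin d (dir x)| - |hmin d x|) ∂gaussianReal 0 1 with hFdef
  have hFm : Measurable F := by
    have : Measurable (fun w : E n × ℝ => ENNReal.ofReal
      (ε * |w.2| - ε * C' * |w.2| * |hmin d (dir w.1)| - |hmin d w.1|)) := by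
      fun_prop
    exact this.lintegral_prod_right'
  rw [lintegral_rs n (‖q‖⁻¹ • q) (norm_unit q hq0) F hFm, lintegral_prod _ hHm.aemeasurable,
    ← lintegral_const_mul]
  · refine lintegral_congr fun x => ?_
    have hrsm : Measurable (fun η : ℝ => rs (‖q‖⁻¹ • q) x η) :=
      (measurable_rs _).comp measurable_prodMk_left
    have hFr : Measurable (fun η : ℝ => F (rs (‖q‖⁻¹ • q) x η)) := hFm.comp hrsm
    have hg : Measurable (gaussianPDF 0 1) := measurable_gaussianPDF 0 1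
    have hgF : Measurable (fun η : ℝ => gaussianPDF 0 1 η * F (rs (‖q‖⁻¹ • q) x η)) :=
      hg.mul hFr
    have hHx : Measurable (fun y : ℝ × ℝ => Hf d q C' ε (x, y)) :=
      hHm.comp measurable_prodMk_left
    have h1 : ∫⁻ η, F (rs (‖q‖⁻¹ • q) x η) ∂gaussianReal 0 1 =
        ∫⁻ η, gaussianPDF 0 1 η * F (rs (‖q‖⁻¹ • q) x η) := by
      rw [gaussianReal_of_var_ne_zero _ one_ne_zero,
        lintegral_withDensity_eq_lintegral_mul _ hg hFr]
      rfl
    rw [h1, lintegral_affine (‖q‖ * ε) (-(‖q‖ * hmin d (pr (‖q‖⁻¹ • q) x))) (mul_pos hκ hε) _ hgF, lintegral_prod _ hHx.aemeasurable,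
      ← lintegral_const_mul, ← lintegral_const_mul]
    · refine lintegral_congr fun v => ?_
      have h2 : rs (‖q‖⁻¹ • q) x (‖q‖ * ε * v + -(‖q‖ * hmin d (pr (‖q‖⁻¹ • q) x))) =
          pr (‖q‖⁻¹ • q) x + (ε * v - hmin d (pr (‖q‖⁻¹ • q) x)) • q := by
        rw [rs_eq]
        congr 2
        field_simp
        ring
      have h3 : hmin d (pr (‖q‖⁻¹ • q) x + (ε * v - hmin d (pr (‖q‖⁻¹ • q) x)) • q) = ε * v := by
        rw [hmin_add d q hq]
        ring
      rw [h2]
      simp only [hFdef, Hf, h3]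
      rw [lintegral_const_mul _ (by fun_prop), ← mul_assoc, ← mul_assoc, gaussianPDF_def]
      have h4 : ∀ ξ : ℝ, ENNReal.ofReal (ε * |ξ| - ε * C' * |ξ| *
          |hmin d (dir (pr (‖q‖⁻¹ • q) x + (ε * v - hmin d (pr (‖q‖⁻¹ • q) x)) • q))| - |ε * v|) =
          ENNReal.ofReal ε * ENNReal.ofReal (|ξ| - C' * |ξ| *
          |hmin d (dir (pr (‖q‖⁻¹ • q) x + (ε * v - hmin d (pr (‖q‖⁻¹ • q) x)) • q))| - |v|) := by
        intro ξ
        rw [← ENNReal.ofReal_mul hε.le, abs_mul, abs_of_pos hε]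
        congr 1
        ring
      simp only [h4]
      rw [lintegral_const_mul _ (by fun_prop), ← mul_assoc]
      congr 1
      rw [← ENNReal.ofReal_mul (by positivity), ← ENNReal.ofReal_mul
        (mul_nonneg (by positivity) (gaussianPDFReal_nonneg _ _ _)),
        ← ENNReal.ofReal_mul (by positivity)]
      have h5 : ‖q‖ * ε * v + -(‖q‖ * hmin d (pr (‖q‖⁻¹ • q) x)) =
        ‖q‖ * (ε * v - hmin d (pr (‖q‖⁻¹ • q) x)) := by ring
      rw [h5]
      congr 1
      ring
    · exact hHx.lintegral_prod_right'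
    · have : Measurable (fun v : ℝ => ‖q‖ * ε * v + -(‖q‖ * hmin d (pr (‖q‖⁻¹ • q) x))) := by
        fun_prop
      exact hgF.comp this
  · exact hHm.lintegral_prod_right'

end Vale.Agent.Propeller
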