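import Mathlib

/-!
# P226 (Gaussian propeller): definitions
-/

namespace Vale.Agent.Propeller

open MeasureTheory ProbabilityTheory

/-- Euclidean space -/
abbrev E (n : ℕ) : Type := EuclideanSpace ℝ (Fin n)

/-- standard Gaussian measure -/
noncomputable abbrev gs (n : ℕ) : Measure (E n) := stdGaussian (E n)

/-- `max_i ⟪w i, x⟫` -/
noncomputable def hmax {n : ℕ} {ι : Type} [Fintype ι] [Nonempty ι] (w : ι → E n) (x : E n) : ℝ :=
  Finset.univ.sup' Finset.univ_nonempty (fun i => inner ℝ (w i) x)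

/-- `min_i ⟪d i, x⟫` -/
noncomputable def hmin {n : ℕ} {ι : Type} [Fintype ι] [Nonempty ι] (d : ι → E n) (x : E n) : ℝ :=
  Finset.univ.inf' Finset.univ_nonempty (fun i => inner ℝ (d i) x)

/-- expected maximum -/
noncomputable def emax {n : ℕ} {ι : Type} [Fintype ι] [Nonempty ι] (w : ι → E n) : ℝ :=
  ∫ x, hmax w x ∂gs n

/-- the open cell of `w i` -/
def cell {n : ℕ} {ι : Type} (w : ι → E n) (i : ι) : Set (E n) :=
  {x | ∀ j, j ≠ i → inner ℝ (w j) x < inner ℝ (w i) x}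

/-- `C` bounds `(E max)^2 / Σ |w|^2` for `ι` vectors of `ℝⁿ` -/
def Bd (n : ℕ) (ι : Type) [Fintype ι] [Nonempty ι] (C : ℝ) : Prop :=
  ∀ w : ι → E n, emax w ^ 2 ≤ C * ∑ i, ‖w i‖ ^ 2

/-- an optimal configuration which is strictly better than every configuration with fewer
vectors -/
structure Opt (n k : ℕ) [NeZero k] (M : ℝ) (w : Fin k → E n) : Prop where
  pos : 0 < M
  bd : Bd n (Fin k) M
  sumsq : ∑ i, ‖w i‖ ^ 2 = M
  emax_eq : emax w = M
  neg : ∀ i j, i ≠ j → inner ℝ (w i) (w j) < 0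
  mom : ∀ i, ∫ x in cell w i, x ∂gs n = w i

end Vale.Agent.Propeller
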