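import Vale.Agent.Propeller.Defs

/-!
# P226, part DIM: dimension reduction
-/

namespace Vale.Agent.Propeller

open MeasureTheory ProbabilityTheory Finset
open scoped InnerProductSpace

namespace DimAux

section emax

variable {ι : Type} [Fintype ι] [Nonempty ι]

theorem hmax_measurable {n : ℕ} (w : ι → E n) : Measurable (hmax w) := by
  have h1 : hmax w = univ.sup' univ_nonempty (fun i (x : E n) => (inner ℝ (w i) x : ℝ)) := by
    funext x
    rw [Finset.sup'_apply]
    rfl
  rw [h1]
  exact Finset.measurable_sup' univ_nonempty fun i _ => by fun_prop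

theorem hmax_abs_le {n : ℕ} (w : ι → E n) (x : E n) : |hmax w x| ≤ (∑ i, ‖w i‖) * ‖x‖ := by
  obtain ⟨i, -, hi⟩ := exists_mem_eq_sup' (univ_nonempty (α := ι)) (fun i => inner ℝ (w i) x)
  have h1 : hmax w x = inner ℝ (w i) x := hi
  rw [h1]
  refine (abs_real_inner_le_norm _ _).trans ?_
  exact mul_le_mul_of_nonneg_right (single_le_sum (f := fun i => ‖w i‖)
    (fun _ _ => norm_nonneg _) (mem_univ i)) (norm_nonneg _)

theorem hmax_integrable {n : ℕ} (w : ι → E n) : Integrable (hmax w) (gs n) := by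
  have h1 : Integrable (fun x : E n => (∑ i, ‖w i‖) * ‖x‖) (gs n) :=
    (IsGaussian.integrable_id (μ := gs n)).norm.const_mul _
  refine h1.mono' (hmax_measurable w).aestronglyMeasurable ?_
  exact Filter.Eventually.of_forall fun x => by
    rw [Real.norm_eq_abs]; exact hmax_abs_le w x

theorem hmax_sub {n : ℕ} (w : ι → E n) (c x : E n) :
    hmax (fun i => w i - c) x = hmax w x - inner ℝ c x := by
  unfold hmax
  apply le_antisymm
  · refine sup'_le _ _ fun i hi => ?_
    rw [inner_sub_left]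
    have := le_sup' (fun i => inner ℝ (w i) x) hi
    linarith
  · rw [sub_le_iff_le_add]
    refine sup'_le _ _ fun i hi => ?_
    have := le_sup' (fun i => inner ℝ (w i - c) x) hi
    rw [inner_sub_left] at this
    linarith

theorem emax_sub {n : ℕ} (w : ι → E n) (c : E n) : emax (fun i => w i - c) = emax w := by
  unfold emax
  simp_rw [hmax_sub]
  rw [integral_sub (hmax_integrable w)]
  · have := integral_strongDual_stdGaussian (innerSL ℝ c)
    simp only [innerSL_apply_apply] at this
    rw [this, sub_zero]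
  · exact (IsGaussian.integrable_id (μ := gs n)).const_inner c

/-- the map `x ↦ (⟪w i, x⟫)_i` -/
noncomputable def evs {n : ℕ} (w : ι → E n) (x : E n) : EuclideanSpace ℝ ι :=
  WithLp.toLp 2 fun i => inner ℝ (w i) x

omit [Fintype ι] [Nonempty ι] in
theorem evs_measurable {n : ℕ} (w : ι → E n) : Measurable (evs w) := by
  unfold evs
  fun_prop

theorem charFun_evs {n : ℕ} (w : ι → E n) (t : EuclideanSpace ℝ ι) :
    charFun ((gs n).map (evs w)) t = Complex.exp (- ‖∑ i, t i • w i‖ ^ 2 / 2) := by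
  rw [← charFun_stdGaussian, charFun_apply, charFun_apply,
    integral_map (evs_measurable w).aemeasurable (Measurable.aestronglyMeasurable (by fun_prop))]
  congr 1
  funext x
  have h1 : ⟪evs w x, t⟫_ℝ = ⟪x, ∑ i, t i • w i⟫_ℝ := by
    rw [inner_sum]
    have h2 : ⟪evs w x, t⟫_ℝ = ∑ i, ⟪(inner ℝ (w i) x : ℝ), t i⟫_ℝ := PiLp.inner_apply _ _
    rw [h2]
    refine sum_congr rfl fun i _ => ?_
    rw [inner_smul_right, real_inner_comm x (w i)]
    simp
  rw [h1]

theorem law_congr {n m : ℕ} (w : ι → E n) (w' : ι → E m)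
    (h : ∀ t : ι → ℝ, ‖∑ i, t i • w i‖ = ‖∑ i, t i • w' i‖) :
    (gs n).map (evs w) = (gs m).map (evs w') := by
  have : IsProbabilityMeasure ((gs n).map (evs w)) :=
    Measure.isProbabilityMeasure_map (evs_measurable w).aemeasurable
  have : IsProbabilityMeasure ((gs m).map (evs w')) :=
    Measure.isProbabilityMeasure_map (evs_measurable w').aemeasurable
  apply Measure.ext_of_charFun
  ext t
  rw [charFun_evs, charFun_evs, h]

theorem emax_congr {n m : ℕ} (w : ι → E n) (w' : ι → E m)
    (h : ∀ t : ι → ℝ, ‖∑ i, t i • w i‖ = ‖∑ i, t i • w' i‖) : emax w = emax w' := by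
  have key : ∀ {n : ℕ} (w : ι → E n), emax w =
      ∫ y : EuclideanSpace ℝ ι, univ.sup' univ_nonempty (fun i => y i) ∂(gs n).map (evs w) := by
    intro n w
    rw [integral_map (evs_measurable w).aemeasurable]
    · rfl
    · refine Measurable.aestronglyMeasurable ?_
      have h1 : (fun y : EuclideanSpace ℝ ι => univ.sup' univ_nonempty (fun i => y i)) =
          univ.sup' univ_nonempty (fun i (y : EuclideanSpace ℝ ι) => y i) := by
        funext y
        rw [Finset.sup'_apply]
      rw [h1]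
      exact Finset.measurable_sup' univ_nonempty fun i _ => by fun_prop
  rw [key, key, law_congr w w' h]

end emax

/-- a linear isometry from a small subspace -/
theorem exists_isom {n m : ℕ} (S : Submodule ℝ (E n)) (h : Module.finrank ℝ S ≤ m) :
    Nonempty (S →ₗᵢ[ℝ] E m) := by
  let b := stdOrthonormalBasis ℝ S
  let v : Fin (Module.finrank ℝ S) → E m := fun a => EuclideanSpace.basisFun (Fin m) ℝ (a.castLE h)
  have hv : Orthonormal ℝ v :=
    (EuclideanSpace.basisFun (Fin m) ℝ).orthonormal.comp _ (Fin.castLE_injective h)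
  refine ⟨(b.toBasis.constr ℝ v).isometryOfOrthonormal (v := b.toBasis) ?_ ?_⟩
  · rw [b.coe_toBasis]; exact b.orthonormal
  · have h1 : (⇑(b.toBasis.constr ℝ v) ∘ ⇑b.toBasis) = v := by
      funext a
      simp
    rw [h1]
    exact hv

theorem sum_center {n k : ℕ} [NeZero k] (w : Fin k → E n) :
    ∑ i, (w i - (k : ℝ)⁻¹ • ∑ j, w j) = 0 := by
  rw [sum_sub_distrib, sum_const, card_univ, Fintype.card_fin, ← Nat.cast_smul_eq_nsmul ℝ,
    smul_smul, mul_inv_cancel₀ (by exact_mod_cast NeZero.ne k), one_smul, sub_self]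

theorem sumsq_center {n k : ℕ} [NeZero k] (w : Fin k → E n) :
    ∑ i, ‖w i - (k : ℝ)⁻¹ • ∑ j, w j‖ ^ 2 ≤ ∑ i, ‖w i‖ ^ 2 := by
  set c := (k : ℝ)⁻¹ • ∑ j, w j with hc
  have h0 := sum_center w
  rw [← hc] at h0
  have h1 : ∑ i, ‖w i‖ ^ 2 = ∑ i, ‖w i - c‖ ^ 2 + k * ‖c‖ ^ 2 := by
    have h2 : ∀ i, ‖w i‖ ^ 2 = ‖w i - c‖ ^ 2 + 2 * ⟪w i - c, c⟫_ℝ + ‖c‖ ^ 2 := by
      intro i
      rw [← norm_add_sq_real, sub_add_cancel]
    simp_rw [h2]
    rw [sum_add_distrib, sum_add_distrib, ← mul_sum, ← sum_inner, h0, inner_zero_left, mul_zero,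
      add_zero, sum_const, card_univ, Fintype.card_fin, nsmul_eq_mul]
  have : 0 ≤ (k : ℝ) * ‖c‖ ^ 2 := by positivity
  linarith

end DimAux

open DimAux in
theorem bd_of_bd (n m k : ℕ) [NeZero k] (h : k ≤ m + 1) (C : ℝ) (hC : 0 ≤ C)
    (hb : Bd m (Fin k) C) : Bd n (Fin k) C := by
  intro w
  set v : Fin k → E n := fun i => w i - (k : ℝ)⁻¹ • ∑ j, w j with hv
  have hv0 : ∑ i, v i = 0 := sum_center w
  have hS : Module.finrank ℝ (Submodule.span ℝ (Set.range v)) ≤ m := by
    have h1 : ¬ LinearIndependent ℝ v := by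
      intro hli
      rw [Fintype.linearIndependent_iff] at hli
      have := hli (fun _ => 1) (by simpa using hv0) 0
      exact one_ne_zero this
    rw [linearIndependent_iff_card_le_finrank_span, Fintype.card_fin, not_le] at h1
    have h2 : (Set.range v).finrank ℝ = Module.finrank ℝ (Submodule.span ℝ (Set.range v)) := rfl
    rw [h2] at h1
    omega
  obtain ⟨L⟩ := exists_isom _ hS
  set vs : Fin k → Submodule.span ℝ (Set.range v) := fun i =>
    ⟨v i, Submodule.subset_span ⟨i, rfl⟩⟩ with hvs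
  set w' : Fin k → E m := fun i => L (vs i) with hw'
  have h1 : emax w = emax w' := by
    rw [← emax_sub w ((k : ℝ)⁻¹ • ∑ j, w j)]
    refine emax_congr v w' fun t => ?_
    have h2 : ∑ i, t i • w' i = L (∑ i, t i • vs i) := by
      rw [map_sum]
      simp only [hw', map_smul]
    have h3 : ((∑ i, t i • vs i : Submodule.span ℝ (Set.range v)) : E n) = ∑ i, t i • v i := by
      rw [Submodule.coe_sum]
      simp only [Submodule.coe_smul, hvs]
    rw [h2, L.norm_map, ← h3]
    rfl
  rw [h1]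
  refine (hb w').trans ?_
  have h3 : ∑ i, ‖w' i‖ ^ 2 = ∑ i, ‖v i‖ ^ 2 := by
    refine sum_congr rfl fun i _ => ?_
    rw [hw']
    simp only
    rw [L.norm_map]
    rfl
  rw [h3]
  exact mul_le_mul_of_nonneg_left (sumsq_center w) hC

end Vale.Agent.Propeller
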