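import Vale.Agent.Propeller.Gauss
import Vale.Agent.Propeller.Opt

/-!
# P226: first order condition (Gaussian measure of a facet of a cone)
-/

namespace Vale.Agent.Propeller

open MeasureTheory ProbabilityTheory Filter Topology

namespace FO

/-- density of the standard Gaussian on the line -/
noncomputable def ph (x : ℝ) : ℝ := (Real.sqrt (2 * Real.pi))⁻¹ * Real.exp (-x ^ 2 / 2)

lemma ph_pos (x : ℝ) : 0 < ph x := by unfold ph; positivity

lemma ph_le_one (x : ℝ) : ph x ≤ 1 := by
  unfold ph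
  have h1 : (Real.sqrt (2 * Real.pi))⁻¹ ≤ 1 := by
    apply inv_le_one_of_one_le₀
    rw [Real.one_le_sqrt]
    linarith [Real.pi_gt_three]
  have h2 : Real.exp (-x ^ 2 / 2) ≤ 1 := by
    rw [Real.exp_le_one_iff]
    nlinarith [sq_nonneg x]
  calc (Real.sqrt (2 * Real.pi))⁻¹ * Real.exp (-x ^ 2 / 2) ≤ 1 * 1 :=
        mul_le_mul h1 h2 (Real.exp_nonneg _) (by norm_num)
    _ = 1 := by norm_num

lemma continuous_ph : Continuous ph := by unfold ph; fun_prop

lemma integral_gauss (f : ℝ → ℝ) : ∫ x, f x ∂gaussianReal 0 1 = ∫ x, ph x * f x := by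
  rw [integral_gaussianReal_eq_integral_smul (by norm_num)]
  refine integral_congr_ae (Eventually.of_forall fun x => ?_)
  simp only [gaussianPDFReal, ph, smul_eq_mul, NNReal.coe_one, sub_zero, mul_one]

open Classical in
/-- indicator of a proposition -/
noncomputable def ind (p : Prop) : ℝ := if p then 1 else 0

lemma ind_true {p : Prop} (h : p) : ind p = 1 := if_pos h

lemma ind_false {p : Prop} (h : ¬ p) : ind p = 0 := if_neg h

lemma ind_and (p q : Prop) : ind (p ∧ q) = ind p * ind q := by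
  unfold ind
  by_cases hp : p <;> by_cases hq : q <;> simp [hp, hq]

lemma ind_nonneg (p : Prop) : 0 ≤ ind p := by unfold ind; split_ifs <;> norm_num

lemma ind_le_one (p : Prop) : ind p ≤ 1 := by unfold ind; split_ifs <;> norm_num

lemma measurable_ind {α : Type} [MeasurableSpace α] {p : α → Prop} (h : MeasurableSet {x | p x}) :
    Measurable fun x => ind (p x) := by
  unfold ind
  exact Measurable.ite h measurable_const measurable_const

lemma integrable_ind {α : Type} [MeasurableSpace α] (μ : Measure α) [IsFiniteMeasure μ]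
    {p : α → Prop} (h : MeasurableSet {x | p x}) : Integrable (fun x => ind (p x)) μ := by
  refine Integrable.of_bound (measurable_ind h).aestronglyMeasurable 1 (Eventually.of_forall ?_)
  intro x
  rw [Real.norm_eq_abs, abs_of_nonneg (ind_nonneg _)]
  exact ind_le_one _

/-- integral over a short interval -/
lemma short (α δ : ℝ) (hδ : 0 < δ) (g : ℝ → ℝ) :
    ∫ η, ind (α < η ∧ η < α + δ) * g η ∂gaussianReal 0 1 =
      δ * ∫ v in (0 : ℝ)..1, ph (δ * v + α) * g (δ * v + α) := by
  rw [integral_gauss]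
  have h1 : ∀ x, ph x * (ind (α < x ∧ x < α + δ) * g x) =
      (Set.Ioo α (α + δ)).indicator (fun x => ph x * g x) x := by
    intro x
    by_cases hx : α < x ∧ x < α + δ
    · rw [ind_true hx, Set.indicator_of_mem (show x ∈ Set.Ioo α (α + δ) from hx), one_mul]
    · rw [ind_false hx, Set.indicator_of_notMem (show x ∉ Set.Ioo α (α + δ) from hx), zero_mul,
        mul_zero]
  simp only [h1]
  rw [integral_indicator measurableSet_Ioo, ← integral_Ioc_eq_integral_Ioo,
    ← intervalIntegral.integral_of_le (by linarith),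
    intervalIntegral.integral_comp_mul_add (fun x => ph x * g x) hδ.ne' α]
  simp only [mul_zero, zero_add, mul_one, smul_eq_mul]
  rw [← mul_assoc, mul_inv_cancel₀ hδ.ne', one_mul, add_comm δ α]

lemma hasDerivAt_ph (x : ℝ) : HasDerivAt ph (-(x * ph x)) x := by
  unfold ph
  have h1 : HasDerivAt (fun x : ℝ => -x ^ 2 / 2) (-x) x := by
    have := ((hasDerivAt_pow 2 x).fun_neg.div_const 2)
    refine this.congr_deriv ?_
    norm_num
    ring
  have h2 := (h1.exp).const_mul ((Real.sqrt (2 * Real.pi))⁻¹)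
  refine h2.congr_deriv ?_
  ring

lemma tendsto_ph : Tendsto ph atTop (𝓝 0) := by
  unfold ph
  have h1 : Tendsto (fun x : ℝ => -x ^ 2 / 2) atTop atBot := by
    have h2 : Tendsto (fun x : ℝ => x ^ 2 / 2) atTop atTop :=
      (tendsto_pow_atTop (by norm_num)).atTop_div_const (by norm_num)
    refine (tendsto_neg_atTop_atBot.comp h2).congr fun x => ?_
    simp [neg_div]
  have h3 := (Real.tendsto_exp_atBot.comp h1).const_mul ((Real.sqrt (2 * Real.pi))⁻¹)
  simpa using h3

lemma integrable_mul_ph : Integrable (fun x : ℝ => x * ph x) := by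
  have h := integrable_mul_exp_neg_mul_sq (b := 1 / 2) (by norm_num)
  have h2 := h.const_mul ((Real.sqrt (2 * Real.pi))⁻¹)
  refine h2.congr (Eventually.of_forall fun x => ?_)
  simp only [ph]
  have : -x ^ 2 / 2 = -(1 / 2) * x ^ 2 := by ring
  rw [this]
  ring

/-- truncated first moment -/
lemma half_moment (α : ℝ) :
    ∫ η, ind (α < η) * η ∂gaussianReal 0 1 = ph α := by
  rw [integral_gauss]
  have h1 : ∀ x, ph x * (ind (α < x) * x) =
      (Set.Ioi α).indicator (fun x => x * ph x) x := by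
    intro x
    by_cases hx : α < x
    · rw [ind_true hx, Set.indicator_of_mem (show x ∈ Set.Ioi α from hx)]; ring
    · rw [ind_false hx, Set.indicator_of_notMem (show x ∉ Set.Ioi α from hx), zero_mul, mul_zero]
  simp only [h1]
  rw [integral_indicator measurableSet_Ioi]
  have h2 := integral_Ioi_of_hasDerivAt_of_tendsto (f := ph) (f' := fun x => -(x * ph x)) (a := α)
    (m := 0) continuous_ph.continuousWithinAt (fun x _ => hasDerivAt_ph x)
    (integrable_mul_ph.neg.integrableOn) tendsto_ph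
  rw [integral_neg] at h2
  linarith

/-- resampling formula for Bochner integrals -/
lemma integral_rs (n : ℕ) (e : E n) (he : ‖e‖ = 1) (f : E n → ℝ) (hf : Integrable f (gs n)) :
    ∫ x, f x ∂gs n = ∫ x, ∫ η, f (rs e x η) ∂gaussianReal 0 1 ∂gs n := by
  have hm := measurable_rs e
  have h1 : Integrable (fun z : E n × ℝ => f (rs e z.1 z.2)) ((gs n).prod (gaussianReal 0 1)) := by
    have h2 : Integrable f (((gs n).prod (gaussianReal 0 1)).map (fun z => rs e z.1 z.2)) := by
      rw [map_rs n e he]; exact hf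
    exact h2.comp_measurable hm
  conv_lhs => rw [← map_rs n e he]
  rw [integral_map hm.aemeasurable, integral_prod _ h1]
  rw [map_rs n e he]
  exact hf.aestronglyMeasurable

/-- limits of averages over short intervals -/
lemma avg_tendsto (G : ℝ → ℝ) (hG : Measurable G) (hb : ∀ x, |G x| ≤ 1) (α : ℝ)
    (hc : ContinuousWithinAt G (Set.Ici α) α) (δ : ℕ → ℝ) (hδ : ∀ m, 0 < δ m)
    (hδ0 : Tendsto δ atTop (𝓝 0)) :
    Tendsto (fun m => ∫ v in (0 : ℝ)..1, ph (δ m * v + α) * G (δ m * v + α)) atTop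
      (𝓝 (ph α * G α)) := by
  have h1 : (ph α * G α) = ∫ _v in (0 : ℝ)..1, ph α * G α := by simp
  rw [h1]
  apply intervalIntegral.tendsto_integral_filter_of_dominated_convergence (fun _ => 1)
  · refine Eventually.of_forall fun m => ?_
    apply Measurable.aestronglyMeasurable
    exact (continuous_ph.measurable.comp (by fun_prop)).mul (hG.comp (by fun_prop))
  · refine Eventually.of_forall fun m => Eventually.of_forall fun x _ => ?_
    rw [Real.norm_eq_abs, abs_mul, abs_of_pos (ph_pos _)]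
    calc ph (δ m * x + α) * |G (δ m * x + α)| ≤ 1 * 1 :=
          mul_le_mul (ph_le_one _) (hb _) (abs_nonneg _) (by norm_num)
      _ = 1 := by norm_num
  · exact intervalIntegrable_const
  · refine Eventually.of_forall fun x hx => ?_
    rw [Set.uIoc_of_le (by norm_num : (0 : ℝ) ≤ 1)] at hx
    have h2 : Tendsto (fun m => δ m * x + α) atTop (𝓝 α) := by
      have := (hδ0.mul_const x).add_const α
      simpa using this
    have h3 : Tendsto (fun m => δ m * x + α) atTop (𝓝[Set.Ici α] α) := by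
      rw [tendsto_nhdsWithin_iff]
      refine ⟨h2, Eventually.of_forall fun m => ?_⟩
      have := mul_pos (hδ m) hx.1
      simp only [Set.mem_Ici]
      linarith
    exact ((continuous_ph.tendsto α).comp h2).mul (hc.tendsto.comp h3)


variable {n : ℕ} {ι : Type} [Fintype ι]

lemma meas_pos (v : E n) : MeasurableSet {x : E n | 0 < inner ℝ v x} :=
  measurableSet_lt measurable_const (by fun_prop)

lemma meas_lt (v : E n) (h : ℝ) : MeasurableSet {x : E n | inner ℝ v x < h} :=
  measurableSet_lt (by fun_prop) measurable_const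

lemma meas_all (d : ι → E n) (l : ι) :
    MeasurableSet {x : E n | ∀ j, j ≠ l → 0 < inner ℝ (d j) x} := by
  have : {x : E n | ∀ j, j ≠ l → 0 < inner ℝ (d j) x} =
      ⋂ j, ⋂ (_ : j ≠ l), {x : E n | 0 < inner ℝ (d j) x} := by
    ext x; simp
  rw [this]
  exact MeasurableSet.iInter fun j => MeasurableSet.iInter fun _ => meas_pos _

lemma meas_layer (d : ι → E n) (l : ι) (h : ℝ) :
    MeasurableSet {x : E n | (0 < inner ℝ (d l) x ∧ inner ℝ (d l) x < h) ∧
      ∀ j, j ≠ l → 0 < inner ℝ (d j) x} :=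
  ((meas_pos _).inter (meas_lt _ _)).inter (meas_all d l)

/-- projection of `d j` to the hyperplane orthogonal to `d l` -/
noncomputable def pr (d : ι → E n) (l j : ι) : E n :=
  d j - (inner ℝ (d j) (d l) / ‖d l‖ ^ 2) • d l

/-- the mass of the thin layer, computed by resampling in direction `q` -/
lemma layer_a (d : ι → E n) (l : ι) (q : E n) (hql : inner ℝ (d l) q = 1)
    (hq : ∀ j, j ≠ l → inner ℝ (d j) q = 0) (h : ℝ) (hh : 0 < h) :
    ∫ x, ind ((0 < inner ℝ (d l) x ∧ inner ℝ (d l) x < h) ∧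
      ∀ j, j ≠ l → 0 < inner ℝ (d j) x) ∂gs n =
    h * ∫ x, (‖q‖ * (∫ v in (0 : ℝ)..1, ph ((‖q‖ * h) * v +
      -(‖q‖ * inner ℝ (d l) x - inner ℝ x q / ‖q‖)) * (1 : ℝ))) *
        ind (∀ j, j ≠ l → 0 < inner ℝ (d j) x) ∂gs n := by
  have hq0 : q ≠ 0 := by rintro rfl; simp at hql
  have hr : 0 < ‖q‖ := norm_pos_iff.2 hq0
  have he : ‖(‖q‖⁻¹ • q)‖ = 1 := by
    rw [norm_smul, norm_inv, norm_norm, inv_mul_cancel₀ hr.ne']
  rw [integral_rs n _ he _ (integrable_ind _ (meas_layer d l h)), ← integral_const_mul]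
  refine integral_congr_ae (Eventually.of_forall fun x => ?_)
  have h1 : ∀ j η, inner ℝ (d j) (rs (‖q‖⁻¹ • q) x η) =
      inner ℝ (d j) x - (inner ℝ x q / ‖q‖) * (‖q‖⁻¹ * inner ℝ (d j) q)
        + η * (‖q‖⁻¹ * inner ℝ (d j) q) := by
    intro j η
    unfold rs
    simp only [inner_add_right, inner_sub_right, inner_smul_right]
    ring
  have h2 : ∀ j η, j ≠ l → inner ℝ (d j) (rs (‖q‖⁻¹ • q) x η) = inner ℝ (d j) x := by
    intro j η hj
    rw [h1, hq j hj]
    ring
  have h3 : ∀ η, (0 < inner ℝ (d l) (rs (‖q‖⁻¹ • q) x η) ∧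
      inner ℝ (d l) (rs (‖q‖⁻¹ • q) x η) < h) ↔
      (-(‖q‖ * inner ℝ (d l) x - inner ℝ x q / ‖q‖) < η ∧
        η < -(‖q‖ * inner ℝ (d l) x - inner ℝ x q / ‖q‖) + ‖q‖ * h) := by
    intro η
    have e1 : inner ℝ (d l) (rs (‖q‖⁻¹ • q) x η) =
        ‖q‖⁻¹ * ((‖q‖ * inner ℝ (d l) x - inner ℝ x q / ‖q‖) + η) := by
      rw [h1, hql]
      field_simp
    rw [e1]
    constructor
    · rintro ⟨a, b⟩
      have a' := (mul_pos_iff_of_pos_left (inv_pos.2 hr)).1 a
      have b' : ‖q‖ * (‖q‖⁻¹ * ((‖q‖ * inner ℝ (d l) x - inner ℝ x q / ‖q‖) + η)) < ‖q‖ * h :=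
        mul_lt_mul_of_pos_left b hr
      rw [← mul_assoc, mul_inv_cancel₀ hr.ne', one_mul] at b'
      exact ⟨by linarith, by linarith⟩
    · rintro ⟨a, b⟩
      refine ⟨mul_pos (inv_pos.2 hr) (by linarith), ?_⟩
      have : h = ‖q‖⁻¹ * (‖q‖ * h) := by rw [← mul_assoc, inv_mul_cancel₀ hr.ne', one_mul]
      conv_rhs => rw [this]
      exact mul_lt_mul_of_pos_left (by linarith) (inv_pos.2 hr)
  have h4 : ∀ η, ind ((0 < inner ℝ (d l) (rs (‖q‖⁻¹ • q) x η) ∧
      inner ℝ (d l) (rs (‖q‖⁻¹ • q) x η) < h) ∧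
      ∀ j, j ≠ l → 0 < inner ℝ (d j) (rs (‖q‖⁻¹ • q) x η)) =
        (ind (-(‖q‖ * inner ℝ (d l) x - inner ℝ x q / ‖q‖) < η ∧
        η < -(‖q‖ * inner ℝ (d l) x - inner ℝ x q / ‖q‖) + ‖q‖ * h) * 1) *
          ind (∀ j, j ≠ l → 0 < inner ℝ (d j) x) := by
    intro η
    have e2 : (∀ j, j ≠ l → 0 < inner ℝ (d j) (rs (‖q‖⁻¹ • q) x η)) ↔
        ∀ j, j ≠ l → 0 < inner ℝ (d j) x := by
      refine forall_congr' fun j => forall_congr' fun hj => ?_
      rw [h2 j η hj]
    rw [ind_and, propext (h3 η), propext e2, mul_one]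
  simp only [h4]
  rw [integral_mul_const, short _ (‖q‖ * h) (mul_pos hr hh) (fun _ => 1)]
  ring

/-- the mass of the thin layer, computed by resampling in direction `d l` -/
lemma layer_b (d : ι → E n) (l : ι) (hdl : d l ≠ 0) (h : ℝ) (hh : 0 < h) :
    ∫ x, ind ((0 < inner ℝ (d l) x ∧ inner ℝ (d l) x < h) ∧
      ∀ j, j ≠ l → 0 < inner ℝ (d j) x) ∂gs n =
    h * ∫ x, (‖d l‖⁻¹ * ∫ v in (0 : ℝ)..1, ph ((h / ‖d l‖) * v + 0) *
      ind (∀ j, j ≠ l → 0 < inner ℝ (pr d l j) x +
        ((h / ‖d l‖) * v + 0) * (inner ℝ (d j) (d l) / ‖d l‖))) ∂gs n := by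
  have hc : 0 < ‖d l‖ := norm_pos_iff.2 hdl
  have he : ‖(‖d l‖⁻¹ • d l)‖ = 1 := by
    rw [norm_smul, norm_inv, norm_norm, inv_mul_cancel₀ hc.ne']
  rw [integral_rs n _ he _ (integrable_ind _ (meas_layer d l h)), ← integral_const_mul]
  refine integral_congr_ae (Eventually.of_forall fun x => ?_)
  have hns : inner ℝ (d l) (d l) = ‖d l‖ ^ 2 := real_inner_self_eq_norm_sq _
  have h1 : ∀ j η, inner ℝ (d j) (rs (‖d l‖⁻¹ • d l) x η) =
      inner ℝ (pr d l j) x + η * (inner ℝ (d j) (d l) / ‖d l‖) := by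
    intro j η
    unfold rs pr
    simp only [inner_add_right, inner_sub_right, inner_smul_right, inner_sub_left,
      inner_smul_left, conj_trivial]
    rw [real_inner_comm x (d l)]
    field_simp
    try ring
  have h2 : ∀ η, inner ℝ (d l) (rs (‖d l‖⁻¹ • d l) x η) = ‖d l‖ * η := by
    intro η
    have : pr d l l = 0 := by
      unfold pr
      rw [hns, div_self (by positivity), one_smul, sub_self]
    rw [h1, this, hns, inner_zero_left]
    field_simp
    try ring
  have h3 : ∀ η, (0 < inner ℝ (d l) (rs (‖d l‖⁻¹ • d l) x η) ∧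
      inner ℝ (d l) (rs (‖d l‖⁻¹ • d l) x η) < h) ↔ (0 < η ∧ η < 0 + h / ‖d l‖) := by
    intro η
    rw [h2, mul_pos_iff_of_pos_left hc, zero_add, lt_div_iff₀ hc, mul_comm η]
  have h4 : ∀ η, ind ((0 < inner ℝ (d l) (rs (‖d l‖⁻¹ • d l) x η) ∧
      inner ℝ (d l) (rs (‖d l‖⁻¹ • d l) x η) < h) ∧
      ∀ j, j ≠ l → 0 < inner ℝ (d j) (rs (‖d l‖⁻¹ • d l) x η)) =
      ind (0 < η ∧ η < 0 + h / ‖d l‖) *
        ind (∀ j, j ≠ l → 0 < inner ℝ (pr d l j) x + η * (inner ℝ (d j) (d l) / ‖d l‖)) := by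
    intro η
    rw [ind_and, propext (h3 η)]
    simp only [h1]
  simp only [h4]
  rw [short 0 (h / ‖d l‖) (div_pos hh hc) (fun η => ind (∀ j, j ≠ l →
    0 < inner ℝ (pr d l j) x + η * (inner ℝ (d j) (d l) / ‖d l‖)))]
  rw [div_eq_mul_inv]
  ring

/-- a.e. point avoids finitely many hyperplanes -/
lemma ae_ne (T : ι → E n) (l : ι) (hT : ∀ j, j ≠ l → T j ≠ 0) :
    ∀ᵐ x ∂gs n, ∀ j, j ≠ l → inner ℝ (T j) x ≠ 0 := by
  rw [ae_all_iff]
  intro j
  by_cases hj : j = l
  · exact Eventually.of_forall fun x h => absurd hj h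
  · have := Opt1.hyper_null (T j) (hT j hj)
    have h2 : ∀ᵐ x ∂gs n, inner ℝ (T j) x ≠ 0 := by
      rw [ae_iff]
      simpa using this
    filter_upwards [h2] with x hx _
    exact hx

/-- the first moment of a cone in a direction along a facet complement -/
lemma moment_q (d : ι → E n) (l : ι) (q : E n) (hql : inner ℝ (d l) q = 1)
    (hq : ∀ j, j ≠ l → inner ℝ (d j) q = 0) :
    ∫ x in {x : E n | ∀ j, 0 < inner ℝ (d j) x}, inner ℝ q x ∂gs n =
    ∫ x, (‖q‖ * ph (-(‖q‖ * inner ℝ (d l) x - inner ℝ x q / ‖q‖))) *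
        ind (∀ j, j ≠ l → 0 < inner ℝ (d j) x) ∂gs n := by
  have hq0 : q ≠ 0 := by rintro rfl; simp at hql
  have hr : 0 < ‖q‖ := norm_pos_iff.2 hq0
  have he : ‖(‖q‖⁻¹ • q)‖ = 1 := by
    rw [norm_smul, norm_inv, norm_norm, inv_mul_cancel₀ hr.ne']
  have hms : MeasurableSet {x : E n | ∀ j, 0 < inner ℝ (d j) x} := by
    have : {x : E n | ∀ j, 0 < inner ℝ (d j) x} = ⋂ j, {x : E n | 0 < inner ℝ (d j) x} := by
      ext x; simp
    rw [this]
    exact MeasurableSet.iInter fun j => meas_pos _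
  rw [← integral_indicator hms]
  have hint : Integrable ({x : E n | ∀ j, 0 < inner ℝ (d j) x}.indicator
      (fun x => inner ℝ q x)) (gs n) := (Opt1.int_inner q).indicator hms
  rw [integral_rs n _ he _ hint]
  refine integral_congr_ae (Eventually.of_forall fun x => ?_)
  have h1 : ∀ j η, inner ℝ (d j) (rs (‖q‖⁻¹ • q) x η) =
      inner ℝ (d j) x - (inner ℝ x q / ‖q‖) * (‖q‖⁻¹ * inner ℝ (d j) q)
        + η * (‖q‖⁻¹ * inner ℝ (d j) q) := by
    intro j η
    unfold rs
    simp only [inner_add_right, inner_sub_right, inner_smul_right]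
    ring
  have h2 : ∀ j η, j ≠ l → inner ℝ (d j) (rs (‖q‖⁻¹ • q) x η) = inner ℝ (d j) x := by
    intro j η hj
    rw [h1, hq j hj]
    ring
  have h3 : ∀ η, (0 < inner ℝ (d l) (rs (‖q‖⁻¹ • q) x η)) ↔
      (-(‖q‖ * inner ℝ (d l) x - inner ℝ x q / ‖q‖) < η) := by
    intro η
    have e1 : inner ℝ (d l) (rs (‖q‖⁻¹ • q) x η) =
        ‖q‖⁻¹ * ((‖q‖ * inner ℝ (d l) x - inner ℝ x q / ‖q‖) + η) := by
      rw [h1, hql]
      field_simp
    rw [e1, mul_pos_iff_of_pos_left (inv_pos.2 hr)]
    constructor <;> intro a <;> linarith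
  have h5 : ∀ η, inner ℝ q (rs (‖q‖⁻¹ • q) x η) = ‖q‖ * η := by
    intro η
    unfold rs
    simp only [inner_add_right, inner_sub_right, inner_smul_right]
    rw [real_inner_self_eq_norm_sq, real_inner_comm x q]
    field_simp
    try ring
  have h4 : ∀ η, {x : E n | ∀ j, 0 < inner ℝ (d j) x}.indicator (fun x => inner ℝ q x)
      (rs (‖q‖⁻¹ • q) x η) =
        (ind (-(‖q‖ * inner ℝ (d l) x - inner ℝ x q / ‖q‖) < η) * η) *
          (‖q‖ * ind (∀ j, j ≠ l → 0 < inner ℝ (d j) x)) := by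
    intro η
    have e2 : (∀ j, 0 < inner ℝ (d j) (rs (‖q‖⁻¹ • q) x η)) ↔
        ((-(‖q‖ * inner ℝ (d l) x - inner ℝ x q / ‖q‖) < η) ∧
        ∀ j, j ≠ l → 0 < inner ℝ (d j) x) := by
      constructor
      · intro hA
        refine ⟨(h3 η).1 (hA l), fun j hj => ?_⟩
        have := hA j
        rwa [h2 j η hj] at this
      · rintro ⟨hA, hB⟩ j
        by_cases hj : j = l
        · subst hj; exact (h3 η).2 hA
        · rw [h2 j η hj]; exact hB j hj
    by_cases hA : ∀ j, 0 < inner ℝ (d j) (rs (‖q‖⁻¹ • q) x η)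
    · rw [Set.indicator_of_mem (show rs (‖q‖⁻¹ • q) x η ∈ {x : E n | ∀ j, 0 < inner ℝ (d j) x} from hA),
        h5, ind_true (e2.1 hA).1, ind_true (e2.1 hA).2]
      ring
    · rw [Set.indicator_of_notMem
        (show rs (‖q‖⁻¹ • q) x η ∉ {x : E n | ∀ j, 0 < inner ℝ (d j) x} from hA)]
      by_cases hB : -(‖q‖ * inner ℝ (d l) x - inner ℝ x q / ‖q‖) < η
      · have hC : ¬ ∀ j, j ≠ l → 0 < inner ℝ (d j) x := fun hC => hA (e2.2 ⟨hB, hC⟩)
        rw [ind_false hC]; ring
      · rw [ind_false hB]; ring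
  simp only [h4]
  rw [integral_mul_const, half_moment]
  ring

/-- **First order condition**: the first moment of a cone in the direction dual to a facet is the
Gaussian measure of the facet. -/
theorem facet (d : ι → E n) (l : ι) (q : E n) (hql : inner ℝ (d l) q = 1)
    (hq : ∀ j, j ≠ l → inner ℝ (d j) q = 0) (hT : ∀ j, j ≠ l → pr d l j ≠ 0) :
    ∫ x in {x : E n | ∀ j, 0 < inner ℝ (d j) x}, inner ℝ q x ∂gs n =
      (Real.sqrt (2 * Real.pi))⁻¹ * ‖d l‖⁻¹ *
        (gs n).real {x : E n | ∀ j, j ≠ l → 0 < inner ℝ (pr d l j) x} := by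
  have hdl : d l ≠ 0 := by
    intro h
    rw [h, inner_zero_left] at hql
    norm_num at hql
  have hq0 : q ≠ 0 := by rintro rfl; simp at hql
  have hr : 0 < ‖q‖ := norm_pos_iff.2 hq0
  have hc : 0 < ‖d l‖ := norm_pos_iff.2 hdl
  rw [moment_q d l q hql hq]
  set h : ℕ → ℝ := fun m => 1 / ((m : ℝ) + 1) with hh
  have hpos : ∀ m, 0 < h m := fun m => by rw [hh]; positivity
  have h0 : Tendsto h atTop (𝓝 0) := tendsto_one_div_add_atTop_nhds_zero_nat
  have key : ∀ m, ∫ x, (‖q‖ * (∫ v in (0 : ℝ)..1, ph ((‖q‖ * h m) * v +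
      -(‖q‖ * inner ℝ (d l) x - inner ℝ x q / ‖q‖)) * (1 : ℝ))) *
        ind (∀ j, j ≠ l → 0 < inner ℝ (d j) x) ∂gs n =
      ∫ x, (‖d l‖⁻¹ * ∫ v in (0 : ℝ)..1, ph ((h m / ‖d l‖) * v + 0) *
      ind (∀ j, j ≠ l → 0 < inner ℝ (pr d l j) x +
        ((h m / ‖d l‖) * v + 0) * (inner ℝ (d j) (d l) / ‖d l‖))) ∂gs n := by
    intro m
    have e1 := layer_a d l q hql hq (h m) (hpos m)
    have e2 := layer_b d l hdl (h m) (hpos m)
    rw [e1] at e2
    exact mul_left_cancel₀ (hpos m).ne' e2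
  have lim1 : Tendsto (fun m => ∫ x, (‖q‖ * (∫ v in (0 : ℝ)..1, ph ((‖q‖ * h m) * v +
      -(‖q‖ * inner ℝ (d l) x - inner ℝ x q / ‖q‖)) * (1 : ℝ))) *
        ind (∀ j, j ≠ l → 0 < inner ℝ (d j) x) ∂gs n) atTop
      (𝓝 (∫ x, (‖q‖ * ph (-(‖q‖ * inner ℝ (d l) x - inner ℝ x q / ‖q‖))) *
        ind (∀ j, j ≠ l → 0 < inner ℝ (d j) x) ∂gs n)) := by
    apply tendsto_integral_of_dominated_convergence (fun _ => ‖q‖)
    · intro m
      apply Measurable.aestronglyMeasurable
      refine Measurable.mul (Measurable.const_mul ?_ _) (measurable_ind (meas_all d l))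
      simp only [mul_one]
      have : (fun x : E n => ∫ v in (0 : ℝ)..1, ph ((‖q‖ * h m) * v +
          -(‖q‖ * inner ℝ (d l) x - inner ℝ x q / ‖q‖))) =
          fun x : E n => ∫ v in Set.Ioc (0 : ℝ) 1, ph ((‖q‖ * h m) * v +
          -(‖q‖ * inner ℝ (d l) x - inner ℝ x q / ‖q‖)) := by
        funext x
        rw [intervalIntegral.integral_of_le (by norm_num)]
      rw [this]
      refine StronglyMeasurable.measurable ?_
      apply StronglyMeasurable.integral_prod_right
      refine (continuous_ph.comp ?_).stronglyMeasurable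
      fun_prop
    · exact integrable_const _
    · intro m
      refine Eventually.of_forall fun x => ?_
      rw [Real.norm_eq_abs, abs_mul, abs_mul, abs_of_pos hr, abs_of_nonneg (ind_nonneg _)]
      have h1 : |∫ v in (0 : ℝ)..1, ph ((‖q‖ * h m) * v +
          -(‖q‖ * inner ℝ (d l) x - inner ℝ x q / ‖q‖)) * (1 : ℝ)| ≤ 1 := by
        have := intervalIntegral.norm_integral_le_of_norm_le_const (a := 0) (b := 1) (C := 1)
          (f := fun v => ph ((‖q‖ * h m) * v +
          -(‖q‖ * inner ℝ (d l) x - inner ℝ x q / ‖q‖)) * (1 : ℝ)) (by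
            intro v _
            rw [mul_one, Real.norm_eq_abs, abs_of_pos (ph_pos _)]
            exact ph_le_one _)
        simpa using this
      calc _ ≤ ‖q‖ * 1 * 1 := mul_le_mul (mul_le_mul_of_nonneg_left h1 hr.le) (ind_le_one _)
            (ind_nonneg _) (by positivity)
        _ = ‖q‖ := by ring
    · refine Eventually.of_forall fun x => ?_
      apply Tendsto.mul_const
      apply Tendsto.const_mul
      have := avg_tendsto (fun _ => 1) measurable_const (by simp)
        (-(‖q‖ * inner ℝ (d l) x - inner ℝ x q / ‖q‖)) continuousWithinAt_const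
        (fun m => ‖q‖ * h m) (fun m => mul_pos hr (hpos m)) (by
          have := h0.const_mul ‖q‖
          simpa using this)
      simpa using this
  have lim2 : Tendsto (fun m => ∫ x, (‖d l‖⁻¹ * ∫ v in (0 : ℝ)..1, ph ((h m / ‖d l‖) * v + 0) *
      ind (∀ j, j ≠ l → 0 < inner ℝ (pr d l j) x +
        ((h m / ‖d l‖) * v + 0) * (inner ℝ (d j) (d l) / ‖d l‖))) ∂gs n) atTop
      (𝓝 (∫ x, (‖d l‖⁻¹ * (ph 0 * ind (∀ j, j ≠ l → 0 < inner ℝ (pr d l j) x))) ∂gs n)) := by
    have hmm : ∀ x : E n, MeasurableSet {η : ℝ | ∀ j, j ≠ l → 0 < inner ℝ (pr d l j) x +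
        η * (inner ℝ (d j) (d l) / ‖d l‖)} := by
      intro x
      have : {η : ℝ | ∀ j, j ≠ l → 0 < inner ℝ (pr d l j) x +
        η * (inner ℝ (d j) (d l) / ‖d l‖)} = ⋂ j, ⋂ (_ : j ≠ l), {η : ℝ |
          0 < inner ℝ (pr d l j) x + η * (inner ℝ (d j) (d l) / ‖d l‖)} := by
        ext η; simp
      rw [this]
      exact MeasurableSet.iInter fun j => MeasurableSet.iInter fun _ =>
        measurableSet_lt measurable_const (by fun_prop)
    have hmm2 : ∀ t : ℝ, MeasurableSet {z : E n × ℝ | ∀ j, j ≠ l → 0 < inner ℝ (pr d l j) z.1 +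
        (t * z.2 + 0) * (inner ℝ (d j) (d l) / ‖d l‖)} := by
      intro t
      have : {z : E n × ℝ | ∀ j, j ≠ l → 0 < inner ℝ (pr d l j) z.1 +
        (t * z.2 + 0) * (inner ℝ (d j) (d l) / ‖d l‖)} = ⋂ j, ⋂ (_ : j ≠ l), {z : E n × ℝ |
          0 < inner ℝ (pr d l j) z.1 + (t * z.2 + 0) * (inner ℝ (d j) (d l) / ‖d l‖)} := by
        ext η; simp
      rw [this]
      exact MeasurableSet.iInter fun j => MeasurableSet.iInter fun _ =>
        measurableSet_lt measurable_const (by fun_prop)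
    apply tendsto_integral_of_dominated_convergence (fun _ => ‖d l‖⁻¹)
    · intro m
      apply Measurable.aestronglyMeasurable
      refine Measurable.const_mul ?_ _
      have : (fun x : E n => ∫ v in (0 : ℝ)..1, ph ((h m / ‖d l‖) * v + 0) *
          ind (∀ j, j ≠ l → 0 < inner ℝ (pr d l j) x +
          ((h m / ‖d l‖) * v + 0) * (inner ℝ (d j) (d l) / ‖d l‖))) =
          fun x : E n => ∫ v in Set.Ioc (0 : ℝ) 1, ph ((h m / ‖d l‖) * v + 0) *
          ind (∀ j, j ≠ l → 0 < inner ℝ (pr d l j) x +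
          ((h m / ‖d l‖) * v + 0) * (inner ℝ (d j) (d l) / ‖d l‖)) := by
        funext x
        rw [intervalIntegral.integral_of_le (by norm_num)]
      rw [this]
      refine StronglyMeasurable.measurable ?_
      apply StronglyMeasurable.integral_prod_right
      refine Measurable.stronglyMeasurable ?_
      refine Measurable.mul (continuous_ph.measurable.comp (by fun_prop)) ?_
      exact measurable_ind (hmm2 _)
    · exact integrable_const _
    · intro m
      refine Eventually.of_forall fun x => ?_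
      rw [Real.norm_eq_abs, abs_mul, abs_of_pos (inv_pos.2 hc)]
      have h1 : |∫ v in (0 : ℝ)..1, ph ((h m / ‖d l‖) * v + 0) *
          ind (∀ j, j ≠ l → 0 < inner ℝ (pr d l j) x +
          ((h m / ‖d l‖) * v + 0) * (inner ℝ (d j) (d l) / ‖d l‖))| ≤ 1 := by
        have := intervalIntegral.norm_integral_le_of_norm_le_const (a := 0) (b := 1) (C := 1)
          (f := fun v => ph ((h m / ‖d l‖) * v + 0) *
          ind (∀ j, j ≠ l → 0 < inner ℝ (pr d l j) x +
          ((h m / ‖d l‖) * v + 0) * (inner ℝ (d j) (d l) / ‖d l‖))) (by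
            intro v _
            rw [Real.norm_eq_abs, abs_mul, abs_of_pos (ph_pos _), abs_of_nonneg (ind_nonneg _)]
            calc _ ≤ (1 : ℝ) * 1 := mul_le_mul (ph_le_one _) (ind_le_one _) (ind_nonneg _) (by norm_num)
              _ = 1 := by norm_num)
        simpa using this
      calc _ ≤ ‖d l‖⁻¹ * 1 := by gcongr
        _ = ‖d l‖⁻¹ := by ring
    · filter_upwards [ae_ne (pr d l) l hT] with x hx
      apply Tendsto.const_mul
      have hcw : ContinuousWithinAt (fun η : ℝ => ind (∀ j, j ≠ l → 0 < inner ℝ (pr d l j) x +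
          η * (inner ℝ (d j) (d l) / ‖d l‖))) (Set.Ici 0) 0 := by
        apply ContinuousAt.continuousWithinAt
        have hev : ∀ᶠ η : ℝ in 𝓝 0, ∀ j, j ≠ l → (0 < inner ℝ (pr d l j) x +
            η * (inner ℝ (d j) (d l) / ‖d l‖) ↔ 0 < inner ℝ (pr d l j) x) := by
          rw [eventually_all]
          intro j
          by_cases hj : j = l
          · exact Eventually.of_forall fun η h => absurd hj h
          · have hcont : ContinuousAt (fun η : ℝ => inner ℝ (pr d l j) x +
                η * (inner ℝ (d j) (d l) / ‖d l‖)) 0 := by fun_prop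
            rcases lt_or_gt_of_ne (hx j hj) with hneg | hpos'
            · have := hcont.eventually_lt_const (u := 0) (by simpa using hneg)
              filter_upwards [this] with η hη _
              constructor
              · intro h; exact absurd h (not_lt.2 hη.le)
              · intro h; exact absurd h (not_lt.2 hneg.le)
            · have := hcont.eventually_const_lt (u := 0) (by simpa using hpos')
              filter_upwards [this] with η hη _
              exact ⟨fun _ => hpos', fun _ => hη⟩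
        have hev2 : (fun η : ℝ => ind (∀ j, j ≠ l → 0 < inner ℝ (pr d l j) x +
            η * (inner ℝ (d j) (d l) / ‖d l‖))) =ᶠ[𝓝 0]
            fun _ => ind (∀ j, j ≠ l → 0 < inner ℝ (pr d l j) x) := by
          filter_upwards [hev] with η hη
          congr 1
          exact propext (forall_congr' fun j => forall_congr' fun hj => hη j hj)
        exact continuousAt_const.congr hev2.symm
      have := avg_tendsto (fun η : ℝ => ind (∀ j, j ≠ l → 0 < inner ℝ (pr d l j) x +
          η * (inner ℝ (d j) (d l) / ‖d l‖))) (measurable_ind (hmm x)) (by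
            intro η
            rw [abs_of_nonneg (ind_nonneg _)]
            exact ind_le_one _) 0 hcw
        (fun m => h m / ‖d l‖) (fun m => div_pos (hpos m) hc) (by
          have := h0.div_const ‖d l‖
          simpa using this)
      simpa using this
  have huniq := tendsto_nhds_unique lim1 (lim2.congr fun m => (key m).symm)
  rw [huniq]
  have hms := meas_all (pr d l) l
  have e3 : ∀ x : E n, ‖d l‖⁻¹ * (ph 0 * ind (∀ j, j ≠ l → 0 < inner ℝ (pr d l j) x)) =
      ((Real.sqrt (2 * Real.pi))⁻¹ * ‖d l‖⁻¹) *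
        ({x : E n | ∀ j, j ≠ l → 0 < inner ℝ (pr d l j) x}.indicator (fun _ => (1 : ℝ)) x) := by
    intro x
    have e4 : ph 0 = (Real.sqrt (2 * Real.pi))⁻¹ := by simp [ph]
    rw [e4]
    by_cases hA : ∀ j, j ≠ l → 0 < inner ℝ (pr d l j) x
    · rw [ind_true hA, Set.indicator_of_mem
        (show x ∈ {x : E n | ∀ j, j ≠ l → 0 < inner ℝ (pr d l j) x} from hA)]
      ring
    · rw [ind_false hA, Set.indicator_of_notMem
        (show x ∉ {x : E n | ∀ j, j ≠ l → 0 < inner ℝ (pr d l j) x} from hA)]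
      ring
  simp only [e3]
  rw [integral_const_mul, integral_indicator hms]
  simp

end FO

end Vale.Agent.Propeller
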