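import Vale.Agent.Propeller.Defs

/-!
# P226: the objects of the problem (partitions of Gaussian space)
-/

namespace Vale.Agent.Propeller

open MeasureTheory ProbabilityTheory

/-- the (unnormalised) Gaussian first moment `z(A) = ∫_A x dγ_d(x)` -/
noncomputable def moment {d : ℕ} (A : Set (E d)) : E d := ∫ x in A, x ∂gs d

/-- `A` is a measurable partition of `ℝᵈ` into `k` (possibly empty) cells -/
structure IsPartition {d k : ℕ} (A : Fin k → Set (E d)) : Prop where
  meas : ∀ i, MeasurableSet (A i)
  disj : ∀ i j, i ≠ j → Disjoint (A i) (A j)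
  cover : ∀ x, ∃ i, x ∈ A i

/-- `F(A) = Σ |z(A_i)|²` -/
noncomputable def propF {d k : ℕ} (A : Fin k → Set (E d)) : ℝ := ∑ i, ‖moment (A i)‖ ^ 2

/-- `M(d,k)`: the supremum of `F` over all measurable partitions of `ℝᵈ` into `k` cells -/
noncomputable def propM (d k : ℕ) : ℝ :=
  sSup {t : ℝ | ∃ A : Fin k → Set (E d), IsPartition A ∧ t = propF A}

end Vale.Agent.Propeller
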