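import Vale.Agent.Propeller.FinDefs
import Vale.Agent.Propeller.Opt

/-!
# P226, part FIN: partitions of `ℝᵈ` versus `Bd`
-/

namespace Vale.Agent.Propeller

open MeasureTheory ProbabilityTheory Finset

namespace FinP

open Opt1 Opt2

variable {d k : ℕ}

lemma inner_moment (A : Set (E d)) (v : E d) :
    inner ℝ v (moment A) = ∫ x in A, inner ℝ v x ∂gs d := by
  unfold moment
  rw [← integral_inner]
  exact (IsGaussian.integrable_id (μ := gs d)).integrableOn

lemma sum_part {A : Fin k → Set (E d)} (hA : IsPartition A) (f : E d → ℝ)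
    (hf : Integrable f (gs d)) : ∑ i, ∫ x in A i, f x ∂gs d = ∫ x, f x ∂gs d := by
  have hcov : (⋃ i, A i) = Set.univ := by
    ext x; simpa using hA.cover x
  rw [← integral_iUnion_fintype hA.meas (fun i j hij => hA.disj i j hij)
    (fun i => hf.integrableOn), hcov, setIntegral_univ]

/-- a bound for the expected maxima bounds `F` -/
theorem propF_le_of_bd [NeZero k] {C : ℝ} (hC0 : 0 ≤ C) (hb : Bd d (Fin k) C)
    {A : Fin k → Set (E d)} (hA : IsPartition A) : propF A ≤ C := by
  set z : Fin k → E d := fun i => moment (A i) with hz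
  have h2 : ∑ i, ‖z i‖ ^ 2 ≤ emax z := by
    unfold emax
    rw [← sum_part hA (hmax z) (int_hmax z)]
    refine Finset.sum_le_sum fun i _ => ?_
    rw [← real_inner_self_eq_norm_sq]
    calc inner ℝ (z i) (z i) = ∫ x in A i, inner ℝ (z i) x ∂gs d := inner_moment (A i) (z i)
      _ ≤ _ := setIntegral_mono (int_inner _).integrableOn (int_hmax z).integrableOn
            (fun x => le_hmax z i x)
  have h3 := hb z
  have h4 : 0 ≤ ∑ i, ‖z i‖ ^ 2 := Finset.sum_nonneg fun i _ => sq_nonneg _
  show ∑ i, ‖z i‖ ^ 2 ≤ C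
  rcases h4.eq_or_lt with h | h
  · rw [← h]; exact hC0
  · have : (∑ i, ‖z i‖ ^ 2) ^ 2 ≤ emax z ^ 2 := by nlinarith
    by_contra hC
    push Not at hC
    nlinarith

/-- a bound for `F` bounds the expected maxima -/
theorem bd_of_propF_le [NeZero k] {C : ℝ}
    (h : ∀ A : Fin k → Set (E d), IsPartition A → propF A ≤ C) : Bd d (Fin k) C := by
  intro w
  set A : Fin k → Set (E d) := fun i => {x | (∀ j, inner ℝ (w j) x ≤ inner ℝ (w i) x) ∧
    ∀ j, j < i → inner ℝ (w j) x < inner ℝ (w i) x} with hA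
  have hpart : IsPartition A := by
    refine ⟨fun i => ?_, fun i j hij => ?_, fun x => ?_⟩
    · have : A i = (⋂ j, {x | inner ℝ (w j) x ≤ inner ℝ (w i) x}) ∩
          ⋂ j, ⋂ (_ : j < i), {x | inner ℝ (w j) x < inner ℝ (w i) x} := by
        ext x; simp [hA]
      rw [this]
      refine MeasurableSet.inter (MeasurableSet.iInter fun j =>
        measurableSet_le (by fun_prop) (by fun_prop)) ?_
      exact MeasurableSet.iInter fun j => MeasurableSet.iInter fun _ =>
        measurableSet_lt (by fun_prop) (by fun_prop)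
    · rw [Set.disjoint_left]
      intro x hi hj
      rcases lt_or_gt_of_ne hij with h | h
      · exact absurd (hi.1 j) (not_le.mpr (hj.2 i h))
      · exact absurd (hj.1 i) (not_le.mpr (hi.2 j h))
    · obtain ⟨i0, hi0⟩ := exists_hmax w x
      classical
      set T : Finset (Fin k) := univ.filter fun i => ∀ j, inner ℝ (w j) x ≤ inner ℝ (w i) x
      have hT : T.Nonempty := ⟨i0, by
        simp only [T, mem_filter, mem_univ, true_and]
        intro j; rw [← hi0]; exact le_hmax w j x⟩
      have hmem := T.min'_mem hT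
      refine ⟨T.min' hT, ?_, ?_⟩
      · exact (mem_filter.mp hmem).2
      · intro j hj
        by_contra hcon
        push Not at hcon
        have : j ∈ T := by
          simp only [T, mem_filter, mem_univ, true_and]
          intro l
          exact ((mem_filter.mp hmem).2 l).trans hcon
        exact absurd (T.min'_le j this) (not_le.mpr hj)
  have h1 := h A hpart
  have h2 : emax w = ∑ i, inner ℝ (w i) (moment (A i)) := by
    unfold emax
    rw [← sum_part hpart (hmax w) (int_hmax w)]
    refine Finset.sum_congr rfl fun i _ => ?_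
    rw [inner_moment]
    refine setIntegral_congr_fun (hpart.meas i) fun x hx => ?_
    exact le_antisymm (hmax_le w x _ hx.1) (le_hmax w i x)
  have h3 : emax w ≤ ∑ i, ‖w i‖ * ‖moment (A i)‖ := by
    rw [h2]; exact Finset.sum_le_sum fun i _ => real_inner_le_norm _ _
  have h4 : (∑ i, ‖w i‖ * ‖moment (A i)‖) ^ 2 ≤ (∑ i, ‖w i‖ ^ 2) * ∑ i, ‖moment (A i)‖ ^ 2 :=
    Finset.sum_mul_sq_le_sq_mul_sq _ _ _
  have h5 := emax_nonneg w
  have h6 : emax w ^ 2 ≤ (∑ i, ‖w i‖ * ‖moment (A i)‖) ^ 2 := by
    have : 0 ≤ ∑ i, ‖w i‖ * ‖moment (A i)‖ := h5.trans h3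
    nlinarith
  calc emax w ^ 2 ≤ (∑ i, ‖w i‖ ^ 2) * ∑ i, ‖moment (A i)‖ ^ 2 := h6.trans h4
    _ ≤ (∑ i, ‖w i‖ ^ 2) * C :=
        mul_le_mul_of_nonneg_left h1 (Finset.sum_nonneg fun i _ => sq_nonneg _)
    _ = _ := by ring

/-! ### crude bound -/

lemma norm_moment_le (A : Set (E d)) : ‖moment A‖ ≤ ∫ x, ‖x‖ ∂gs d := by
  unfold moment
  refine (norm_integral_le_integral_norm _).trans ?_
  exact setIntegral_le_integral (int_norm d) (Filter.Eventually.of_forall fun x => norm_nonneg x)

lemma propF_nonneg (A : Fin k → Set (E d)) : 0 ≤ propF A :=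
  Finset.sum_nonneg fun i _ => sq_nonneg _

lemma bddAbove_propF (d k : ℕ) :
    BddAbove {t : ℝ | ∃ A : Fin k → Set (E d), IsPartition A ∧ t = propF A} := by
  refine ⟨∑ _ : Fin k, (∫ x, ‖x‖ ∂gs d) ^ 2, ?_⟩
  rintro t ⟨A, _, rfl⟩
  exact Finset.sum_le_sum fun i _ => by
    have := norm_moment_le (A i)
    have h2 := norm_nonneg (moment (A i))
    nlinarith

lemma propF_le_propM {A : Fin k → Set (E d)} (hA : IsPartition A) : propF A ≤ propM d k :=
  le_csSup (bddAbove_propF d k) ⟨A, hA, rfl⟩

lemma propM_nonneg (d k : ℕ) : 0 ≤ propM d k := by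
  apply Real.sSup_nonneg
  rintro t ⟨A, _, rfl⟩
  exact propF_nonneg A

lemma propM_le {C : ℝ} (hC : 0 ≤ C)
    (h : ∀ A : Fin k → Set (E d), IsPartition A → propF A ≤ C) : propM d k ≤ C := by
  unfold propM
  rcases Set.eq_empty_or_nonempty {t : ℝ | ∃ A : Fin k → Set (E d), IsPartition A ∧ t = propF A}
    with he | he
  · rw [he, Real.sSup_empty]; exact hC
  · apply csSup_le he
    rintro t ⟨A, hA, rfl⟩
    exact h A hA

lemma bd_propM (d k : ℕ) [NeZero k] : Bd d (Fin k) (propM d k) :=
  bd_of_propF_le fun _ hA => propF_le_propM hA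

lemma propM_le_iff [NeZero k] {C : ℝ} (hC : 0 ≤ C) : propM d k ≤ C ↔ Bd d (Fin k) C := by
  constructor
  · intro h
    exact bd_of_propF_le fun _ hA => (propF_le_propM hA).trans h
  · intro h
    exact propM_le hC fun _ hA => propF_le_of_bd hC h hA

/-- monotonicity in `k` -/
lemma propM_mono {k l : ℕ} (h : k ≤ l) : propM d k ≤ propM d l := by
  refine propM_le (propM_nonneg d l) fun A hA => ?_
  set B : Fin l → Set (E d) := fun i => if hi : (i : ℕ) < k then A ⟨i, hi⟩ else ∅ with hB
  have hBp : IsPartition B := by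
    refine ⟨fun i => ?_, fun i j hij => ?_, fun x => ?_⟩
    · by_cases hi : (i : ℕ) < k
      · simp only [hB, hi, dif_pos]; exact hA.meas _
      · simp only [hB, hi, dif_neg, not_false_eq_true]; exact MeasurableSet.empty
    · by_cases hi : (i : ℕ) < k
      · by_cases hj : (j : ℕ) < k
        · simp only [hB, hi, hj, dif_pos]
          refine hA.disj _ _ ?_
          intro heq
          apply hij
          exact Fin.ext (by simpa using heq)
        · simp only [hB, hj, dif_neg, not_false_eq_true]; exact Set.disjoint_empty _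
      · simp only [hB, hi, dif_neg, not_false_eq_true]; exact Set.empty_disjoint _
    · obtain ⟨i, hi⟩ := hA.cover x
      exact ⟨⟨i, i.2.trans_le h⟩, by simp only [hB, i.2, dif_pos]; exact hi⟩
  have : propF A = propF B := by
    unfold propF
    have hinj : Function.Injective (Fin.castLE h) := Fin.castLE_injective h
    rw [← Finset.sum_subset (Finset.subset_univ ((univ : Finset (Fin k)).map ⟨Fin.castLE h, hinj⟩))]
    · rw [Finset.sum_map]
      refine Finset.sum_congr rfl fun i _ => ?_
      simp [hB]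
    · intro i _ hi
      have hik : ¬ (i : ℕ) < k := by
        intro hlt
        apply hi
        simp only [mem_map, mem_univ, true_and, Function.Embedding.coeFn_mk]
        exact ⟨⟨i, hlt⟩, rfl⟩
      simp [hB, hik, moment]
  rw [this]
  exact propF_le_propM hBp

/-! ### the propeller lower bound -/

lemma integral_abs_gaussian : ∫ x, |x| ∂gaussianReal 0 1 = Real.sqrt (2 / Real.pi) := by
  rw [integral_gaussianReal_eq_integral_smul one_ne_zero]
  have h1 : (fun x : ℝ => gaussianPDFReal 0 1 x • |x|) =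
      fun x : ℝ => (fun y : ℝ => (Real.sqrt (2 * Real.pi))⁻¹ * (y ^ (1 : ℝ)
        * Real.exp (-(1 / 2) * y ^ (2 : ℝ)))) |x| := by
    funext x
    simp only [gaussianPDFReal, smul_eq_mul, sub_zero, NNReal.coe_one, mul_one, Real.rpow_one,
      Real.rpow_ofNat, sq_abs]
    rw [show -x ^ 2 / 2 = -(1 / 2) * x ^ 2 by ring]
    ring
  rw [h1, integral_comp_abs (f := fun y : ℝ => (Real.sqrt (2 * Real.pi))⁻¹ * (y ^ (1 : ℝ)
        * Real.exp (-(1 / 2) * y ^ (2 : ℝ)))), integral_const_mul,
    integral_rpow_mul_exp_neg_mul_rpow (by norm_num) (by norm_num) (by norm_num)]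
  norm_num
  have h2 : Real.sqrt 2 ≠ 0 := by positivity
  have h3 : Real.sqrt Real.pi ≠ 0 := by positivity
  have h4 : Real.sqrt 2 * Real.sqrt 2 = 2 := Real.mul_self_sqrt (by norm_num)
  rw [div_eq_mul_inv, ← h4]
  rw [Real.sqrt_mul_self (by positivity)]
  field_simp

lemma integral_abs_inner (v : E d) :
    ∫ x, |inner ℝ v x| ∂gs d = ‖v‖ * Real.sqrt (2 / Real.pi) := by
  have h1 : (gs d).map (innerSL ℝ v) = (gaussianReal 0 1).map (fun x => ‖v‖ * x) := by
    rw [IsGaussian.map_eq_gaussianReal (innerSL ℝ v), variance_dual_stdGaussian,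
      integral_strongDual_stdGaussian, gaussianReal_map_const_mul]
    congr 1
    · simp
    · have : ‖innerSL ℝ v‖ = ‖v‖ := innerSL_apply_norm ℝ v
      rw [this]
      ext
      simp
  have h2 : ∫ x, |inner ℝ v x| ∂gs d = ∫ y, |y| ∂((gs d).map (innerSL ℝ v)) := by
    rw [integral_map (by fun_prop) (by fun_prop)]
    rfl
  rw [h2, h1, integral_map (by fun_prop) (by fun_prop)]
  simp only [abs_mul, abs_norm]
  rw [integral_const_mul, integral_abs_gaussian]

lemma emax_neg {ι : Type} [Fintype ι] [Nonempty ι] (w : ι → E d) :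
    ∫ x, hmax w (-x) ∂gs d = emax w := by
  have h : (gs d).map (LinearIsometryEquiv.neg ℝ (E := E d)) = gs d := stdGaussian_map _
  unfold emax
  conv_rhs => rw [← h]
  rw [integral_map (by fun_prop) (continuous_hmax w).aestronglyMeasurable]
  rfl

/-- the propeller (in the form of four vectors of `ℝ³`) shows `C ≥ 9/(8π)` -/
theorem propeller_le {C : ℝ} (hb : Bd 3 (Fin 4) C) : 9 / (8 * Real.pi) ≤ C := by
  set e : Fin 3 → E 3 := fun i => EuclideanSpace.single i 1 with he
  set m : E 3 := (3 : ℝ)⁻¹ • (e 0 + e 1 + e 2) with hm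
  set w : Fin 4 → E 3 := ![e 0 - m, e 1 - m, e 2 - m, 0] with hw
  have hn : ∀ i j, inner ℝ (e i) (e j) = if i = j then (1 : ℝ) else 0 := by
    intro i j
    by_cases h : i = j
    · simp [he, EuclideanSpace.inner_single_left, h]
    · simp [he, EuclideanSpace.inner_single_left, h]
  have hnorm : ∀ i j : Fin 3, i ≠ j → ‖e i - e j‖ = Real.sqrt 2 := by
    intro i j hij
    rw [eq_comm, Real.sqrt_eq_iff_mul_self_eq_of_pos]
    · rw [← pow_two, ← real_inner_self_eq_norm_sq, inner_sub_left, inner_sub_right, inner_sub_right,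
        hn, hn, hn, hn]
      simp [hij, hij.symm]
      norm_num
    · have : e i - e j ≠ 0 := by
        intro h
        have h2 : inner ℝ (e i) (e i - e j) = 0 := by rw [h, inner_zero_right]
        rw [inner_sub_right, hn, hn] at h2
        simp [hij] at h2
      positivity
  have hsum : ∑ i, ‖w i‖ ^ 2 = 2 := by
    have h1 : ∀ i : Fin 3, ‖e i - m‖ ^ 2 = 2 / 3 := by
      intro i
      rw [← real_inner_self_eq_norm_sq, hm]
      simp only [inner_sub_left, inner_sub_right, inner_add_left, inner_add_right,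
        real_inner_smul_left, real_inner_smul_right, hn]
      fin_cases i <;> simp <;> norm_num
    rw [Fin.sum_univ_four]
    simp only [hw, Matrix.cons_val_zero, Matrix.cons_val_one, Matrix.cons_val, h1, norm_zero]
    norm_num
  have hlow : 3 / 2 * (Real.sqrt 2 * Real.sqrt (2 / Real.pi)) ≤ 2 * emax w := by
    have h1 : 2 * emax w = ∫ x, (hmax w x + hmax w (-x)) ∂gs 3 := by
      rw [integral_add (int_hmax w), emax_neg]
      · unfold emax; ring
      · have h : (gs 3).map (LinearIsometryEquiv.neg ℝ (E := E 3)) = gs 3 := stdGaussian_map _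
        have h2 := int_hmax w
        rw [← h] at h2
        exact (integrable_map_measure (continuous_hmax w).aestronglyMeasurable
          (by fun_prop)).mp h2
    have h2 : ∫ x, (1 / 2 * (|inner ℝ (e 0 - e 1) x| + |inner ℝ (e 1 - e 2) x|
        + |inner ℝ (e 0 - e 2) x|)) ∂gs 3 = 3 / 2 * (Real.sqrt 2 * Real.sqrt (2 / Real.pi)) := by
      rw [integral_const_mul, integral_add, integral_add]
      · rw [integral_abs_inner, integral_abs_inner, integral_abs_inner, hnorm 0 1 (by decide),
          hnorm 1 2 (by decide), hnorm 0 2 (by decide)]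
        ring
      · exact (int_inner _).abs
      · exact (int_inner _).abs
      · exact ((int_inner _).abs).add (int_inner _).abs
      · exact (int_inner _).abs
    rw [h1, ← h2]
    refine integral_mono ?_ ?_ fun x => ?_
    · exact ((((int_inner _).abs).add (int_inner _).abs).add (int_inner _).abs).const_mul _
    · refine (int_hmax w).add ?_
      have h : (gs 3).map (LinearIsometryEquiv.neg ℝ (E := E 3)) = gs 3 := stdGaussian_map _
      have h2 := int_hmax w
      rw [← h] at h2
      exact (integrable_map_measure (continuous_hmax w).aestronglyMeasurable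
        (by fun_prop)).mp h2
    · have a0 : inner ℝ (e 0 - m) x ≤ hmax w x := le_hmax w 0 x
      have a1 : inner ℝ (e 1 - m) x ≤ hmax w x := le_hmax w 1 x
      have a2 : inner ℝ (e 2 - m) x ≤ hmax w x := le_hmax w 2 x
      have b0 : inner ℝ (e 0 - m) (-x) ≤ hmax w (-x) := le_hmax w 0 (-x)
      have b1 : inner ℝ (e 1 - m) (-x) ≤ hmax w (-x) := le_hmax w 1 (-x)
      have b2 : inner ℝ (e 2 - m) (-x) ≤ hmax w (-x) := le_hmax w 2 (-x)
      simp only [inner_sub_left, inner_neg_right] at a0 a1 a2 b0 b1 b2 ⊢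
      rcases abs_cases (inner ℝ (e 0) x - inner ℝ (e 1) x) with h | h <;>
      rcases abs_cases (inner ℝ (e 1) x - inner ℝ (e 2) x) with h' | h' <;>
      rcases abs_cases (inner ℝ (e 0) x - inner ℝ (e 2) x) with h'' | h'' <;>
      linarith
  have h3 := hb w
  rw [hsum] at h3
  have hpi : 0 < Real.pi := Real.pi_pos
  have h4 : Real.sqrt 2 * Real.sqrt (2 / Real.pi) = 2 / Real.sqrt Real.pi := by
    rw [Real.sqrt_div (by norm_num), ← mul_div_assoc, Real.mul_self_sqrt (by norm_num)]
  rw [h4] at hlow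
  have h5 : (3 / 2 * (1 / Real.sqrt Real.pi)) ^ 2 ≤ emax w ^ 2 := by
    have : 0 ≤ 3 / 2 * (1 / Real.sqrt Real.pi) := by positivity
    have h6 : 3 / 2 * (1 / Real.sqrt Real.pi) ≤ emax w := by
      have : 3 / 2 * (2 / Real.sqrt Real.pi) = 2 * (3 / 2 * (1 / Real.sqrt Real.pi)) := by ring
      linarith
    nlinarith
  have h7 : (3 / 2 * (1 / Real.sqrt Real.pi)) ^ 2 = 9 / (4 * Real.pi) := by
    rw [mul_pow, div_pow, div_pow, Real.sq_sqrt hpi.le]
    field_simp
    norm_num
  rw [h7] at h5
  have h8 : 9 / (4 * Real.pi) = 2 * (9 / (8 * Real.pi)) := by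
    field_simp; norm_num
  linarith

/-- final assembly from the `step` and the dimension reduction -/
theorem final_of
    (hstep : ∀ (k : ℕ) [NeZero k] [NeZero (k - 1)] (_ : 5 ≤ k) (C : ℝ)
      (_ : 9 / (8 * Real.pi) ≤ C) (_ : ∀ n, Bd n (Fin (k - 1)) C) (n : ℕ), Bd n (Fin k) C)
    (hdim : ∀ (n m k : ℕ) [NeZero k] (_ : k ≤ m + 1) (C : ℝ) (_ : 0 ≤ C)
      (_ : Bd m (Fin k) C), Bd n (Fin k) C) (d k : ℕ) : propM d k ≤ propM 3 4 := by
  set C := propM 3 4 with hC
  have hC0 : 0 ≤ C := propM_nonneg 3 4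
  have hC9 : 9 / (8 * Real.pi) ≤ C := propeller_le (bd_propM 3 4)
  have h4 : ∀ n, Bd n (Fin 4) C := fun n => hdim n 3 4 (by norm_num) C hC0 (bd_propM 3 4)
  have hall : ∀ j n, Bd n (Fin (j + 4)) C := by
    intro j
    induction j with
    | zero => exact h4
    | succ j ih =>
      intro n
      have : NeZero (j + 1 + 4 - 1) := ⟨by omega⟩
      exact hstep (j + 1 + 4) (by omega) C hC9 (fun n => ih n) n
  have h1 : propM d k ≤ propM d (k + 4) := propM_mono (by omega)
  exact h1.trans (propM_le hC0 fun A hA => propF_le_of_bd hC0 (hall k d) hA)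

end FinP

end Vale.Agent.Propeller
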