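import Vale.Agent.Propeller.Polar

/-!
# P226: Gaussian lemmas (resampling a coordinate, one-dimensional marginals, radius exchange)
-/

namespace Vale.Agent.Propeller

open MeasureTheory ProbabilityTheory Measure Metric
open scoped ENNReal

/-- marginals of the standard Gaussian -/
theorem map_inner (n : ℕ) (v : E n) :
    (gs n).map (fun g => inner ℝ g v) = (gaussianReal 0 1).map (fun ξ => ‖v‖ * ξ) := by
  have h1 : Measurable (fun g : E n => inner ℝ g v) := by fun_prop
  have h2 : Measurable (fun ξ : ℝ => ‖v‖ * ξ) := by fun_prop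
  have : IsProbabilityMeasure ((gs n).map (fun g => inner ℝ g v)) :=
    Measure.isProbabilityMeasure_map h1.aemeasurable
  have : IsProbabilityMeasure ((gaussianReal 0 1).map (fun ξ => ‖v‖ * ξ)) :=
    Measure.isProbabilityMeasure_map h2.aemeasurable
  apply Measure.ext_of_charFun
  ext t
  rw [charFun_apply_real, charFun_apply_real, integral_map h1.aemeasurable (by fun_prop),
    integral_map h2.aemeasurable (by fun_prop)]
  have e1 := charFun_stdGaussian (E := E n) (t • v)
  rw [charFun_apply] at e1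
  have e2 := charFun_gaussianReal (μ := 0) (v := 1) (t * ‖v‖)
  rw [charFun_apply_real] at e2
  have e3 : ∀ x : E n, Complex.exp ((t : ℂ) * (inner ℝ x v : ℝ) * Complex.I) =
      Complex.exp ((inner ℝ x (t • v) : ℝ) * Complex.I) := by
    intro x
    rw [inner_smul_right]
    push_cast
    rfl
  have e4 : ∀ x : ℝ, Complex.exp ((t : ℂ) * ((‖v‖ * x : ℝ) : ℂ) * Complex.I) =
      Complex.exp (((t * ‖v‖ : ℝ) : ℂ) * (x : ℂ) * Complex.I) := by
    intro x
    congr 1
    push_cast
    ring
  simp only [e3, e4]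
  rw [e1, e2]
  congr 1
  have h7 : ‖t • v‖ ^ 2 = (t * ‖v‖) ^ 2 := by
    rw [norm_smul, mul_pow, mul_pow, Real.norm_eq_abs, sq_abs]
  have h8 : ((‖t • v‖ : ℝ) : ℂ) ^ 2 = ((t * ‖v‖ : ℝ) : ℂ) ^ 2 := by
    rw [← Complex.ofReal_pow, h7, Complex.ofReal_pow]
  rw [h8]
  simp only [Complex.ofReal_zero, mul_zero, zero_mul, NNReal.coe_one, Complex.ofReal_one, one_mul,
    zero_sub]
  ring

theorem lintegral_inner (n : ℕ) (v : E n) (f : ℝ → ℝ≥0∞) (hf : Measurable f) :
    ∫⁻ g, f (inner ℝ g v) ∂gs n = ∫⁻ ξ, f (‖v‖ * ξ) ∂gaussianReal 0 1 := by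
  have h1 : Measurable (fun g : E n => inner ℝ g v) := by fun_prop
  have h2 : Measurable (fun ξ : ℝ => ‖v‖ * ξ) := by fun_prop
  rw [← lintegral_map hf h1, ← lintegral_map hf h2, map_inner]

/-- replace the coordinate in direction `e` by an independent one -/
noncomputable def rs {n : ℕ} (e : E n) (x : E n) (η : ℝ) : E n := x - (inner ℝ x e) • e + η • e

theorem measurable_rs {n : ℕ} (e : E n) :
    Measurable (fun z : E n × ℝ => rs e z.1 z.2) := by
  unfold rs
  fun_prop

theorem map_rs (n : ℕ) (e : E n) (he : ‖e‖ = 1) :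
    ((gs n).prod (gaussianReal 0 1)).map (fun z => rs e z.1 z.2) = gs n := by
  have hm := measurable_rs e
  have : IsProbabilityMeasure (((gs n).prod (gaussianReal 0 1)).map (fun z => rs e z.1 z.2)) :=
    Measure.isProbabilityMeasure_map hm.aemeasurable
  apply Measure.ext_of_charFun
  ext t
  rw [charFun_apply, integral_map hm.aemeasurable (by fun_prop)]
  have e1 := charFun_stdGaussian (E := E n) (t - (inner ℝ e t) • e)
  rw [charFun_apply] at e1
  have e2 := charFun_gaussianReal (μ := 0) (v := 1) (inner ℝ e t)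
  rw [charFun_apply_real] at e2
  have e3 : ∀ z : E n × ℝ, Complex.exp ((inner ℝ (rs e z.1 z.2) t : ℝ) * Complex.I) =
      Complex.exp ((inner ℝ z.1 (t - (inner ℝ e t) • e) : ℝ) * Complex.I) *
        Complex.exp (((inner ℝ e t : ℝ) : ℂ) * (z.2 : ℂ) * Complex.I) := by
    intro z
    rw [← Complex.exp_add]
    congr 1
    unfold rs
    rw [inner_add_left, inner_sub_left, inner_smul_left, inner_smul_left, inner_sub_right,
      inner_smul_right]
    simp only [conj_trivial]
    push_cast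
    ring
  simp only [e3]
  rw [integral_prod_mul (μ := gs n) (ν := gaussianReal 0 1)
    (fun x : E n => Complex.exp ((inner ℝ x (t - (inner ℝ e t) • e) : ℝ) * Complex.I))
    (fun η : ℝ => Complex.exp (((inner ℝ e t : ℝ) : ℂ) * (η : ℂ) * Complex.I)), e1, e2,
    charFun_stdGaussian, ← Complex.exp_add]
  congr 1
  have h5 : ‖t - (inner ℝ e t) • e‖ ^ 2 = ‖t‖ ^ 2 - (inner ℝ e t) ^ 2 := by
    rw [norm_sub_sq_real, inner_smul_right, norm_smul, he, real_inner_comm, mul_one,
      Real.norm_eq_abs, sq_abs]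
    ring
  have h6 : ((‖t - (inner ℝ e t) • e‖ : ℝ) : ℂ) ^ 2 = ((‖t‖ : ℝ) : ℂ) ^ 2 - ((inner ℝ e t : ℝ) : ℂ) ^ 2 := by
    rw [← Complex.ofReal_pow, h5]
    push_cast
    ring
  rw [h6]
  simp only [Complex.ofReal_zero, mul_zero, zero_mul, NNReal.coe_one, Complex.ofReal_one, one_mul,
    zero_sub]
  ring

theorem lintegral_rs (n : ℕ) (e : E n) (he : ‖e‖ = 1) (f : E n → ℝ≥0∞) (hf : Measurable f) :
    ∫⁻ x, f x ∂gs n = ∫⁻ x, ∫⁻ η, f (rs e x η) ∂gaussianReal 0 1 ∂gs n := by
  conv_lhs => rw [← map_rs n e he]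
  rw [lintegral_map hf (measurable_rs e), lintegral_prod]
  exact (hf.comp (measurable_rs e)).aemeasurable

theorem lintegral_dir_mul (n : ℕ) (hn : 1 ≤ n) (a : ℝ → ℝ≥0∞) (ha : Measurable a)
    (b : E n → ℝ≥0∞) (hb : Measurable b) :
    ∫⁻ x, a ‖x‖ * b (dir x) ∂gs n = (∫⁻ x : E n, a ‖x‖ ∂gs n) * ∫⁻ x, b (dir x) ∂gs n := by
  have h1 : Measurable (fun x : E n => (‖x‖, dir x)) := measurable_norm.prodMk measurable_dir
  have h2 : Measurable (fun z : ℝ × E n => a z.1 * b z.2) :=
    (ha.comp measurable_fst).mul (hb.comp measurable_snd)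
  have h3 := lintegral_map h2 h1 (μ := gs n)
  rw [← h3, polar n hn, lintegral_prod_mul ha.aemeasurable hb.aemeasurable,
    lintegral_map ha measurable_norm, lintegral_map hb measurable_dir]

/-- radius exchange -/
theorem lintegral_swap (n : ℕ) (hn : 1 ≤ n) (H : ℝ × E n → ℝ≥0∞) (hH : Measurable H) :
    ∫⁻ x' : E n, ∫⁻ x, H (‖x'‖, dir x) ∂gs n ∂gs n = ∫⁻ x, H (‖x‖, dir x) ∂gs n := by
  have h1 : Measurable (fun x : E n => (‖x‖, dir x)) := measurable_norm.prodMk measurable_dir
  rw [← lintegral_map hH h1, polar n hn, lintegral_prod _ hH.aemeasurable]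
  have h2 : Measurable (fun r : ℝ => ∫⁻ θ, H (r, θ) ∂(gs n).map dir) := by
    have : IsProbabilityMeasure ((gs n).map dir) :=
      Measure.isProbabilityMeasure_map measurable_dir.aemeasurable
    exact hH.lintegral_prod_right'
  rw [lintegral_map h2 measurable_norm]
  refine lintegral_congr fun x' => ?_
  have h3 : Measurable (fun θ : E n => H (‖x'‖, θ)) := hH.comp measurable_prodMk_left
  rw [lintegral_map h3 measurable_dir]

end Vale.Agent.Propeller
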