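import Vale.Agent.Propeller.NumDefs

/-!
# P226: polynomial form of the half-space inequalities
-/

namespace Vale.Agent.Propeller.HalfPoly

open MeasureTheory ProbabilityTheory Finset

/-- Taylor polynomial of `exp (-u)` -/
noncomputable def Tn (n : ℕ) (u : ℝ) : ℝ :=
  ∑ j ∈ Finset.range (n + 1), (-u) ^ j / (j.factorial : ℝ)

lemma Tn_at_zero (n : ℕ) : Tn n 0 = 1 := by
  unfold Tn
  rw [Finset.sum_range_succ']
  simp

lemma hasDerivAt_Tn (n : ℕ) (u : ℝ) : HasDerivAt (Tn (n + 1)) (-(Tn n u)) u := by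
  have h : Tn (n + 1) = fun u : ℝ => ∑ j ∈ Finset.range (n + 1),
      (-u) ^ (j + 1) / ((j + 1).factorial : ℝ) + 1 := by
    funext v
    unfold Tn
    rw [Finset.sum_range_succ']
    simp
  rw [h]
  unfold Tn
  rw [← Finset.sum_neg_distrib]
  refine HasDerivAt.add_const _ (HasDerivAt.fun_sum fun j _ => ?_)
  have h1 : HasDerivAt (fun v : ℝ => (-v) ^ (j + 1)) (((j + 1 : ℕ) : ℝ) * (-u) ^ j * (-1)) u := by
    exact (hasDerivAt_neg' u).fun_pow (j + 1)
  have h2 := h1.div_const ((j + 1).factorial : ℝ)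
  refine h2.congr_deriv ?_
  rw [Nat.factorial_succ]
  push_cast
  have h3 : (j.factorial : ℝ) ≠ 0 := by positivity
  have h4 : ((j : ℝ) + 1) ≠ 0 := by positivity
  field_simp

lemma sign_Tn (n : ℕ) : ∀ u : ℝ, 0 ≤ u → 0 ≤ (-1 : ℝ) ^ n * (Tn n u - Real.exp (-u)) := by
  induction n with
  | zero =>
    intro u hu
    have h1 : Real.exp (-u) ≤ 1 := Real.exp_le_one_iff.mpr (by linarith)
    simp [Tn]
    linarith
  | succ n ih =>
    intro u hu
    have hd : ∀ v : ℝ, HasDerivAt (fun v => (-1 : ℝ) ^ (n + 1) * (Tn (n + 1) v - Real.exp (-v)))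
        ((-1 : ℝ) ^ n * (Tn n v - Real.exp (-v))) v := by
      intro v
      have h1 : HasDerivAt (fun v : ℝ => Real.exp (-v)) (-Real.exp (-v)) v := by
        exact (hasDerivAt_neg' v).exp.congr_deriv (by ring)
      have h2 := ((hasDerivAt_Tn n v).fun_sub h1).const_mul ((-1 : ℝ) ^ (n + 1))
      refine h2.congr_deriv ?_
      ring
    have hmono : MonotoneOn (fun v => (-1 : ℝ) ^ (n + 1) * (Tn (n + 1) v - Real.exp (-v)))
        (Set.Ici 0) := by
      refine monotoneOn_of_deriv_nonneg (convex_Ici 0)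
        (fun v _ => (hd v).continuousAt.continuousWithinAt)
        (fun v _ => (hd v).differentiableAt.differentiableWithinAt) fun v hv => ?_
      rw [(hd v).deriv]
      rw [interior_Ici] at hv
      exact ih v (le_of_lt hv)
    have h0 := hmono (Set.mem_Ici.mpr le_rfl) (Set.mem_Ici.mpr hu) hu
    simp only [Tn_at_zero, neg_zero, Real.exp_zero, sub_self, mul_zero] at h0
    exact h0

lemma exp_neg_le (u : ℝ) (hu : 0 ≤ u) : Real.exp (-u) ≤ Tn 14 u := by
  have := sign_Tn 14 u hu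
  norm_num at this
  exact this

/-- `√(2π) Q(a)` -/
lemma tail_eq (a : ℝ) (ha : 0 ≤ a) :
    Real.sqrt (2 * Real.pi) * (gaussianReal 0 1 (Set.Ioi a)).toReal =
      Real.sqrt (2 * Real.pi) / 2 - ∫ x in (0 : ℝ)..a, Real.exp (-x ^ 2 / 2) := by
  have hint : Integrable (fun x : ℝ => Real.exp (-x ^ 2 / 2)) := by
    have := integrable_exp_neg_mul_sq (b := 1 / 2) (by norm_num)
    refine this.congr (Filter.Eventually.of_forall fun x => ?_)
    show Real.exp (-(1 / 2) * x ^ 2) = Real.exp (-x ^ 2 / 2)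
    congr 1; ring
  have h1 : (gaussianReal 0 1 (Set.Ioi a)).toReal =
      ∫ x in Set.Ioi a, gaussianPDFReal 0 1 x := by
    rw [gaussianReal_apply_eq_integral _ one_ne_zero, ENNReal.toReal_ofReal]
    exact setIntegral_nonneg measurableSet_Ioi fun x _ => gaussianPDFReal_nonneg 0 1 x
  have h2 : ∀ x : ℝ, gaussianPDFReal 0 1 x
      = (Real.sqrt (2 * Real.pi))⁻¹ * Real.exp (-x ^ 2 / 2) := by
    intro x; simp [gaussianPDFReal]
  have h3 : ∫ x in Set.Ioi (0 : ℝ), Real.exp (-x ^ 2 / 2) = Real.sqrt (2 * Real.pi) / 2 := by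
    have := integral_gaussian_Ioi (1 / 2)
    rw [show Real.pi / (1 / 2) = 2 * Real.pi by ring] at this
    rw [← this]
    refine setIntegral_congr_fun measurableSet_Ioi fun x _ => ?_
    show Real.exp (-x ^ 2 / 2) = Real.exp (-(1 / 2) * x ^ 2)
    congr 1; ring
  have h4 := intervalIntegral.integral_interval_add_Ioi (a := 0) (b := a)
    (f := fun x : ℝ => Real.exp (-x ^ 2 / 2)) (μ := volume)
    hint.integrableOn hint.integrableOn
  rw [h1]
  simp only [h2]
  rw [integral_const_mul, ← mul_assoc, mul_inv_cancel₀ (by positivity), one_mul]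
  rw [h3] at h4
  linarith

/-- upper bound of `exp (-a²/2) + a ∫₀ᵃ exp (-x²/2)` -/
noncomputable def PA (a : ℝ) : ℝ :=
  ∑ j ∈ Finset.range 15, (-1) ^ j / (2 ^ j * (j.factorial : ℝ))
    * (a ^ (2 * j) + a * (a ^ (2 * j + 1) / (2 * j + 1)))

lemma pa_bound (a : ℝ) (ha : 0 ≤ a) :
    Real.exp (-a ^ 2 / 2) + a * (∫ x in (0 : ℝ)..a, Real.exp (-x ^ 2 / 2)) ≤ PA a := by
  have hT : ∀ x : ℝ, Real.exp (-x ^ 2 / 2) ≤ ∑ j ∈ Finset.range 15,
      (-1) ^ j / (2 ^ j * (j.factorial : ℝ)) * x ^ (2 * j) := by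
    intro x
    have h := exp_neg_le (x ^ 2 / 2) (by positivity)
    rw [show -(x ^ 2 / 2) = -x ^ 2 / 2 by ring] at h
    refine h.trans (le_of_eq ?_)
    unfold Tn
    refine Finset.sum_congr rfl fun j _ => ?_
    rw [show -(x ^ 2 / 2) = (-1) * (x ^ 2 / 2) by ring, mul_pow, div_pow, ← pow_mul]
    field_simp
  have h1 : ∫ x in (0 : ℝ)..a, Real.exp (-x ^ 2 / 2) ≤
      ∫ x in (0 : ℝ)..a, ∑ j ∈ Finset.range 15,
      (-1) ^ j / (2 ^ j * (j.factorial : ℝ)) * x ^ (2 * j) := by
    refine intervalIntegral.integral_mono_on ha ?_ ?_ fun x _ => hT x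
    · exact (Continuous.intervalIntegrable (by fun_prop) _ _)
    · exact (Continuous.intervalIntegrable (by fun_prop) _ _)
  have h2 : ∫ x in (0 : ℝ)..a, ∑ j ∈ Finset.range 15,
      (-1) ^ j / (2 ^ j * (j.factorial : ℝ)) * x ^ (2 * j) =
      ∑ j ∈ Finset.range 15, (-1) ^ j / (2 ^ j * (j.factorial : ℝ))
        * (a ^ (2 * j + 1) / (2 * j + 1)) := by
    rw [intervalIntegral.integral_finsetSum]
    · refine Finset.sum_congr rfl fun j _ => ?_
      rw [intervalIntegral.integral_const_mul, integral_pow]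
      push_cast
      simp
    · intro j _
      exact (Continuous.intervalIntegrable (by fun_prop) _ _)
  rw [h2] at h1
  have h3 := hT a
  have h4 := mul_le_mul_of_nonneg_left h1 ha
  refine (add_le_add h3 h4).trans (le_of_eq ?_)
  unfold PA
  rw [Finset.mul_sum, ← Finset.sum_add_distrib]
  refine Finset.sum_congr rfl fun j _ => ?_
  ring

lemma sqrt_two_pi_lo : (2.506628 : ℝ) ≤ Real.sqrt (2 * Real.pi) := by
  apply Real.le_sqrt_of_sq_le
  have := Real.pi_gt_d6
  norm_num
  linarith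

lemma sqrt_two_pi_hi : Real.sqrt (2 * Real.pi) ≤ (2.506629 : ℝ) := by
  rw [Real.sqrt_le_left (by norm_num)]
  have := Real.pi_lt_d6
  norm_num
  linarith

/-- the half-space inequalities of one cell, in polynomial form -/
def HT (t p : ℝ) : Prop := ∃ y : ℝ, 0 ≤ y ∧ t = y ^ 2 ∧ 0 ≤ p ∧
  (∀ a : ℝ, 0 ≤ a → y ≤ PA a - 1.253314 * a + 2.506629 * a * p) ∧
  (y ≤ 1 / 91 → y ^ 2 ≤ p)

lemma ht_of {t p : ℝ} (ht : 0 ≤ t) (hp : 0 ≤ p)
    (h : ∀ a : ℝ, 0 ≤ a → Real.sqrt t ≤ Real.exp (-a ^ 2 / 2) +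
      Real.sqrt (2 * Real.pi) * a * (p - (gaussianReal 0 1 (Set.Ioi a)).toReal)) : HT t p := by
  refine ⟨Real.sqrt t, Real.sqrt_nonneg _, (Real.sq_sqrt ht).symm, hp, fun a ha => ?_,
    fun hy => ?_⟩
  · have h1 := h a ha
    have h2 := tail_eq a ha
    have h3 := pa_bound a ha
    have h4 : Real.exp (-a ^ 2 / 2) +
      Real.sqrt (2 * Real.pi) * a * (p - (gaussianReal 0 1 (Set.Ioi a)).toReal) =
      Real.exp (-a ^ 2 / 2) + a * (∫ x in (0 : ℝ)..a, Real.exp (-x ^ 2 / 2))
        - a * (Real.sqrt (2 * Real.pi) / 2) + Real.sqrt (2 * Real.pi) * (a * p) := by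
      have : Real.sqrt (2 * Real.pi) * a * (p - (gaussianReal 0 1 (Set.Ioi a)).toReal) =
        Real.sqrt (2 * Real.pi) * (a * p)
          - a * (Real.sqrt (2 * Real.pi) * (gaussianReal 0 1 (Set.Ioi a)).toReal) := by ring
      rw [this, h2]; ring
    have h5 := mul_le_mul_of_nonneg_right sqrt_two_pi_hi (mul_nonneg ha hp)
    have h6 := mul_le_mul_of_nonneg_left sqrt_two_pi_lo ha
    linarith
  · rcases (Real.sqrt_nonneg t).eq_or_lt with h0 | h0
    · rw [← h0]; simpa using hp
    set y := Real.sqrt t with hy0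
    set a := Real.sqrt (-2 * Real.log y) with hadef
    have hlog : 9 / 2 ≤ -Real.log y := by
      have h1 : Real.log y ≤ Real.log (1 / 91) := Real.log_le_log h0 hy
      have h2 : Real.log (1 / 91) ≤ -(9 / 2) := by
        rw [← Real.log_exp (-(9 / 2))]
        apply Real.log_le_log (by norm_num)
        have h3 : Real.exp (9 / 2) ≤ 91 := by
          have h4 : Real.exp (9 / 2) = Real.exp 1 ^ 4 * Real.exp (1 / 2) := by
            rw [← Real.exp_nat_mul, ← Real.exp_add]; norm_num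
          have h5 := Real.exp_one_lt_d9
          have h6 : Real.exp (1 / 2) ^ 2 = Real.exp 1 := by
            rw [← Real.exp_nat_mul]; norm_num
          have h7 : Real.exp (1 / 2) ≤ 1.6488 := by
            have : 0 ≤ Real.exp (1 / 2) := (Real.exp_pos _).le
            nlinarith
          have h8 : Real.exp 1 ^ 4 ≤ 2.7182818286 ^ 4 :=
            pow_le_pow_left₀ (Real.exp_pos _).le h5.le 4
          have h9 : (0 : ℝ) ≤ Real.exp 1 ^ 4 := by positivity
          rw [h4]
          calc Real.exp 1 ^ 4 * Real.exp (1 / 2) ≤ 2.7182818286 ^ 4 * 1.6488 :=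
                mul_le_mul h8 h7 (Real.exp_pos _).le (by norm_num)
            _ ≤ 91 := by norm_num
        rw [Real.exp_neg, one_div]
        exact inv_anti₀ (Real.exp_pos _) h3
      linarith
    have ha2 : a ^ 2 = -2 * Real.log y := Real.sq_sqrt (by linarith)
    have ha3 : 3 ≤ a := by
      apply Real.le_sqrt_of_sq_le
      linarith
    have hexp : Real.exp (-a ^ 2 / 2) = y := by
      rw [ha2, show -(-2 * Real.log y) / 2 = Real.log y by ring, Real.exp_log h0]
    have h1 := h a (by linarith)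
    rw [hexp] at h1
    have h2 : (gaussianReal 0 1 (Set.Ioi a)).toReal ≤ p := by
      have : 0 ≤ Real.sqrt (2 * Real.pi) * a * (p - (gaussianReal 0 1 (Set.Ioi a)).toReal) := by
        linarith
      have h3 : 0 < Real.sqrt (2 * Real.pi) * a := by positivity
      have := nonneg_of_mul_nonneg_right this h3
      linarith
    refine le_trans ?_ h2
    have h3 : (gaussianReal 0 1 (Set.Ioi a)).toReal =
        ∫ x in Set.Ioi a, gaussianPDFReal 0 1 x := by
      rw [gaussianReal_apply_eq_integral _ one_ne_zero, ENNReal.toReal_ofReal]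
      exact setIntegral_nonneg measurableSet_Ioi fun x _ => gaussianPDFReal_nonneg 0 1 x
    have h4 : ∀ x : ℝ, gaussianPDFReal 0 1 x
        = (Real.sqrt (2 * Real.pi))⁻¹ * Real.exp (-x ^ 2 / 2) := by
      intro x; simp [gaussianPDFReal]
    have h5 : (Real.sqrt (2 * Real.pi))⁻¹ * Real.exp (-(a + 1) ^ 2 / 2) ≤
        ∫ x in Set.Ioi a, gaussianPDFReal 0 1 x := by
      calc (Real.sqrt (2 * Real.pi))⁻¹ * Real.exp (-(a + 1) ^ 2 / 2)
          = ∫ _x in Set.Ioc a (a + 1),
              (Real.sqrt (2 * Real.pi))⁻¹ * Real.exp (-(a + 1) ^ 2 / 2) := by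
            rw [setIntegral_const]; simp
        _ ≤ ∫ x in Set.Ioc a (a + 1), gaussianPDFReal 0 1 x := by
            refine setIntegral_mono_on (integrableOn_const (by simp)) (integrable_gaussianPDFReal 0 1).integrableOn
              measurableSet_Ioc fun x hx => ?_
            rw [h4]
            refine mul_le_mul_of_nonneg_left (Real.exp_le_exp.mpr ?_) (by positivity)
            have h6 := hx.1
            have h7 := hx.2
            nlinarith
        _ ≤ _ := by
            refine setIntegral_mono_set (integrable_gaussianPDFReal 0 1).integrableOn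
              (Filter.Eventually.of_forall fun x => gaussianPDFReal_nonneg 0 1 x) ?_
            exact (Set.Ioc_subset_Ioi_self).eventuallyLE
    rw [h3]
    refine le_trans ?_ h5
    have h6 : Real.exp (-(a + 1) ^ 2 / 2) = y * Real.exp (-a - 1 / 2) := by
      rw [← hexp, ← Real.exp_add]; congr 1; ring
    have h7 : y = Real.exp (-a - 1 / 2) * Real.exp (-(a ^ 2 / 2 - a - 1 / 2)) := by
      rw [← Real.exp_add]
      nth_rewrite 1 [← hexp]
      congr 1; ring
    have h8 : Real.exp (-(a ^ 2 / 2 - a - 1 / 2)) ≤ (Real.sqrt (2 * Real.pi))⁻¹ := by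
      rw [Real.exp_neg]
      apply inv_anti₀ (by positivity)
      have h9 := sqrt_two_pi_hi
      have h10 : Real.exp 1 ≤ Real.exp (a ^ 2 / 2 - a - 1 / 2) := by
        apply Real.exp_le_exp.mpr; nlinarith
      have h11 := Real.exp_one_gt_d9
      linarith
    rw [h6, pow_two]
    have h12 : y ≤ (Real.sqrt (2 * Real.pi))⁻¹ * Real.exp (-a - 1 / 2) := by
      calc y = Real.exp (-a - 1 / 2) * Real.exp (-(a ^ 2 / 2 - a - 1 / 2)) := h7
        _ ≤ Real.exp (-a - 1 / 2) * (Real.sqrt (2 * Real.pi))⁻¹ :=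
            mul_le_mul_of_nonneg_left h8 (Real.exp_pos _).le
        _ = _ := by ring
    calc y * y ≤ y * ((Real.sqrt (2 * Real.pi))⁻¹ * Real.exp (-a - 1 / 2)) :=
          mul_le_mul_of_nonneg_left h12 h0.le
      _ = _ := by ring

end Vale.Agent.Propeller.HalfPoly
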