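import Vale.Agent.Propeller.FO
import Vale.Agent.Propeller.Alg
import Vale.Agent.Propeller.Dim

/-!
# P226: the facets of an optimal configuration; the cases `k ≤ 3`
-/

namespace Vale.Agent.Propeller

open MeasureTheory ProbabilityTheory Filter Topology

namespace FO

variable {n k : ℕ} [NeZero k] {M : ℝ} {w : Fin k → E n}

/-- dual vectors -/
lemma exists_dual (h : Opt n k M w) (i0 : Fin k) (l : {j : Fin k // j ≠ i0}) :
    ∃ q : E n, inner ℝ (Alg.df w i0 l) q = 1 ∧ (∀ j, j ≠ l → inner ℝ (Alg.df w i0 j) q = 0)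
      ∧ inner ℝ q (w i0) = 1 / (k : ℝ) := by
  classical
  have hk : (0 : ℝ) < k := by exact_mod_cast Nat.pos_of_ne_zero (NeZero.ne k)
  have hli := Alg.lin_indep h i0
  obtain ⟨f, hf⟩ := LinearMap.exists_extend
    ((Finsupp.linearCombination ℝ (fun j : {j : Fin k // j ≠ i0} =>
      (1 / (k : ℝ)) - if j = l then 1 else 0)).comp hli.repr)
  have hfj : ∀ j : {j : Fin k // j ≠ i0}, f (w j.1) = (1 / (k : ℝ)) - if j = l then 1 else 0 := by
    intro j
    have hmem : w j.1 ∈ Submodule.span ℝ (Set.range fun j : {j : Fin k // j ≠ i0} => w j.1) :=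
      Submodule.subset_span ⟨j, rfl⟩
    have h1 := LinearMap.congr_fun hf ⟨w j.1, hmem⟩
    rw [LinearMap.comp_apply, Submodule.subtype_apply, LinearMap.comp_apply,
      hli.repr_eq_single j ⟨w j.1, hmem⟩ rfl, Finsupp.linearCombination_single] at h1
    simpa using h1
  have hq0 : f (w i0) = 1 / (k : ℝ) := by
    have h2 : w i0 = - ∑ j : {j : Fin k // j ≠ i0}, w j.1 := by
      have h3 := Alg.sum_zero h
      rw [← Finset.add_sum_erase _ _ (Finset.mem_univ i0)] at h3
      rw [eq_neg_iff_add_eq_zero, ← h3]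
      congr 1
      symm
      apply Finset.sum_subtype
      intro x
      simp
    rw [h2, map_neg, map_sum, Finset.sum_congr rfl (fun j _ => hfj j), Finset.sum_sub_distrib,
      Finset.sum_const, Finset.card_univ, Fintype.card_subtype_compl]
    simp only [Fintype.card_fin, Fintype.card_unique, nsmul_eq_mul, Finset.sum_ite_eq',
      Finset.mem_univ, if_true]
    have : 1 ≤ k := Nat.pos_of_ne_zero (NeZero.ne k)
    rw [Nat.cast_sub this]
    field_simp
    push_cast
    ring
  refine ⟨(InnerProductSpace.toDual ℝ (E n)).symm (LinearMap.toContinuousLinearMap f), ?_, ?_, ?_⟩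
  · rw [real_inner_comm, InnerProductSpace.toDual_symm_apply]
    change f (Alg.df w i0 l) = _
    unfold Alg.df
    rw [map_sub, hfj, hq0]
    simp
  · intro j hj
    rw [real_inner_comm, InnerProductSpace.toDual_symm_apply]
    change f (Alg.df w i0 j) = _
    unfold Alg.df
    rw [map_sub, hfj, hq0]
    simp [hj]
  · rw [InnerProductSpace.toDual_symm_apply]
    exact hq0

lemma pr_ne (h : Opt n k M w) (i0 : Fin k) (l j : {j : Fin k // j ≠ i0}) (hj : j ≠ l) :
    pr (Alg.df w i0) l j ≠ 0 := by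
  obtain ⟨q, hq1, hq2, _⟩ := exists_dual h i0 j
  intro h0
  have h1 : inner ℝ (pr (Alg.df w i0) l j) q = 1 := by
    unfold pr
    rw [inner_sub_left, inner_smul_left, hq1, hq2 l hj.symm]
    simp
  rw [h0, inner_zero_left] at h1
  norm_num at h1

/-- the Gaussian measure of a facet of an optimal configuration -/
theorem facet_opt (h : Opt n k M w) (i0 : Fin k) (l : {j : Fin k // j ≠ i0}) :
    (gs n).real {x : E n | ∀ j, j ≠ l → 0 < inner ℝ (pr (Alg.df w i0) l j) x} =
      Real.sqrt (2 * Real.pi) * ‖w i0 - w l.1‖ / k := by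
  obtain ⟨q, hq1, hq2, hq3⟩ := exists_dual h i0 l
  have h1 := facet (Alg.df w i0) l q hq1 hq2 (fun j hj => pr_ne h i0 l j hj)
  have h2 : ∫ x in {x : E n | ∀ j, 0 < inner ℝ (Alg.df w i0 j) x}, inner ℝ q x ∂gs n =
      1 / (k : ℝ) := by
    rw [← hq3, ← Alg.cell_eq w i0, ← Opt2.inner_mom, h.mom]
  rw [h2] at h1
  have h3 : Alg.df w i0 l = w i0 - w l.1 := rfl
  rw [h3] at h1
  have h4 : 0 < ‖w i0 - w l.1‖ := by
    rw [norm_pos_iff]
    intro h0
    rw [h3, h0, inner_zero_left] at hq1
    norm_num at hq1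
  have h5 : 0 < Real.sqrt (2 * Real.pi) := Real.sqrt_pos.2 (by positivity)
  have hk : (0 : ℝ) < k := by exact_mod_cast Nat.pos_of_ne_zero (NeZero.ne k)
  rw [eq_div_iff hk.ne']
  field_simp at h1
  linarith

lemma sum_dist (h : Opt n k M w) : ∑ i, ∑ j, ‖w i - w j‖ ^ 2 = 2 * k * M := by
  have h1 : ∀ i j, ‖w i - w j‖ ^ 2 = ‖w i‖ ^ 2 + ‖w j‖ ^ 2 - 2 * inner ℝ (w i) (w j) := by
    intro i j
    rw [norm_sub_sq_real]
    ring
  have h2 : ∑ i, ∑ j, inner ℝ (w i) (w j) = 0 := by
    have : ∀ i, ∑ j, inner ℝ (w i) (w j) = 0 := by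
      intro i
      rw [← inner_sum, Alg.sum_zero h, inner_zero_right]
    simp [this]
  simp only [h1, Finset.sum_sub_distrib, Finset.sum_add_distrib, ← Finset.mul_sum, h2, h.sumsq,
    Finset.sum_const, Finset.card_univ, Fintype.card_fin, nsmul_eq_mul]
  ring

theorem half_space (v : E n) (hv : v ≠ 0) : (gs n).real {x : E n | 0 < inner ℝ v x} = 1 / 2 := by
  have h1 : (gs n) {x : E n | 0 < inner ℝ v x} = (gs n) {x : E n | inner ℝ v x < 0} := by
    have hm : (gs n).map (fun x => -x) = gs n := by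
      have := Measure.isProbabilityMeasure_map (μ := gs n) (f := fun x : E n => -x) (by fun_prop)
      apply Measure.ext_of_charFun
      ext t
      rw [charFun_apply, integral_map (by fun_prop) (by fun_prop)]
      have e1 := charFun_stdGaussian (E := E n) (-t)
      rw [charFun_apply] at e1
      simp only [inner_neg_left]
      simp only [inner_neg_right] at e1
      rw [e1, charFun_stdGaussian, norm_neg]
    have h2 := Measure.map_apply (μ := gs n) (f := fun x : E n => -x) (by fun_prop) (meas_pos v)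
    rw [hm] at h2
    rw [h2]
    congr 1
    ext x
    simp [inner_neg_right]
  have h3 : (gs n) {x : E n | inner ℝ v x = 0} = 0 := Opt1.hyper_null v hv
  have hA := meas_pos v
  have hB := meas_lt v 0
  have hC : MeasurableSet {x : E n | inner ℝ v x = 0} :=
    measurableSet_eq_fun (by fun_prop) measurable_const
  have h4 : (gs n).real {x : E n | 0 < inner ℝ v x} + (gs n).real {x : E n | inner ℝ v x < 0} +
      (gs n).real {x : E n | inner ℝ v x = 0} = 1 := by
    rw [← measureReal_union _ hB, ← measureReal_union _ hC]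
    · have : {x : E n | 0 < inner ℝ v x} ∪ {x : E n | inner ℝ v x < 0} ∪
          {x : E n | inner ℝ v x = 0} = Set.univ := by
        ext x
        simp only [Set.mem_union, Set.mem_ofPred_eq, Set.mem_univ, iff_true]
        rcases lt_trichotomy (0 : ℝ) (inner ℝ v x) with h | h | h
        · exact Or.inl (Or.inl h)
        · exact Or.inr h.symm
        · exact Or.inl (Or.inr h)
      rw [this]
      simp
    · rw [Set.disjoint_left]
      rintro x (hx | hx) hx'
      · exact absurd hx' (ne_of_gt hx)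
      · exact absurd hx' (ne_of_lt hx)
    · rw [Set.disjoint_left]
      intro x hx hx'
      have e1 : 0 < inner ℝ v x := hx
      have e2 : inner ℝ v x < 0 := hx'
      linarith
  have h5 : (gs n).real {x : E n | inner ℝ v x = 0} = 0 := by
    rw [measureReal_def, h3]; simp
  have h6 : (gs n).real {x : E n | inner ℝ v x < 0} = (gs n).real {x : E n | 0 < inner ℝ v x} := by
    rw [measureReal_def, measureReal_def, h1]
  linarith

end FO

open FO

theorem bd_one (n : ℕ) (C : ℝ) (hC : 0 ≤ C) : Bd n (Fin 1) C := by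
  intro w
  have h1 : emax w = 0 := by
    unfold emax
    have : ∀ x, hmax w x = inner ℝ (w 0) x := by
      intro x
      unfold hmax
      apply le_antisymm
      · apply Finset.sup'_le
        intro i _
        rw [Subsingleton.elim i 0]
      · exact Finset.le_sup' (fun i => inner ℝ (w i) x) (Finset.mem_univ 0)
    simp only [this]
    exact Opt1.integral_inner_zero _
  rw [h1]
  have : 0 ≤ ∑ i, ‖w i‖ ^ 2 := Finset.sum_nonneg fun i _ => sq_nonneg _
  nlinarith [mul_nonneg hC this]

theorem bd_two (n : ℕ) : Bd n (Fin 2) (9 / (8 * Real.pi)) := by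
  have hpi := Real.pi_pos
  have hC : 0 < 9 / (8 * Real.pi) := by positivity
  apply bd_of_bd n 1 2 (by norm_num) _ hC.le
  by_contra hno
  have : NeZero (2 - 1) := ⟨by norm_num⟩
  obtain ⟨M, w, hM, h⟩ := exists_opt 1 2 (by norm_num) _ hC (bd_one 1 _ hC.le) hno
  have h1 := facet_opt h 0 ⟨1, by decide⟩
  have h2 : {x : E 1 | ∀ j : {j : Fin 2 // j ≠ 0}, j ≠ ⟨1, by decide⟩ →
      0 < inner ℝ (pr (Alg.df w 0) ⟨1, by decide⟩ j) x} = Set.univ := by
    ext x
    simp only [Set.mem_ofPred_eq, Set.mem_univ, iff_true]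
    intro j hj
    exfalso
    apply hj
    apply Subtype.ext
    have := j.2
    have h3 : j.1 ≠ 0 := j.2
    show j.1 = 1
    omega
  rw [h2] at h1
  simp only [probReal_univ] at h1
  have h3 := sum_dist h
  simp only [Fin.sum_univ_two, sub_self, norm_zero] at h3
  have h4 : ‖w 1 - w 0‖ = ‖w 0 - w 1‖ := norm_sub_rev _ _
  rw [h4] at h3
  have h5 : (Real.sqrt (2 * Real.pi) * ‖w 0 - w 1‖) ^ 2 = 4 := by
    have : Real.sqrt (2 * Real.pi) * ‖w 0 - w 1‖ = 2 := by
      field_simp at h1
      push_cast at h1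
      linarith
    rw [this]; norm_num
  rw [mul_pow, Real.sq_sqrt (by positivity)] at h5
  have h6 : 4 * M = 2 * ‖w 0 - w 1‖ ^ 2 := by push_cast at h3; linarith
  have h7 : Real.pi * M = 1 := by nlinarith
  rw [div_lt_iff₀ (by positivity)] at hM
  nlinarith

theorem bd_three (n : ℕ) : Bd n (Fin 3) (9 / (8 * Real.pi)) := by
  have hpi := Real.pi_pos
  have hC : 0 < 9 / (8 * Real.pi) := by positivity
  apply bd_of_bd n 2 3 (by norm_num) _ hC.le
  by_contra hno
  have : NeZero (3 - 1) := ⟨by norm_num⟩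
  obtain ⟨M, w, hM, h⟩ := exists_opt 2 3 (by norm_num) _ hC (bd_two 2) hno
  have hfin : ∀ i j : Fin 3, i ≠ j → ∃ m : Fin 3, m ≠ i ∧ m ≠ j ∧ ∀ x, x ≠ i → x ≠ j → x = m := by
    decide
  have key : ∀ i j : Fin 3, i ≠ j → ‖w i - w j‖ ^ 2 = 9 / (8 * Real.pi) := by
    intro i j hij
    have h1 := facet_opt h i ⟨j, hij.symm⟩
    obtain ⟨m, hmi, hmj, hall⟩ := hfin i j hij
    have h2 : {x : E 2 | ∀ a : {a : Fin 3 // a ≠ i}, a ≠ ⟨j, hij.symm⟩ →
        0 < inner ℝ (pr (Alg.df w i) ⟨j, hij.symm⟩ a) x} =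
        {x : E 2 | 0 < inner ℝ (pr (Alg.df w i) ⟨j, hij.symm⟩ ⟨m, hmi⟩) x} := by
      ext x
      simp only [Set.mem_ofPred_eq]
      constructor
      · intro hx
        exact hx ⟨m, hmi⟩ (by
          intro h0
          exact hmj (congrArg Subtype.val h0))
      · intro hx a ha
        have : a = ⟨m, hmi⟩ := by
          apply Subtype.ext
          apply hall _ a.2
          intro h0
          exact ha (Subtype.ext h0)
        rw [this]
        exact hx
    rw [h2, half_space _ (pr_ne h i _ _ (by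
      intro h0
      exact hmj (congrArg Subtype.val h0)))] at h1
    have h5 : (Real.sqrt (2 * Real.pi) * ‖w i - w j‖) ^ 2 = 9 / 4 := by
      have : Real.sqrt (2 * Real.pi) * ‖w i - w j‖ = 3 / 2 := by
        push_cast at h1
        linarith
      rw [this]; norm_num
    rw [mul_pow, Real.sq_sqrt (by positivity)] at h5
    rw [eq_div_iff (by positivity)]
    linarith
  have h3 := sum_dist h
  simp only [Fin.sum_univ_three, sub_self, norm_zero] at h3
  rw [key 0 1 (by decide), key 0 2 (by decide), key 1 0 (by decide), key 1 2 (by decide),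
    key 2 0 (by decide), key 2 1 (by decide)] at h3
  push_cast at h3
  linarith

end Vale.Agent.Propeller
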