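import Mathlib

/-!
# P226: the case `k = 4` (numerical part)
-/

namespace Vale.Agent.Propeller

open MeasureTheory ProbabilityTheory Filter Topology

namespace FO

/-- `(1 - x^2)^2` is below its tangent -/
lemma tan_le (m x : ℝ) (hx : x ^ 2 + 2 * m * x + 3 * m ^ 2 - 2 ≤ 0) :
    (1 - x ^ 2) ^ 2 ≤ (1 - m ^ 2) ^ 2 - 4 * m * (1 - m ^ 2) * (x - m) := by
  have h1 : (1 - x ^ 2) ^ 2 - ((1 - m ^ 2) ^ 2 - 4 * m * (1 - m ^ 2) * (x - m)) =
      (x - m) ^ 2 * (x ^ 2 + 2 * m * x + 3 * m ^ 2 - 2) := by ring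
  have h2 := mul_nonneg (sq_nonneg (x - m)) (by linarith : 0 ≤ -(x ^ 2 + 2 * m * x + 3 * m ^ 2 - 2))
  nlinarith

lemma claimA_core (a b c d : ℝ) (hs : a + b + c + d = 2) (hb : 0 ≤ b) (hc : 0 ≤ c) (hd : 0 ≤ d)
    (hba : b ≤ a) (hca : c ≤ a) (hda : d ≤ a) (ha : a ≤ 8165 / 10000) :
    (1 - a ^ 2) ^ 2 + (1 - b ^ 2) ^ 2 + (1 - c ^ 2) ^ 2 + (1 - d ^ 2) ^ 2 ≤ 9 / 4 := by
  have ha2 : 1 / 2 ≤ a := by linarith
  set m : ℝ := (2 - a) / 3 with hm
  have hbr : ∀ x, 0 ≤ x → x ≤ a → x ^ 2 + 2 * m * x + 3 * m ^ 2 - 2 ≤ 0 := by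
    intro x hx0 hxa
    have h1 : x ^ 2 ≤ a * x := by nlinarith
    have h2 : x ^ 2 + 2 * m * x + 3 * m ^ 2 - 2 ≤ (a + 2 * m) * x + 3 * m ^ 2 - 2 := by nlinarith
    have h3 : (a + 2 * m) * x ≤ (a + 2 * m) * a := by
      apply mul_le_mul_of_nonneg_left hxa
      rw [hm]; linarith
    have h4 : (a + 2 * m) * a + 3 * m ^ 2 - 2 = (2 * a ^ 2 - 2) / 3 := by rw [hm]; ring
    nlinarith
  have h1 := tan_le m b (hbr b hb hba)
  have h2 := tan_le m c (hbr c hc hca)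
  have h3 := tan_le m d (hbr d hd hda)
  have h4 : b + c + d = 3 * m := by rw [hm]; linarith
  have h5 : (1 - b ^ 2) ^ 2 + (1 - c ^ 2) ^ 2 + (1 - d ^ 2) ^ 2 ≤ 3 * (1 - m ^ 2) ^ 2 := by
    have : 4 * m * (1 - m ^ 2) * (b - m) + 4 * m * (1 - m ^ 2) * (c - m) +
        4 * m * (1 - m ^ 2) * (d - m) = 4 * m * (1 - m ^ 2) * ((b + c + d) - 3 * m) := by ring
    rw [h4, sub_self, mul_zero] at this
    linarith
  set s : ℝ := a - 1 / 2 with hsd
  have h6 : (1 - a ^ 2) ^ 2 + 3 * (1 - m ^ 2) ^ 2 =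
      9 / 4 + s ^ 2 * ((28 / 27) * s ^ 2 + (16 / 9) * s - 2 / 3) := by
    rw [hm, hsd]; ring
  have h7 : (28 / 27) * s ^ 2 + (16 / 9) * s - 2 / 3 ≤ 0 := by
    have hs0 : 0 ≤ s := by rw [hsd]; linarith
    have hs1 : s ≤ 3165 / 10000 := by rw [hsd]; linarith
    nlinarith
  have h8 : s ^ 2 * ((28 / 27) * s ^ 2 + (16 / 9) * s - 2 / 3) ≤ 0 :=
    mul_nonpos_of_nonneg_of_nonpos (sq_nonneg s) h7
  linarith

lemma claimA (a b c d : ℝ) (hs : a + b + c + d = 2) (ha0 : 0 ≤ a) (hb : 0 ≤ b) (hc : 0 ≤ c)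
    (hd : 0 ≤ d) (ha : a ≤ 8165 / 10000) (hb1 : b ≤ 8165 / 10000) (hc1 : c ≤ 8165 / 10000)
    (hd1 : d ≤ 8165 / 10000) :
    (1 - a ^ 2) ^ 2 + (1 - b ^ 2) ^ 2 + (1 - c ^ 2) ^ 2 + (1 - d ^ 2) ^ 2 ≤ 9 / 4 := by
  rcases le_total a b with h1 | h1 <;> rcases le_total c d with h2 | h2
  · rcases le_total b d with h3 | h3
    · have := claimA_core d a b c (by linarith) ha0 hb hc (by linarith) (by linarith)
        (by linarith) hd1
      linarith
    · have := claimA_core b a c d (by linarith) ha0 hc hd (by linarith) (by linarith)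
        (by linarith) hb1
      linarith
  · rcases le_total b c with h3 | h3
    · have := claimA_core c a b d (by linarith) ha0 hb hd (by linarith) (by linarith)
        (by linarith) hc1
      linarith
    · have := claimA_core b a c d (by linarith) ha0 hc hd (by linarith) (by linarith)
        (by linarith) hb1
      linarith
  · rcases le_total a d with h3 | h3
    · have := claimA_core d a b c (by linarith) ha0 hb hc (by linarith) (by linarith)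
        (by linarith) hd1
      linarith
    · have := claimA_core a b c d (by linarith) hb hc hd (by linarith) (by linarith)
        (by linarith) ha
      linarith
  · rcases le_total a c with h3 | h3
    · have := claimA_core c a b d (by linarith) ha0 hb hd (by linarith) (by linarith)
        (by linarith) hc1
      linarith
    · have := claimA_core a b c d (by linarith) hb hc hd (by linarith) (by linarith)
        (by linarith) ha
      linarith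

/-- large `u` means small `t` -/
lemma small_of_large (u t : ℝ) (hu : 8165 / 10000 ≤ u) (hu1 : u ≤ 1) (ht : t ≤ (1 - u ^ 2) ^ 2) :
    t ≤ 1112 / 10000 := by
  have h1 : 1 - u ^ 2 ≤ 33333 / 100000 := by nlinarith
  have h2 : 0 ≤ 1 - u ^ 2 := by nlinarith
  nlinarith

lemma chord (a : ℝ) (h1 : 8165 / 10000 ≤ a) (h2 : a ≤ 8922 / 10000) :
    (1 - a ^ 2) ^ 2 ≤ 1112 / 10000 - (9 / 10) * (a - 8165 / 10000) := by
  have e1 : 0 ≤ (a - 8165 / 10000) * (8922 / 10000 - a) :=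
    mul_nonneg (by linarith) (by linarith)
  have e2 : 2 ≤ a ^ 2 + (17087 / 10000) * a + (8165 / 10000) ^ 2 + (8165 / 10000) * (8922 / 10000)
      + (8922 / 10000) ^ 2 - 2 := by nlinarith
  have e3 : (1 - a ^ 2) ^ 2 = (1 - (8165 / 10000) ^ 2) ^ 2 + ((1 - (8922 / 10000) ^ 2) ^ 2 -
      (1 - (8165 / 10000) ^ 2) ^ 2) / (8922 / 10000 - 8165 / 10000) * (a - 8165 / 10000) -
      ((a - 8165 / 10000) * (8922 / 10000 - a)) * (a ^ 2 + (17087 / 10000) * a + (8165 / 10000) ^ 2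
      + (8165 / 10000) * (8922 / 10000) + (8922 / 10000) ^ 2 - 2) := by ring
  have e4 : 0 ≤ ((a - 8165 / 10000) * (8922 / 10000 - a)) * (a ^ 2 + (17087 / 10000) * a +
      (8165 / 10000) ^ 2 + (8165 / 10000) * (8922 / 10000) + (8922 / 10000) ^ 2 - 2) :=
    mul_nonneg e1 (by linarith)
  rw [e3]
  norm_num at e4 ⊢
  linarith

lemma quad_b (b : ℝ) (h0 : 0 ≤ b) (h1 : b ≤ 1 / 3) :
    (1 - b ^ 2) ^ 2 ≤ 8281 / 10000 - (1092 / 1000) * (b - 3 / 10) - (7 / 5) * (b - 3 / 10) ^ 2 := by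
  have e1 : (1 - b ^ 2) ^ 2 = 8281 / 10000 - (1092 / 1000) * (b - 3 / 10)
      - (7 / 5) * (b - 3 / 10) ^ 2 +
      (b - 3 / 10) ^ 2 * (b ^ 2 + 2 * (3 / 10) * b + 3 * (3 / 10) ^ 2 - 2 + 7 / 5) := by ring
  have e2 : b ^ 2 + 2 * (3 / 10) * b + 3 * (3 / 10) ^ 2 - 2 + 7 / 5 ≤ 0 := by nlinarith
  have e3 := mul_nonneg (sq_nonneg (b - 3 / 10)) (neg_nonneg.2 e2)
  rw [e1]
  nlinarith

lemma tan44 (c : ℝ) (h0 : 0 ≤ c) (h1 : c ≤ 8165 / 10000) :
    (1 - c ^ 2) ^ 2 ≤ 65028096 / 100000000 - (1419264 / 1000000) * (c - 44 / 100) := by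
  have h2 := tan_le (44 / 100) c (by nlinarith)
  norm_num at h2 ⊢
  linarith

lemma one_le (x : ℝ) (h0 : 0 ≤ x) (h1 : x ≤ 1) : (1 - x ^ 2) ^ 2 ≤ 1 := by
  have e1 : 0 ≤ 1 - x ^ 2 := by nlinarith
  have e2 : 1 - x ^ 2 ≤ 1 := by nlinarith
  nlinarith

lemma ub_a (a : ℝ) (h : 8922 / 10000 ≤ a) (h1 : a ≤ 1) : (1 - a ^ 2) ^ 2 ≤ 1 / 24 := by
  have e1 : 0 ≤ 1 - a ^ 2 := by nlinarith
  have e2 : 1 - a ^ 2 ≤ 20399 / 100000 := by nlinarith
  have e3 : (1 - a ^ 2) ^ 2 ≤ (20399 / 100000) ^ 2 := pow_le_pow_left₀ e1 e2 2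
  norm_num at e3
  linarith

lemma ub_b (b : ℝ) (h : 1 / 3 ≤ b) (h1 : b ≤ 1) : (1 - b ^ 2) ^ 2 ≤ 64 / 81 := by
  have e1 : 0 ≤ 1 - b ^ 2 := by nlinarith
  have e2 : 1 - b ^ 2 ≤ 8 / 9 := by nlinarith
  have e3 : (1 - b ^ 2) ^ 2 ≤ (8 / 9) ^ 2 := pow_le_pow_left₀ e1 e2 2
  norm_num at e3
  linarith

lemma quad_x (b : ℝ) :
    (543 / 10000) * (b - 3 / 10) - (7 / 4) * (b - 3 / 10) ^ 2 ≤ 5 / 10000 := by
  nlinarith [sq_nonneg (b - 3 / 10 - 155 / 10000)]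

/-- key numerical statement -/
lemma claimB (a b c d ta tb tc td : ℝ) (hs : a + b + c + d = 2) (ha0 : 0 ≤ a) (hb0 : 0 ≤ b)
    (hc0 : 0 ≤ c) (hd0 : 0 ≤ d) (ha1 : a ≤ 1) (hb1 : b ≤ 1) (hc1 : c ≤ 1) (hd1 : d ≤ 1)
    (hta : ta ≤ (1 - a ^ 2) ^ 2) (htb : tb ≤ (1 - b ^ 2) ^ 2) (htc : tc ≤ (1 - c ^ 2) ^ 2)
    (htd : td ≤ (1 - d ^ 2) ^ 2) (hab : ta ≤ tb) (hac : ta ≤ tc) (had : ta ≤ td)
    (hT : 9 / 4 < ta + tb + tc + td) :
    tb + 3 * ta < (ta + tb + tc + td) / 2 := by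
  have ob := one_le b hb0 hb1
  have oc := one_le c hc0 hc1
  have od := one_le d hd0 hd1
  have hnb : b ≤ 8165 / 10000 := by
    by_contra hcon
    push Not at hcon
    have := small_of_large b tb hcon.le hb1 htb
    linarith
  have hnc : c ≤ 8165 / 10000 := by
    by_contra hcon
    push Not at hcon
    have := small_of_large c tc hcon.le hc1 htc
    linarith
  have hnd : d ≤ 8165 / 10000 := by
    by_contra hcon
    push Not at hcon
    have := small_of_large d td hcon.le hd1 htd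
    linarith
  have hna : 8165 / 10000 < a := by
    by_contra hcon
    push Not at hcon
    have := claimA a b c d hs ha0 hb0 hc0 hd0 hcon hnb hnc hnd
    linarith
  by_contra hcon
  push Not at hcon
  have hg : 9 / 8 < tb + 3 * ta := by linarith
  have hfa : 1 / 24 < (1 - a ^ 2) ^ 2 := by linarith
  have ha2 : a ≤ 8922 / 10000 := by
    by_contra h
    push Not at h
    have h3 := ub_a a h.le ha1
    linarith
  have hfa2 := small_of_large a ((1 - a ^ 2) ^ 2) hna.le ha1 le_rfl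
  have hb2 : b ≤ 1 / 3 := by
    by_contra h
    push Not at h
    have h3 := ub_b b h.le hb1
    linarith
  have e1 := chord a hna.le ha2
  have e2 := quad_b b hb0 hb2
  have e3 := tan44 c hc0 hnc
  have e4 := tan44 d hd0 hnd
  have e5 := quad_x b
  have hcd : c + d = 2 - a - b := by linarith
  have e6 : (1 - c ^ 2) ^ 2 + (1 - d ^ 2) ^ 2 ≤ 2 * (65028096 / 100000000) -
      (1419264 / 1000000) * ((2 - a - b) - 88 / 100) := by
    rw [← hcd]
    linarith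
  have hb3 : (54264 / 1000000) * (b - 3 / 10) ≤ (543 / 10000) * (b - 3 / 10) + 2 / 100000 := by
    linarith
  linarith

end FO

end Vale.Agent.Propeller
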