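import Vale.Agent.Propeller.Sector
import Vale.Agent.Propeller.K4num

/-!
# P226: the case `k = 4` (assembly)
-/

namespace Vale.Agent.Propeller

open MeasureTheory ProbabilityTheory Filter Topology

namespace FO

section cells

variable {n k : ℕ} [NeZero k] {M : ℝ} {w : Fin k → E n}

lemma opt_inj (h : Opt n k M w) : Function.Injective w := by
  intro i j hij
  by_contra hne
  have h1 := h.neg i j hne
  rw [hij, real_inner_self_eq_norm_sq] at h1
  nlinarith [sq_nonneg ‖w j‖]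

lemma cell_real_le_half (h : Opt n k M w) (i j : Fin k) (hij : j ≠ i) :
    (gs n).real (cell w i) ≤ 1 / 2 := by
  have h1 : w i - w j ≠ 0 := sub_ne_zero.2 fun h0 => hij (opt_inj h h0.symm)
  rw [← half_space (w i - w j) h1]
  refine measureReal_mono ?_ (measure_ne_top _ _)
  intro x hx
  have := hx j hij
  show 0 < inner ℝ (w i - w j) x
  rw [inner_sub_left]
  linarith

lemma sum_real_cell (h : Opt n k M w) : ∑ i, (gs n).real (cell w i) = 1 := by
  have h1 := Opt2.sum_cell w (opt_inj h) (fun _ => (1 : ℝ)) (integrable_const _)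
  simpa using h1

omit [NeZero k] in
lemma cell_cone (w : Fin k → E n) (i : Fin k) : ∀ x ∈ cell w i, ∀ t : ℝ, 0 < t → t • x ∈ cell w i := by
  intro x hx t ht j hj
  rw [inner_smul_right, inner_smul_right]
  exact mul_lt_mul_of_pos_left (hx j hj) ht

end cells

/-- cap bound in dimension three -/
lemma cap3 {k : ℕ} [NeZero k] {M : ℝ} {w : Fin k → E 3} (h : Opt 3 k M w) (i j : Fin k)
    (hij : j ≠ i) :
    2 * Real.pi * ‖w i‖ ^ 2 ≤ (1 - (1 - 2 * (gs 3).real (cell w i)) ^ 2) ^ 2 := by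
  set p : ℝ := (gs 3).real (cell w i) with hp
  have hp0 : 0 ≤ p := measureReal_nonneg
  have hp1 : p ≤ 1 / 2 := cell_real_le_half h i j hij
  have hsq : (Real.sqrt (2 * Real.pi) * ‖w i‖) ^ 2 = 2 * Real.pi * ‖w i‖ ^ 2 := by
    rw [mul_pow, Real.sq_sqrt (by positivity)]
  rw [← hsq]
  have hnn : 0 ≤ Real.sqrt (2 * Real.pi) * ‖w i‖ := by positivity
  rcases hp0.lt_or_eq with hpos | hz
  · have h1 := cap_lin 3 le_rfl (cell w i) (Opt2.meas_cell w i) (cell_cone w i) (1 - 2 * p)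
      (by linarith) (by linarith)
    rw [h.mom] at h1
    have h2 : (((3 : ℕ) : ℝ) - 3) / 2 = 0 := by norm_num
    have h3 : (((3 : ℕ) : ℝ) - 1) / 2 = 1 := by norm_num
    have h4 : ((gs 3) (cell w i)).toReal = p := rfl
    rw [h2, h3, h4] at h1
    simp only [Real.rpow_zero, Real.rpow_one, intervalIntegral.integral_const, smul_eq_mul,
      mul_one, sub_zero] at h1
    apply pow_le_pow_left₀ hnn
    push_cast at h1
    nlinarith
  · have h1 : w i = 0 := by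
      rw [← h.mom i]
      apply setIntegral_measure_zero
      have : (gs 3).real (cell w i) = 0 := by rw [← hp]; exact hz.symm
      rwa [measureReal_eq_zero_iff] at this
    rw [h1]
    simp
    positivity

section four

variable {n : ℕ} {M : ℝ} {w : Fin 4 → E n}

lemma pr_inner {ι : Type} (d : ι → E n) (l i j : ι) :
    inner ℝ (pr d l i) (pr d l j) =
      inner ℝ (d i) (d j) - inner ℝ (d i) (d l) * inner ℝ (d j) (d l) / ‖d l‖ ^ 2 := by
  unfold pr
  simp only [inner_sub_left, inner_sub_right, inner_smul_left, inner_smul_right, conj_trivial]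
  rw [real_inner_self_eq_norm_sq, real_inner_comm (d j) (d l)]
  by_cases h : ‖d l‖ = 0
  · simp [h]
  · field_simp
    ring

lemma pr_norm_le {ι : Type} (d : ι → E n) (l i : ι) : ‖pr d l i‖ ≤ ‖d i‖ := by
  apply le_of_sq_le_sq _ (norm_nonneg _)
  rw [← real_inner_self_eq_norm_sq, pr_inner, real_inner_self_eq_norm_sq]
  have : 0 ≤ inner ℝ (d i) (d l) * inner ℝ (d i) (d l) / ‖d l‖ ^ 2 :=
    div_nonneg (mul_self_nonneg _) (sq_nonneg _)
  linarith

/-- first order inequality for an acute pair -/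
lemma fo_ineq (h : Opt n 4 M w) (i0 l i j : Fin 4) (hl : l ≠ i0) (hi : i ≠ i0) (hj : j ≠ i0)
    (hil : i ≠ l) (hjl : j ≠ l) (hall : ∀ x, x ≠ i0 → x ≠ l → x = i ∨ x = j)
    (hij' : inner ℝ (w i0 - w i) (w i0 - w j) < 0) (hil' : inner ℝ (w i0 - w i) (w i0 - w l) < 0)
    (hjl' : inner ℝ (w i0 - w j) (w i0 - w l) < 0) :
    Real.sqrt (2 * Real.pi) * ‖w i0 - w l‖ < 1 ∧
    -inner ℝ (w i0 - w i) (w i0 - w j) ≤ Real.pi / 2 *
      (1 - Real.sqrt (2 * Real.pi) * ‖w i0 - w l‖) * (‖w i0 - w i‖ * ‖w i0 - w j‖) := by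
  have hpi := Real.pi_pos
  set D := Alg.df w i0 with hD
  set L : {j : Fin 4 // j ≠ i0} := ⟨l, hl⟩
  set I : {j : Fin 4 // j ≠ i0} := ⟨i, hi⟩
  set J : {j : Fin 4 // j ≠ i0} := ⟨j, hj⟩
  have hIL : I ≠ L := fun h0 => hil (congrArg Subtype.val h0)
  have hJL : J ≠ L := fun h0 => hjl (congrArg Subtype.val h0)
  have h1 := facet_opt h i0 L
  have h2 : {x : E n | ∀ a : {a : Fin 4 // a ≠ i0}, a ≠ L → 0 < inner ℝ (pr D L a) x} =
      {x : E n | 0 < inner ℝ (pr D L I) x ∧ 0 < inner ℝ (pr D L J) x} := by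
    ext x
    simp only [Set.mem_ofPred_eq]
    constructor
    · intro hx
      exact ⟨hx I hIL, hx J hJL⟩
    · rintro ⟨hx1, hx2⟩ a ha
      rcases hall a.1 a.2 (fun h0 => ha (Subtype.ext h0)) with h3 | h3
      · have : a = I := Subtype.ext h3
        rw [this]; exact hx1
      · have : a = J := Subtype.ext h3
        rw [this]; exact hx2
  rw [← hD, h2] at h1
  have e1 : inner ℝ (pr D L I) (pr D L J) = inner ℝ (w i0 - w i) (w i0 - w j) -
      inner ℝ (w i0 - w i) (w i0 - w l) * inner ℝ (w i0 - w j) (w i0 - w l) /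
        ‖w i0 - w l‖ ^ 2 := pr_inner D L I J
  have e2 : 0 ≤ inner ℝ (w i0 - w i) (w i0 - w l) * inner ℝ (w i0 - w j) (w i0 - w l) /
        ‖w i0 - w l‖ ^ 2 :=
    div_nonneg (mul_nonneg_of_nonpos_of_nonpos hil'.le hjl'.le) (sq_nonneg _)
  have hne := pr_ne h i0 L I hIL
  have h3 := sector (pr D L I) (pr D L J) hne (by rw [e1]; linarith)
  rw [h1, e1] at h3
  have hN1 : ‖pr D L I‖ ≤ ‖w i0 - w i‖ := pr_norm_le D L I
  have hN2 : ‖pr D L J‖ ≤ ‖w i0 - w j‖ := pr_norm_le D L J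
  have hL : ‖w i0 - w L.1‖ = ‖w i0 - w l‖ := rfl
  rw [hL] at h3
  push_cast at h3
  have h4 : 2 * Real.pi * (1 / 4 - Real.sqrt (2 * Real.pi) * ‖w i0 - w l‖ / 4) =
      Real.pi / 2 * (1 - Real.sqrt (2 * Real.pi) * ‖w i0 - w l‖) := by ring
  rw [h4] at h3
  have h5 : 0 < Real.pi / 2 * (1 - Real.sqrt (2 * Real.pi) * ‖w i0 - w l‖) *
      (‖pr D L I‖ * ‖pr D L J‖) := by linarith
  have h6 : 0 < Real.pi / 2 * (1 - Real.sqrt (2 * Real.pi) * ‖w i0 - w l‖) := by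
    by_contra hcon
    push Not at hcon
    have := mul_nonpos_of_nonpos_of_nonneg hcon
      (mul_nonneg (norm_nonneg (pr D L I)) (norm_nonneg (pr D L J)))
    linarith
  refine ⟨?_, ?_⟩
  · have : 0 < 1 - Real.sqrt (2 * Real.pi) * ‖w i0 - w l‖ := by
      by_contra hcon
      push Not at hcon
      have := mul_nonpos_of_nonneg_of_nonpos (by positivity : 0 ≤ Real.pi / 2) hcon
      linarith
    linarith
  · calc _ ≤ Real.pi / 2 * (1 - Real.sqrt (2 * Real.pi) * ‖w i0 - w l‖) *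
          (‖pr D L I‖ * ‖pr D L J‖) := by linarith
      _ ≤ _ := by
          apply mul_le_mul_of_nonneg_left _ h6.le
          exact mul_le_mul hN1 hN2 (norm_nonneg _) (norm_nonneg _)

/-- inner products in terms of norms -/
lemma inner_D (h : Opt n 4 M w) (i0 l i j : Fin 4)
    (hsum : ∀ f : Fin 4 → E n, ∑ x, f x = f i0 + f l + f i + f j)
    (hsumr : ∀ f : Fin 4 → ℝ, ∑ x, f x = f i0 + f l + f i + f j) :
    inner ℝ (w i0 - w i) (w i0 - w j) =
      3 * ‖w i0‖ ^ 2 + ‖w l‖ ^ 2 + 2 * inner ℝ (w i0) (w l) - M / 2 := by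
  have hz := Alg.sum_zero h
  rw [hsum] at hz
  have hm := h.sumsq
  rw [hsumr] at hm
  have h1 : w i + w j = -(w i0 + w l) := by
    rw [eq_neg_iff_add_eq_zero, ← hz]; abel
  have h2 : ‖w i + w j‖ ^ 2 = ‖w i0 + w l‖ ^ 2 := by rw [h1, norm_neg]
  rw [norm_add_sq_real, norm_add_sq_real] at h2
  have h3 : inner ℝ (w i0) (w i) + inner ℝ (w i0) (w j) = -(‖w i0‖ ^ 2 + inner ℝ (w i0) (w l)) := by
    rw [← inner_add_right, h1, inner_neg_right, inner_add_right, real_inner_self_eq_norm_sq]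
  have h4 : inner ℝ (w i0 - w i) (w i0 - w j) = ‖w i0‖ ^ 2 -
      (inner ℝ (w i0) (w i) + inner ℝ (w i0) (w j)) + inner ℝ (w i) (w j) := by
    simp only [inner_sub_left, inner_sub_right]
    rw [real_inner_self_eq_norm_sq, real_inner_comm (w i0) (w i)]
    ring
  rw [h4, h3]
  linarith

lemma half_lem (u v r : ℝ) (hu0 : 0 ≤ u) (hu1 : u < 1) (hv0 : 0 ≤ v) (hv1 : v < 1) (hr0 : 0 ≤ r)
    (hr1 : r < 1) (hh : 9 / 4 < u ^ 2 + v ^ 2 + r ^ 2) : 1 - u ≤ (2 / 3) * (1 - u ^ 2) := by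
  have h1 : v ^ 2 ≤ 1 := by nlinarith
  have h2 : r ^ 2 ≤ 1 := by nlinarith
  have h3 : 1 / 4 < u ^ 2 := by linarith
  have h4 : 1 / 2 < u := by
    by_contra hc
    push Not at hc
    nlinarith
  nlinarith

lemma k_lem (u v r : ℝ) (hu1 : u < 1) (hv0 : 0 ≤ v) (hv1 : v < 1) (hr0 : 0 ≤ r)
    (hr1 : r < 1) : Real.pi / 2 * (1 - u) * (v * r) ≤ Real.pi / 2 * (1 - u) := by
  have hpi := Real.pi_pos
  have e1 : 0 ≤ Real.pi / 2 * (1 - u) := mul_nonneg (by positivity) (by linarith)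
  have e2 : v * r ≤ 1 := by nlinarith
  calc _ ≤ Real.pi / 2 * (1 - u) * 1 := mul_le_mul_of_nonneg_left e2 e1
    _ = _ := by ring

lemma sq_lt_one' (a : ℝ) (h0 : 0 ≤ a) (h1 : a < 1) : a ^ 2 < 1 := by nlinarith

lemma pi_lem (S : ℝ) (hS : S < 3) : Real.pi / 2 * ((2 / 3) * (3 - S)) ≤ (315 / 300) * (3 - S) := by
  have h := Real.pi_lt_d2
  have h1 : 0 < 3 - S := by linarith
  have h2 : Real.pi * (3 - S) ≤ 3.15 * (3 - S) := mul_le_mul_of_nonneg_right h.le h1.le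
  norm_num at h2
  linarith

/-- final contradiction -/
lemma final_num (T t0 a b c x y z : ℝ) (hT : 9 / 4 < T) (ha0 : 0 ≤ a) (hb0 : 0 ≤ b) (hc0 : 0 ≤ c)
    (ha : a < 1) (hb : b < 1) (hc : c < 1) (hS : a ^ 2 + b ^ 2 + c ^ 2 = T + 4 * t0)
    (hsum : x + y + z = T / 2 - 6 * t0)
    (hx : x ≤ Real.pi / 2 * (1 - a) * (b * c)) (hy : y ≤ Real.pi / 2 * (1 - b) * (a * c))
    (hz : z ≤ Real.pi / 2 * (1 - c) * (a * b)) (ht0 : 0 ≤ t0) : False := by
  have hpi := Real.pi_pos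
  have hS1 : 9 / 4 < a ^ 2 + b ^ 2 + c ^ 2 := by linarith
  have h1 := half_lem a b c ha0 ha hb0 hb hc0 hc hS1
  have h2 := half_lem b a c hb0 hb ha0 ha hc0 hc (by linarith)
  have h3 := half_lem c a b hc0 hc ha0 ha hb0 hb (by linarith)
  have k1 := k_lem a b c ha hb0 hb hc0 hc
  have k2 := k_lem b a c hb ha0 ha hc0 hc
  have k3 := k_lem c a b hc ha0 ha hb0 hb
  have s1 := sq_lt_one' a ha0 ha
  have s2 := sq_lt_one' b hb0 hb
  have s3 := sq_lt_one' c hc0 hc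
  have hS3 : a ^ 2 + b ^ 2 + c ^ 2 < 3 := by linarith
  have e1 : x + y + z ≤ Real.pi / 2 * ((1 - a) + (1 - b) + (1 - c)) := by linarith
  have e2 : (1 - a) + (1 - b) + (1 - c) ≤ (2 / 3) * (3 - (a ^ 2 + b ^ 2 + c ^ 2)) := by linarith
  have e3 : Real.pi / 2 * ((1 - a) + (1 - b) + (1 - c)) ≤
      Real.pi / 2 * ((2 / 3) * (3 - (a ^ 2 + b ^ 2 + c ^ 2))) :=
    mul_le_mul_of_nonneg_left e2 (by positivity)
  have e4 := pi_lem _ hS3
  have e5 : x + y + z > (3 / 2) * (3 - (a ^ 2 + b ^ 2 + c ^ 2)) := by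
    rw [hsum]; linarith
  linarith

end four

lemma opt4_false (M : ℝ) (hM : 9 / (8 * Real.pi) < M) (w : Fin 4 → E 3) (h : Opt 3 4 M w) :
    False := by
  have hpi := Real.pi_pos
  obtain ⟨i0, -, hmin⟩ := Finset.exists_min_image Finset.univ (fun i => ‖w i‖)
    (Finset.univ_nonempty)
  have hfin : ∀ i0 : Fin 4, ∃ i1 i2 i3 : Fin 4, i1 ≠ i0 ∧ i2 ≠ i0 ∧
      i3 ≠ i0 ∧ i1 ≠ i2 ∧ i1 ≠ i3 ∧ i2 ≠ i3 ∧ ∀ x, x = i0 ∨ x = i1 ∨ x = i2 ∨ x = i3 := by decide
  obtain ⟨i1, i2, i3, h10, h20, h30, h12, h13, h23, hall⟩ := hfin i0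
  have hU : (Finset.univ : Finset (Fin 4)) = {i0, i1, i2, i3} := by
    ext x
    simp only [Finset.mem_univ, Finset.mem_insert, Finset.mem_singleton, true_iff]
    exact hall x
  have hsumr : ∀ f : Fin 4 → ℝ, ∑ x, f x = f i0 + f i1 + f i2 + f i3 := by
    intro f
    rw [hU, Finset.sum_insert (by simp [h10.symm, h20.symm, h30.symm]),
      Finset.sum_insert (by simp [h12, h13]), Finset.sum_insert (by simp [h23]),
      Finset.sum_singleton]
    ring
  have hsumE : ∀ f : Fin 4 → E 3, ∑ x, f x = f i0 + f i1 + f i2 + f i3 := by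
    intro f
    rw [hU, Finset.sum_insert (by simp [h10.symm, h20.symm, h30.symm]),
      Finset.sum_insert (by simp [h12, h13]), Finset.sum_insert (by simp [h23]),
      Finset.sum_singleton]
    abel
  set u : Fin 4 → ℝ := fun x => 1 - 2 * (gs 3).real (cell w x) with hu
  have husum : u i0 + u i1 + u i2 + u i3 = 2 := by
    have h1 := sum_real_cell h
    rw [hsumr] at h1
    simp only [hu]
    linarith
  have hother : ∀ x : Fin 4, ∃ y, y ≠ x := by decide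
  have hu0 : ∀ x, 0 ≤ u x := by
    intro x
    obtain ⟨y, hy⟩ := hother x
    have := cell_real_le_half h x y hy
    simp only [hu]
    linarith
  have hu1 : ∀ x, u x ≤ 1 := by
    intro x
    have : 0 ≤ (gs 3).real (cell w x) := measureReal_nonneg
    simp only [hu]
    linarith
  have hcap : ∀ x, 2 * Real.pi * ‖w x‖ ^ 2 ≤ (1 - u x ^ 2) ^ 2 := by
    intro x
    obtain ⟨y, hy⟩ := hother x
    exact cap3 h x y hy
  have hmin' : ∀ x, 2 * Real.pi * ‖w i0‖ ^ 2 ≤ 2 * Real.pi * ‖w x‖ ^ 2 := by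
    intro x
    have := hmin x (Finset.mem_univ x)
    gcongr
  have hss := h.sumsq
  rw [hsumr] at hss
  have hT : 9 / 4 < 2 * Real.pi * M := by
    rw [div_lt_iff₀ (by positivity)] at hM
    linarith
  have hTsum : 2 * Real.pi * ‖w i0‖ ^ 2 + 2 * Real.pi * ‖w i1‖ ^ 2 + 2 * Real.pi * ‖w i2‖ ^ 2 +
      2 * Real.pi * ‖w i3‖ ^ 2 = 2 * Real.pi * M := by
    rw [← hss]; ring
  have B1 := claimB (u i0) (u i1) (u i2) (u i3) _ _ _ _ (by linarith) (hu0 _) (hu0 _) (hu0 _)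
    (hu0 _) (hu1 _) (hu1 _) (hu1 _) (hu1 _) (hcap i0) (hcap i1) (hcap i2) (hcap i3) (hmin' i1)
    (hmin' i2) (hmin' i3) (by linarith)
  have B2 := claimB (u i0) (u i2) (u i1) (u i3) _ _ _ _ (by linarith) (hu0 _) (hu0 _) (hu0 _)
    (hu0 _) (hu1 _) (hu1 _) (hu1 _) (hu1 _) (hcap i0) (hcap i2) (hcap i1) (hcap i3) (hmin' i2)
    (hmin' i1) (hmin' i3) (by linarith)
  have B3 := claimB (u i0) (u i3) (u i1) (u i2) _ _ _ _ (by linarith) (hu0 _) (hu0 _) (hu0 _)
    (hu0 _) (hu1 _) (hu1 _) (hu1 _) (hu1 _) (hcap i0) (hcap i3) (hcap i1) (hcap i2) (hmin' i3)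
    (hmin' i1) (hmin' i2) (by linarith)
  have D1 := inner_D h i0 i1 i2 i3 hsumE hsumr
  have D2 := inner_D h i0 i2 i1 i3 (fun f => by rw [hsumE]; abel) (fun f => by rw [hsumr]; ring)
  have D3 := inner_D h i0 i3 i1 i2 (fun f => by rw [hsumE]; abel) (fun f => by rw [hsumr]; ring)
  have N1 := h.neg i0 i1 h10.symm
  have N2 := h.neg i0 i2 h20.symm
  have N3 := h.neg i0 i3 h30.symm
  have neg_of : ∀ q : ℝ, 2 * Real.pi * q < 0 → q < 0 := by
    intro q hq
    by_contra hc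
    push Not at hc
    have : 0 ≤ 2 * Real.pi * q := by positivity
    linarith
  have I1 : inner ℝ (w i0 - w i2) (w i0 - w i3) < 0 := by
    rw [D1]
    have : 3 * ‖w i0‖ ^ 2 + ‖w i1‖ ^ 2 - M / 2 < 0 := by
      apply neg_of
      linarith
    linarith
  have I2 : inner ℝ (w i0 - w i1) (w i0 - w i3) < 0 := by
    rw [D2]
    have : 3 * ‖w i0‖ ^ 2 + ‖w i2‖ ^ 2 - M / 2 < 0 := by
      apply neg_of
      linarith
    linarith
  have I3 : inner ℝ (w i0 - w i1) (w i0 - w i2) < 0 := by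
    rw [D3]
    have : 3 * ‖w i0‖ ^ 2 + ‖w i3‖ ^ 2 - M / 2 < 0 := by
      apply neg_of
      linarith
    linarith
  have I1' : inner ℝ (w i0 - w i3) (w i0 - w i2) < 0 := by rw [real_inner_comm]; exact I1
  have I2' : inner ℝ (w i0 - w i3) (w i0 - w i1) < 0 := by rw [real_inner_comm]; exact I2
  have I3' : inner ℝ (w i0 - w i2) (w i0 - w i1) < 0 := by rw [real_inner_comm]; exact I3
  have F1 := fo_ineq h i0 i1 i2 i3 h10 h20 h30 h12.symm h13.symm (fun x hx0 hx1 => by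
    rcases hall x with e | e | e | e
    · exact absurd e hx0
    · exact absurd e hx1
    · exact Or.inl e
    · exact Or.inr e) I1 I3' I2'
  have F2 := fo_ineq h i0 i2 i1 i3 h20 h10 h30 h12 h23.symm (fun x hx0 hx1 => by
    rcases hall x with e | e | e | e
    · exact absurd e hx0
    · exact Or.inl e
    · exact absurd e hx1
    · exact Or.inr e) I2 I3 I1'
  have F3 := fo_ineq h i0 i3 i1 i2 h30 h10 h20 h13 h23 (fun x hx0 hx1 => by
    rcases hall x with e | e | e | e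
    · exact absurd e hx0
    · exact Or.inl e
    · exact Or.inr e
    · exact absurd e hx1) I3 I2 I1
  set r : ℝ := Real.sqrt (2 * Real.pi) with hr
  have hr2 : r * r = 2 * Real.pi := Real.mul_self_sqrt (by positivity)
  have hr0 : 0 ≤ r := Real.sqrt_nonneg _
  have hzero := Alg.sum_zero h
  rw [hsumE] at hzero
  have hin : inner ℝ (w i0) (w i1) + inner ℝ (w i0) (w i2) + inner ℝ (w i0) (w i3) =
      -‖w i0‖ ^ 2 := by
    rw [← inner_add_right, ← inner_add_right]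
    have : w i1 + w i2 + w i3 = -w i0 := by
      rw [eq_neg_iff_add_eq_zero, ← hzero]; abel
    rw [this, inner_neg_right, real_inner_self_eq_norm_sq]
  have sq1 : (r * ‖w i0 - w i1‖) ^ 2 = 2 * Real.pi * (‖w i0‖ ^ 2 - 2 * inner ℝ (w i0) (w i1) +
      ‖w i1‖ ^ 2) := by
    rw [mul_pow, sq r, hr2, norm_sub_sq_real]
  have sq2 : (r * ‖w i0 - w i2‖) ^ 2 = 2 * Real.pi * (‖w i0‖ ^ 2 - 2 * inner ℝ (w i0) (w i2) +
      ‖w i2‖ ^ 2) := by
    rw [mul_pow, sq r, hr2, norm_sub_sq_real]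
  have sq3 : (r * ‖w i0 - w i3‖) ^ 2 = 2 * Real.pi * (‖w i0‖ ^ 2 - 2 * inner ℝ (w i0) (w i3) +
      ‖w i3‖ ^ 2) := by
    rw [mul_pow, sq r, hr2, norm_sub_sq_real]
  apply final_num (2 * Real.pi * M) (2 * Real.pi * ‖w i0‖ ^ 2) (r * ‖w i0 - w i1‖)
    (r * ‖w i0 - w i2‖) (r * ‖w i0 - w i3‖)
    (2 * Real.pi * -inner ℝ (w i0 - w i2) (w i0 - w i3))
    (2 * Real.pi * -inner ℝ (w i0 - w i1) (w i0 - w i3))
    (2 * Real.pi * -inner ℝ (w i0 - w i1) (w i0 - w i2)) hT (by positivity) (by positivity)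
    (by positivity) F1.1 F2.1 F3.1
  · rw [sq1, sq2, sq3]
    linear_combination (2 * Real.pi) * hss - (4 * Real.pi) * hin
  · rw [D1, D2, D3]
    linear_combination (-(2 * Real.pi)) * hss - (4 * Real.pi) * hin
  · have := mul_le_mul_of_nonneg_left F1.2 (by positivity : 0 ≤ 2 * Real.pi)
    calc _ ≤ _ := this
      _ = _ := by rw [← hr2]; ring
  · have := mul_le_mul_of_nonneg_left F2.2 (by positivity : 0 ≤ 2 * Real.pi)
    calc _ ≤ _ := this
      _ = _ := by rw [← hr2]; ring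
  · have := mul_le_mul_of_nonneg_left F3.2 (by positivity : 0 ≤ 2 * Real.pi)
    calc _ ≤ _ := this
      _ = _ := by rw [← hr2]; ring
  · positivity

end FO

/-- **`M(d,4) ≤ 9/(8π)`** -/
theorem bd_four (n : ℕ) : Bd n (Fin 4) (9 / (8 * Real.pi)) := by
  have hpi := Real.pi_pos
  have hC : 0 < 9 / (8 * Real.pi) := by positivity
  apply bd_of_bd n 3 4 (by norm_num) _ hC.le
  by_contra hno
  have : NeZero (4 - 1) := ⟨by norm_num⟩
  obtain ⟨M, w, hM, h⟩ := exists_opt 3 4 (by norm_num) _ hC (bd_three 3) hno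
  exact FO.opt4_false M hM w h

end Vale.Agent.Propeller
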