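import Vale.Agent.Propeller.Num10a

/-!
# P226, part NUM10: no half-space data with at least ten cells
-/

namespace Vale.Agent.Propeller

open MeasureTheory ProbabilityTheory Finset Vale.Agent.Propeller.HalfPoly

/-- Part NUM10 -/
theorem num10 (k : ℕ) (hk : 10 ≤ k) (t p : ℕ → ℝ) (hd : Data k t p) (hc : HalfIneq k t p) :
    False := by
  obtain ⟨m, rfl⟩ : ∃ m, k = m + 10 := ⟨k - 10, by omega⟩
  have hH : ∀ i < m + 10, HT (t i) (p i) := fun i hi =>
    ht_of (hd.nonneg i hi) (hd.pnonneg i hi) (hc i hi)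
  have hk1 : m + 10 - 1 = m + 9 := by omega
  have hIco : ∀ b ≤ m + 9, ∑ i ∈ Finset.Ico b (m + 9), t i =
      ∑ i ∈ Finset.range (m + 9), t i - ∑ i ∈ Finset.range b, t i := fun b hb =>
    Finset.sum_Ico_eq_sub _ hb
  have hR1 : ∑ i ∈ Finset.Ico 5 (m + 5), t i =
      ∑ i ∈ Finset.range (m + 5), t i - ∑ i ∈ Finset.range 5, t i :=
    Finset.sum_Ico_eq_sub _ (by omega)
  have hR2 : ∑ i ∈ Finset.Ico 5 (m + 5), p i =
      ∑ i ∈ Finset.range (m + 5), p i - ∑ i ∈ Finset.range 5, p i :=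
    Finset.sum_Ico_eq_sub _ (by omega)
  have hs9 : ∑ i ∈ Finset.range (m + 9), t i = ∑ i ∈ Finset.range (m + 5), t i + t (m + 5)
      + t (m + 6) + t (m + 7) + t (m + 8) := by
    rw [Finset.sum_range_succ, Finset.sum_range_succ, Finset.sum_range_succ,
      Finset.sum_range_succ]
  have hs10 : ∑ i ∈ Finset.range (m + 10), t i = ∑ i ∈ Finset.range (m + 5), t i + t (m + 5)
      + t (m + 6) + t (m + 7) + t (m + 8) + t (m + 9) := by
    rw [Finset.sum_range_succ, hs9]
  have hp10 : ∑ i ∈ Finset.range (m + 10), p i = ∑ i ∈ Finset.range (m + 5), p i + p (m + 5)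
      + p (m + 6) + p (m + 7) + p (m + 8) + p (m + 9) := by
    rw [Finset.sum_range_succ, Finset.sum_range_succ, Finset.sum_range_succ,
      Finset.sum_range_succ, Finset.sum_range_succ]
  have r3 : ∑ i ∈ Finset.range 3, t i = t 0 + t 1 + t 2 := by
    simp [Finset.sum_range_succ]
  have r4 : ∑ i ∈ Finset.range 4, t i = t 0 + t 1 + t 2 + t 3 := by
    simp [Finset.sum_range_succ]
  have r5 : ∑ i ∈ Finset.range 5, t i = t 0 + t 1 + t 2 + t 3 + t 4 := by
    simp [Finset.sum_range_succ]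
  have r5p : ∑ i ∈ Finset.range 5, p i = p 0 + p 1 + p 2 + p 3 + p 4 := by
    simp [Finset.sum_range_succ]
  have k3 := hd.cons 3 (by norm_num) (by omega)
  have k4 := hd.cons 4 (by norm_num) (by omega)
  have k5 := hd.cons 5 (by norm_num) (by omega)
  have kd := hd.cons3
  have ks := hd.tsum
  have kp := hd.psum
  rw [hk1, hIco 3 (by omega), r3] at k3 kd
  rw [hk1, hIco 4 (by omega), r4] at k4
  rw [hk1, hIco 5 (by omega), r5] at k5
  rw [hs10] at ks
  rw [hp10] at kp
  rw [r5] at hR1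
  rw [r5p] at hR2
  rw [hs9] at k3 k4 k5 kd
  push_cast at k3 k4 k5
  refine Num10.core (t 0) (t 1) (t 2) (t 3) (t 4) (t (m + 5)) (t (m + 6)) (t (m + 7)) (t (m + 8))
    (t (m + 9)) (∑ i ∈ Finset.Ico 5 (m + 5), t i) (p 0) (p 1) (p 2) (p 3) (p 4) (p (m + 5))
    (p (m + 6)) (p (m + 7)) (p (m + 8)) (p (m + 9)) (∑ i ∈ Finset.Ico 5 (m + 5), p i)
    (hH _ (by omega)) (hH _ (by omega)) (hH _ (by omega)) (hH _ (by omega)) (hH _ (by omega))
    (hH _ (by omega)) (hH _ (by omega)) (hH _ (by omega)) (hH _ (by omega)) (hH _ (by omega))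
    (hd.anti _ _ (by omega) (by omega)) (hd.anti _ _ (by omega) (by omega))
    (hd.anti _ _ (by omega) (by omega)) (hd.anti _ _ (by omega) (by omega))
    (hd.anti _ _ (by omega) (by omega)) (hd.anti _ _ (by omega) (by omega))
    (hd.anti _ _ (by omega) (by omega)) (hd.anti _ _ (by omega) (by omega))
    (hd.anti _ _ (by omega) (by omega)) ?_ ?_ ?_ ?_ ?_ ?_ ?_ ?_
  · exact Finset.sum_nonneg fun i hi => hd.nonneg i (by rw [Finset.mem_Ico] at hi; omega)
  · intro lam T h hT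
    rw [Finset.mul_sum]
    refine Finset.sum_le_sum fun i hi => ?_
    rw [Finset.mem_Ico] at hi
    exact h _ _ (hH i (by omega)) ((hd.anti 4 i (by omega) (by omega)).trans hT)
  · linarith
  · linarith
  · linarith
  · linarith
  · linarith
  · linarith

end Vale.Agent.Propeller
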