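import Vale.Agent.Propeller.Cap4

/-!
# P226, part NUM5: the numerical contradiction for `k = 5` in dimension `4`
-/

namespace Vale.Agent.Propeller.Num5

open MeasureTheory ProbabilityTheory Finset Vale.Agent.Propeller Vale.Agent.Propeller.Cap4

/-- the cap inequalities for one cell -/
def CapT (t p : ℝ) : Prop := ∃ y : ℝ, 0 ≤ y ∧ t = y ^ 2 ∧ 0 ≤ p ∧ CapH y p

lemma capT_of {t p : ℕ → ℝ} (hd : Data 5 t p) (hc : CapIneq 4 5 t p) (i : ℕ) (hi : i < 5) :
    CapT (t i) (p i) :=
  ⟨√(t i), Real.sqrt_nonneg _, (Real.sq_sqrt (hd.nonneg i hi)).symm, hd.pnonneg i hi,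
    fun θ h0 h1 => by
      have hpi := Real.pi_gt_d6
      have h2 : 0 ≤ Real.cos θ := Real.cos_nonneg_of_mem_Icc ⟨by linarith, by linarith⟩
      have h3 : Real.cos θ < 1 := by
        rw [← Real.cos_zero]
        exact Real.cos_lt_cos_of_nonneg_of_le_pi_div_two le_rfl (by linarith) h0
      have := hc i hi (Real.cos θ) h2 h3
      rwa [capA4 h0.le (by linarith), capB4] at this⟩

lemma t_le_one {t p : ℕ → ℝ} (hd : Data 5 t p) (hc : CapIneq 4 5 t p) : t 0 ≤ 1 := by
  have := hc 0 (by norm_num) 0 le_rfl (by norm_num)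
  have h1 := capA4 (θ := Real.pi / 2) (by positivity) (by linarith [Real.pi_pos])
  rw [Real.cos_pi_div_two, Real.sin_pi_div_two] at h1
  rw [h1, capB4] at this
  norm_num at this
  have h0 := hd.nonneg 0 (by norm_num)
  nlinarith [Real.sq_sqrt h0, Real.sqrt_nonneg (t 0)]

/-! ### cap lines -/

lemma cl14 {y p : ℝ} (hp : 0 ≤ p) (H : CapH y p) : y ≤ (7/200000) + (4640417/1000000) * p :=
  H.line hp ((7/40)) (7/200000) (4640417/1000000) (by norm_num) (by norm_num) (by norm_num [trigA, sU, cU, cL]) (by norm_num [trigB, cU])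

lemma cl36 {y p : ℝ} (hp : 0 ≤ p) (H : CapH y p) : y ≤ (1751/500000) + (212163/50000) * p :=
  H.line hp ((9/20)) (1751/500000) (212163/50000) (by norm_num) (by norm_num) (by norm_num [trigA, sU, cU, cL]) (by norm_num [trigB, cU])

lemma cl43 {y p : ℝ} (hp : 0 ≤ p) (H : CapH y p) : y ≤ (8321/1000000) + (126497/31250) * p :=
  H.line hp ((43/80)) (8321/1000000) (126497/31250) (by norm_num) (by norm_num) (by norm_num [trigA, sU, cU, cL]) (by norm_num [trigB, cU])

lemma cl45 {y p : ℝ} (hp : 0 ≤ p) (H : CapH y p) : y ≤ (10369/1000000) + (498291/125000) * p :=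
  H.line hp ((9/16)) (10369/1000000) (498291/125000) (by norm_num) (by norm_num) (by norm_num [trigA, sU, cU, cL]) (by norm_num [trigB, cU])

lemma cl50 {y p : ℝ} (hp : 0 ≤ p) (H : CapH y p) : y ≤ (861/50000) + (477697/125000) * p :=
  H.line hp ((5/8)) (861/50000) (477697/125000) (by norm_num) (by norm_num) (by norm_num [trigA, sU, cU, cL]) (by norm_num [trigB, cU])

lemma cl52 {y p : ℝ} (hp : 0 ≤ p) (H : CapH y p) : y ≤ (831/40000) + (3751459/1000000) * p :=
  H.line hp ((13/20)) (831/40000) (3751459/1000000) (by norm_num) (by norm_num) (by norm_num [trigA, sU, cU, cL]) (by norm_num [trigB, cU])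

lemma cl53 {y p : ℝ} (hp : 0 ≤ p) (H : CapH y p) : y ≤ (22753/1000000) + (1857759/500000) * p :=
  H.line hp ((53/80)) (22753/1000000) (1857759/500000) (by norm_num) (by norm_num) (by norm_num [trigA, sU, cU, cL]) (by norm_num [trigB, cU])

lemma cl56 {y p : ℝ} (hp : 0 ≤ p) (H : CapH y p) : y ≤ (7391/250000) + (901059/250000) * p :=
  H.line hp ((7/10)) (7391/250000) (901059/250000) (by norm_num) (by norm_num) (by norm_num [trigA, sU, cU, cL]) (by norm_num [trigB, cU])

lemma cl63 {y p : ℝ} (hp : 0 ≤ p) (H : CapH y p) : y ≤ (10297/200000) + (1662577/500000) * p :=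
  H.line hp ((63/80)) (10297/200000) (1662577/500000) (by norm_num) (by norm_num) (by norm_num [trigA, sU, cU, cL]) (by norm_num [trigB, cU])

lemma cl74 {y p : ℝ} (hp : 0 ≤ p) (H : CapH y p) : y ≤ (10821/100000) + (2836081/1000000) * p :=
  H.line hp ((37/40)) (10821/100000) (2836081/1000000) (by norm_num) (by norm_num) (by norm_num [trigA, sU, cU, cL]) (by norm_num [trigB, cU])

lemma cl76 {y p : ℝ} (hp : 0 ≤ p) (H : CapH y p) : y ≤ (122131/1000000) + (2741119/1000000) * p :=
  H.line hp ((19/20)) (122131/1000000) (2741119/1000000) (by norm_num) (by norm_num) (by norm_num [trigA, sU, cU, cL]) (by norm_num [trigB, cU])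

lemma cl85 {y p : ℝ} (hp : 0 ≤ p) (H : CapH y p) : y ≤ (6293/31250) + (1146737/500000) * p :=
  H.line hp ((17/16)) (6293/31250) (1146737/500000) (by norm_num) (by norm_num) (by norm_num [trigA, sU, cU, cL]) (by norm_num [trigB, cU])

lemma cl86 {y p : ℝ} (hp : 0 ≤ p) (H : CapH y p) : y ≤ (212009/1000000) + (1120919/500000) * p :=
  H.line hp ((43/40)) (212009/1000000) (1120919/500000) (by norm_num) (by norm_num) (by norm_num [trigA, sU, cU, cL]) (by norm_num [trigB, cU])

lemma cl87 {y p : ℝ} (hp : 0 ≤ p) (H : CapH y p) : y ≤ (44607/200000) + (547463/250000) * p :=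
  H.line hp ((87/80)) (44607/200000) (547463/250000) (by norm_num) (by norm_num) (by norm_num [trigA, sU, cU, cL]) (by norm_num [trigB, cU])

lemma cl91 {y p : ℝ} (hp : 0 ≤ p) (H : CapH y p) : y ≤ (33899/125000) + (1978569/1000000) * p :=
  H.line hp ((91/80)) (33899/125000) (1978569/1000000) (by norm_num) (by norm_num) (by norm_num [trigA, sU, cU, cL]) (by norm_num [trigB, cU])

lemma cl93 {y p : ℝ} (hp : 0 ≤ p) (H : CapH y p) : y ≤ (59559/200000) + (1871039/1000000) * p :=
  H.line hp ((93/80)) (59559/200000) (1871039/1000000) (by norm_num) (by norm_num) (by norm_num [trigA, sU, cU, cL]) (by norm_num [trigB, cU])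

lemma cl94 {y p : ℝ} (hp : 0 ≤ p) (H : CapH y p) : y ≤ (311749/1000000) + (1816831/1000000) * p :=
  H.line hp ((47/40)) (311749/1000000) (1816831/1000000) (by norm_num) (by norm_num) (by norm_num [trigA, sU, cU, cL]) (by norm_num [trigB, cU])

lemma cl95 {y p : ℝ} (hp : 0 ≤ p) (H : CapH y p) : y ≤ (5096/15625) + (88117/50000) * p :=
  H.line hp ((19/16)) (5096/15625) (88117/50000) (by norm_num) (by norm_num) (by norm_num [trigA, sU, cU, cL]) (by norm_num [trigB, cU])

lemma cl96 {y p : ℝ} (hp : 0 ≤ p) (H : CapH y p) : y ≤ (340987/1000000) + (1707573/1000000) * p :=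
  H.line hp ((6/5)) (340987/1000000) (1707573/1000000) (by norm_num) (by norm_num) (by norm_num [trigA, sU, cU, cL]) (by norm_num [trigB, cU])

lemma cl97 {y p : ℝ} (hp : 0 ≤ p) (H : CapH y p) : y ≤ (356283/1000000) + (82627/50000) * p :=
  H.line hp ((97/80)) (356283/1000000) (82627/50000) (by norm_num) (by norm_num) (by norm_num [trigA, sU, cU, cL]) (by norm_num [trigB, cU])

lemma cl98 {y p : ℝ} (hp : 0 ≤ p) (H : CapH y p) : y ≤ (372037/1000000) + (24957/15625) * p :=
  H.line hp ((49/40)) (372037/1000000) (24957/15625) (by norm_num) (by norm_num) (by norm_num [trigA, sU, cU, cL]) (by norm_num [trigB, cU])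

lemma cl99 {y p : ℝ} (hp : 0 ≤ p) (H : CapH y p) : y ≤ (388253/1000000) + (770853/500000) * p :=
  H.line hp ((99/80)) (388253/1000000) (770853/500000) (by norm_num) (by norm_num) (by norm_num [trigA, sU, cU, cL]) (by norm_num [trigB, cU])

lemma cl100 {y p : ℝ} (hp : 0 ≤ p) (H : CapH y p) : y ≤ (50617/125000) + (371481/250000) * p :=
  H.line hp ((5/4)) (50617/125000) (371481/250000) (by norm_num) (by norm_num) (by norm_num [trigA, sU, cU, cL]) (by norm_num [trigB, cU])

lemma cl101 {y p : ℝ} (hp : 0 ≤ p) (H : CapH y p) : y ≤ (422089/1000000) + (142991/100000) * p :=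
  H.line hp ((101/80)) (422089/1000000) (142991/100000) (by norm_num) (by norm_num) (by norm_num [trigA, sU, cU, cL]) (by norm_num [trigB, cU])

lemma cl102 {y p : ℝ} (hp : 0 ≤ p) (H : CapH y p) : y ≤ (439717/1000000) + (171709/125000) * p :=
  H.line hp ((51/40)) (439717/1000000) (171709/125000) (by norm_num) (by norm_num) (by norm_num [trigA, sU, cU, cL]) (by norm_num [trigB, cU])

lemma cl103 {y p : ℝ} (hp : 0 ≤ p) (H : CapH y p) : y ≤ (14307/31250) + (1317219/1000000) * p :=
  H.line hp ((103/80)) (14307/31250) (1317219/1000000) (by norm_num) (by norm_num) (by norm_num [trigA, sU, cU, cL]) (by norm_num [trigB, cU])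

lemma cl104 {y p : ℝ} (hp : 0 ≤ p) (H : CapH y p) : y ≤ (119103/250000) + (1260561/1000000) * p :=
  H.line hp ((13/10)) (119103/250000) (1260561/1000000) (by norm_num) (by norm_num) (by norm_num [trigA, sU, cU, cL]) (by norm_num [trigB, cU])

lemma cl105 {y p : ℝ} (hp : 0 ≤ p) (H : CapH y p) : y ≤ (99097/200000) + (601853/500000) * p :=
  H.line hp ((21/16)) (99097/200000) (601853/500000) (by norm_num) (by norm_num) (by norm_num [trigA, sU, cU, cL]) (by norm_num [trigB, cU])

lemma cl106 {y p : ℝ} (hp : 0 ≤ p) (H : CapH y p) : y ≤ (103009/200000) + (573331/500000) * p :=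
  H.line hp ((53/40)) (103009/200000) (573331/500000) (by norm_num) (by norm_num) (by norm_num [trigA, sU, cU, cL]) (by norm_num [trigB, cU])

lemma cl107 {y p : ℝ} (hp : 0 ≤ p) (H : CapH y p) : y ≤ (107019/200000) + (6809/6250) * p :=
  H.line hp ((107/80)) (107019/200000) (6809/6250) (by norm_num) (by norm_num) (by norm_num [trigA, sU, cU, cL]) (by norm_num [trigB, cU])

lemma cl110 {y p : ℝ} (hp : 0 ≤ p) (H : CapH y p) : y ≤ (149551/250000) + (916787/1000000) * p :=
  H.line hp ((11/8)) (149551/250000) (916787/1000000) (by norm_num) (by norm_num) (by norm_num [trigA, sU, cU, cL]) (by norm_num [trigB, cU])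

lemma cl111 {y p : ℝ} (hp : 0 ≤ p) (H : CapH y p) : y ≤ (620231/1000000) + (858937/1000000) * p :=
  H.line hp ((111/80)) (620231/1000000) (858937/1000000) (by norm_num) (by norm_num) (by norm_num [trigA, sU, cU, cL]) (by norm_num [trigB, cU])

lemma cl112 {y p : ℝ} (hp : 0 ≤ p) (H : CapH y p) : y ≤ (128551/200000) + (400477/500000) * p :=
  H.line hp ((7/5)) (128551/200000) (400477/500000) (by norm_num) (by norm_num) (by norm_num [trigA, sU, cU, cL]) (by norm_num [trigB, cU])

lemma cl113 {y p : ℝ} (hp : 0 ≤ p) (H : CapH y p) : y ≤ (332889/500000) + (148569/200000) * p :=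
  H.line hp ((113/80)) (332889/500000) (148569/200000) (by norm_num) (by norm_num) (by norm_num [trigA, sU, cU, cL]) (by norm_num [trigB, cU])

lemma cl114 {y p : ℝ} (hp : 0 ≤ p) (H : CapH y p) : y ≤ (689297/1000000) + (34231/50000) * p :=
  H.line hp ((57/40)) (689297/1000000) (34231/50000) (by norm_num) (by norm_num) (by norm_num [trigA, sU, cU, cL]) (by norm_num [trigB, cU])

/-! ### minorants -/

lemma ln0 {t p : ℝ} (h : CapT t p) (h1 : (729/15625) ≤ t) (h2 : t ≤ 1) :
    (7/200) + (73/200) * t ≤ p := by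
  obtain ⟨y, hy, ht, hp, H⟩ := h
  have e1 : (27/125) ≤ y := by nlinarith
  have e2 : y ≤ 1 := by nlinarith
  rw [ht]
  rcases le_total y (257/500) with g0 | g0
  · nlinarith [cl52 hp H, mul_nonneg (sub_nonneg.2 e1) (sub_nonneg.2 g0)]
  ·
    rcases le_total y (753/1000) with g1 | g1
    · nlinarith [cl87 hp H, mul_nonneg (sub_nonneg.2 g0) (sub_nonneg.2 g1)]
    ·
      rcases le_total y (813/1000) with g2 | g2
      · nlinarith [cl95 hp H, mul_nonneg (sub_nonneg.2 g1) (sub_nonneg.2 g2)]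
      ·
        rcases le_total y (853/1000) with g3 | g3
        · nlinarith [cl97 hp H, mul_nonneg (sub_nonneg.2 g2) (sub_nonneg.2 g3)]
        ·
          nlinarith [cl100 hp H, mul_nonneg (sub_nonneg.2 g3) (sub_nonneg.2 e2)]

lemma ln1 {t p : ℝ} (h : CapT t p) (h1 : 0 ≤ t) (h2 : t ≤ 1) :
    (-11/12500) + (83/200) * t ≤ p := by
  obtain ⟨y, hy, ht, hp, H⟩ := h
  have e1 : 0 ≤ y := hy
  have e2 : y ≤ 1 := by nlinarith
  rw [ht]
  rcases le_total y (71/125) with g0 | g0
  · nlinarith [cl36 hp H, mul_nonneg (sub_nonneg.2 e1) (sub_nonneg.2 g0)]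
  ·
    rcases le_total y (837/1000) with g1 | g1
    · nlinarith [cl95 hp H, mul_nonneg (sub_nonneg.2 g0) (sub_nonneg.2 g1)]
    ·
      rcases le_total y (87/100) with g2 | g2
      · nlinarith [cl101 hp H, mul_nonneg (sub_nonneg.2 g1) (sub_nonneg.2 g2)]
      ·
        rcases le_total y (221/250) with g3 | g3
        · nlinarith [cl102 hp H, mul_nonneg (sub_nonneg.2 g2) (sub_nonneg.2 g3)]
        ·
          rcases le_total y (949/1000) with g4 | g4
          · nlinarith [cl103 hp H, mul_nonneg (sub_nonneg.2 g3) (sub_nonneg.2 g4)]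
          ·
            nlinarith [cl104 hp H, mul_nonneg (sub_nonneg.2 g4) (sub_nonneg.2 e2)]

lemma ln2 {t p : ℝ} (h : CapT t p) (h1 : 0 ≤ t) (h2 : t ≤ (5329/250000)) :
    (-1/100000) + (319/200) * t ≤ p := by
  obtain ⟨y, hy, ht, hp, H⟩ := h
  have e1 : 0 ≤ y := hy
  have e2 : y ≤ (73/500) := by nlinarith
  rw [ht]
  rcases le_total y (27/200) with g0 | g0
  · nlinarith [cl14 hp H, mul_nonneg (sub_nonneg.2 e1) (sub_nonneg.2 g0)]
  ·
    nlinarith [cl43 hp H, mul_nonneg (sub_nonneg.2 g0) (sub_nonneg.2 e2)]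

lemma ln3 {t p : ℝ} (h : CapT t p) (h1 : (729/15625) ≤ t) (h2 : t ≤ 1) :
    (-203/1000) + (13/20) * t ≤ p := by
  obtain ⟨y, hy, ht, hp, H⟩ := h
  have e1 : (27/125) ≤ y := by nlinarith
  have e2 : y ≤ 1 := by nlinarith
  rw [ht]
  rcases le_total y (37/40) with g0 | g0
  · nlinarith [cl102 hp H, mul_nonneg (sub_nonneg.2 e1) (sub_nonneg.2 g0)]
  ·
    rcases le_total y (477/500) with g1 | g1
    · nlinarith [cl111 hp H, mul_nonneg (sub_nonneg.2 g0) (sub_nonneg.2 g1)]
    ·
      rcases le_total y (121/125) with g2 | g2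
      · nlinarith [cl112 hp H, mul_nonneg (sub_nonneg.2 g1) (sub_nonneg.2 g2)]
      ·
        nlinarith [cl113 hp H, mul_nonneg (sub_nonneg.2 g2) (sub_nonneg.2 e2)]

lemma ln4 {t p : ℝ} (h : CapT t p) (h1 : (729/15625) ≤ t) (h2 : t ≤ 1) :
    (-8331/50000) + (61/100) * t ≤ p := by
  obtain ⟨y, hy, ht, hp, H⟩ := h
  have e1 : (27/125) ≤ y := by nlinarith
  have e2 : y ≤ 1 := by nlinarith
  rw [ht]
  rcases le_total y (913/1000) with g0 | g0
  · nlinarith [cl100 hp H, mul_nonneg (sub_nonneg.2 e1) (sub_nonneg.2 g0)]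
  ·
    rcases le_total y (947/1000) with g1 | g1
    · nlinarith [cl110 hp H, mul_nonneg (sub_nonneg.2 g0) (sub_nonneg.2 g1)]
    ·
      rcases le_total y (961/1000) with g2 | g2
      · nlinarith [cl111 hp H, mul_nonneg (sub_nonneg.2 g1) (sub_nonneg.2 g2)]
      ·
        nlinarith [cl112 hp H, mul_nonneg (sub_nonneg.2 g2) (sub_nonneg.2 e2)]

lemma ln5 {t p : ℝ} (h : CapT t p) (h1 : (729/15625) ≤ t) (h2 : t ≤ 1) :
    (-23983/100000) + (69/100) * t ≤ p := by
  obtain ⟨y, hy, ht, hp, H⟩ := h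
  have e1 : (27/125) ≤ y := by nlinarith
  have e2 : y ≤ 1 := by nlinarith
  rw [ht]
  rcases le_total y (187/200) with g0 | g0
  · nlinarith [cl104 hp H, mul_nonneg (sub_nonneg.2 e1) (sub_nonneg.2 g0)]
  ·
    rcases le_total y (24/25) with g1 | g1
    · nlinarith [cl112 hp H, mul_nonneg (sub_nonneg.2 g0) (sub_nonneg.2 g1)]
    ·
      rcases le_total y (991/1000) with g2 | g2
      · nlinarith [cl113 hp H, mul_nonneg (sub_nonneg.2 g1) (sub_nonneg.2 g2)]
      ·
        nlinarith [cl114 hp H, mul_nonneg (sub_nonneg.2 g2) (sub_nonneg.2 e2)]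

lemma ln6 {t p : ℝ} (h : CapT t p) (h1 : (5329/250000) ≤ t) (h2 : t ≤ 1) :
    (1243/50000) + (19/50) * t ≤ p := by
  obtain ⟨y, hy, ht, hp, H⟩ := h
  have e1 : (73/500) ≤ y := by nlinarith
  have e2 : y ≤ 1 := by nlinarith
  rw [ht]
  rcases le_total y (563/1000) with g0 | g0
  · nlinarith [cl53 hp H, mul_nonneg (sub_nonneg.2 e1) (sub_nonneg.2 g0)]
  ·
    rcases le_total y (99/125) with g1 | g1
    · nlinarith [cl91 hp H, mul_nonneg (sub_nonneg.2 g0) (sub_nonneg.2 g1)]
    ·
      rcases le_total y (83/100) with g2 | g2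
      · nlinarith [cl97 hp H, mul_nonneg (sub_nonneg.2 g1) (sub_nonneg.2 g2)]
      ·
        rcases le_total y (839/1000) with g3 | g3
        · nlinarith [cl98 hp H, mul_nonneg (sub_nonneg.2 g2) (sub_nonneg.2 g3)]
        ·
          rcases le_total y (869/1000) with g4 | g4
          · nlinarith [cl99 hp H, mul_nonneg (sub_nonneg.2 g3) (sub_nonneg.2 g4)]
          ·
            nlinarith [cl102 hp H, mul_nonneg (sub_nonneg.2 g4) (sub_nonneg.2 e2)]

lemma ln7 {t p : ℝ} (h : CapT t p) (h1 : (5329/250000) ≤ t) (h2 : t ≤ (83521/1000000)) :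
    (1051/50000) + (61/100) * t ≤ p := by
  obtain ⟨y, hy, ht, hp, H⟩ := h
  have e1 : (73/500) ≤ y := by nlinarith
  have e2 : y ≤ (289/1000) := by nlinarith
  rw [ht]
  rcases le_total y (53/200) with g0 | g0
  · nlinarith [cl45 hp H, mul_nonneg (sub_nonneg.2 e1) (sub_nonneg.2 g0)]
  ·
    nlinarith [cl56 hp H, mul_nonneg (sub_nonneg.2 g0) (sub_nonneg.2 e2)]

lemma ln8 {t p : ℝ} (h : CapT t p) (h1 : (5329/250000) ≤ t) (h2 : t ≤ 1) :
    (-457/12500) + (23/50) * t ≤ p := by
  obtain ⟨y, hy, ht, hp, H⟩ := h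
  have e1 : (73/500) ≤ y := by nlinarith
  have e2 : y ≤ 1 := by nlinarith
  rw [ht]
  rcases le_total y (81/100) with g0 | g0
  · nlinarith [cl85 hp H, mul_nonneg (sub_nonneg.2 e1) (sub_nonneg.2 g0)]
  ·
    rcases le_total y (447/500) with g1 | g1
    · nlinarith [cl103 hp H, mul_nonneg (sub_nonneg.2 g0) (sub_nonneg.2 g1)]
    ·
      rcases le_total y (899/1000) with g2 | g2
      · nlinarith [cl104 hp H, mul_nonneg (sub_nonneg.2 g1) (sub_nonneg.2 g2)]
      ·
        rcases le_total y (909/1000) with g3 | g3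
        · nlinarith [cl105 hp H, mul_nonneg (sub_nonneg.2 g2) (sub_nonneg.2 g3)]
        ·
          rcases le_total y (987/1000) with g4 | g4
          · nlinarith [cl106 hp H, mul_nonneg (sub_nonneg.2 g3) (sub_nonneg.2 g4)]
          ·
            nlinarith [cl107 hp H, mul_nonneg (sub_nonneg.2 g4) (sub_nonneg.2 e2)]

lemma ln9 {t p : ℝ} (h : CapT t p) (h1 : (5329/250000) ≤ t) (h2 : t ≤ 1) :
    (-4481/100000) + (47/100) * t ≤ p := by
  obtain ⟨y, hy, ht, hp, H⟩ := h
  have e1 : (73/500) ≤ y := by nlinarith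
  have e2 : y ≤ 1 := by nlinarith
  rw [ht]
  rcases le_total y (819/1000) with g0 | g0
  · nlinarith [cl86 hp H, mul_nonneg (sub_nonneg.2 e1) (sub_nonneg.2 g0)]
  ·
    rcases le_total y (451/500) with g1 | g1
    · nlinarith [cl104 hp H, mul_nonneg (sub_nonneg.2 g0) (sub_nonneg.2 g1)]
    ·
      rcases le_total y (227/250) with g2 | g2
      · nlinarith [cl105 hp H, mul_nonneg (sub_nonneg.2 g1) (sub_nonneg.2 g2)]
      ·
        rcases le_total y (947/1000) with g3 | g3
        · nlinarith [cl106 hp H, mul_nonneg (sub_nonneg.2 g2) (sub_nonneg.2 g3)]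
        ·
          nlinarith [cl107 hp H, mul_nonneg (sub_nonneg.2 g3) (sub_nonneg.2 e2)]

lemma ln10 {t p : ℝ} (h : CapT t p) (h1 : (83521/1000000) ≤ t) (h2 : t ≤ 1) :
    (833/20000) + (71/200) * t ≤ p := by
  obtain ⟨y, hy, ht, hp, H⟩ := h
  have e1 : (289/1000) ≤ y := by nlinarith
  have e2 : y ≤ 1 := by nlinarith
  rw [ht]
  rcases le_total y (559/1000) with g0 | g0
  · nlinarith [cl63 hp H, mul_nonneg (sub_nonneg.2 e1) (sub_nonneg.2 g0)]
  ·
    rcases le_total y (37/50) with g1 | g1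
    · nlinarith [cl87 hp H, mul_nonneg (sub_nonneg.2 g0) (sub_nonneg.2 g1)]
    ·
      rcases le_total y (98/125) with g2 | g2
      · nlinarith [cl93 hp H, mul_nonneg (sub_nonneg.2 g1) (sub_nonneg.2 g2)]
      ·
        rcases le_total y (99/125) with g3 | g3
        · nlinarith [cl94 hp H, mul_nonneg (sub_nonneg.2 g2) (sub_nonneg.2 g3)]
        ·
          rcases le_total y (101/125) with g4 | g4
          · nlinarith [cl95 hp H, mul_nonneg (sub_nonneg.2 g3) (sub_nonneg.2 g4)]
          ·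
            rcases le_total y (847/1000) with g5 | g5
            · nlinarith [cl96 hp H, mul_nonneg (sub_nonneg.2 g4) (sub_nonneg.2 g5)]
            ·
              nlinarith [cl99 hp H, mul_nonneg (sub_nonneg.2 g5) (sub_nonneg.2 e2)]

lemma ln11 {t p : ℝ} (h : CapT t p) (h1 : (5329/250000) ≤ t) (h2 : t ≤ (729/15625)) :
    (59/3125) + (71/100) * t ≤ p := by
  obtain ⟨y, hy, ht, hp, H⟩ := h
  have e1 : (73/500) ≤ y := by nlinarith
  have e2 : y ≤ (27/125) := by nlinarith
  rw [ht]
  rcases le_total y (207/1000) with g0 | g0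
  · nlinarith [cl45 hp H, mul_nonneg (sub_nonneg.2 e1) (sub_nonneg.2 g0)]
  ·
    nlinarith [cl50 hp H, mul_nonneg (sub_nonneg.2 g0) (sub_nonneg.2 e2)]

lemma ln12 {t p : ℝ} (h : CapT t p) (h1 : (83521/1000000) ≤ t) (h2 : t ≤ 1) :
    (1589/50000) + (37/100) * t ≤ p := by
  obtain ⟨y, hy, ht, hp, H⟩ := h
  have e1 : (289/1000) ≤ y := by nlinarith
  have e2 : y ≤ 1 := by nlinarith
  rw [ht]
  rcases le_total y (671/1000) with g0 | g0
  · nlinarith [cl74 hp H, mul_nonneg (sub_nonneg.2 e1) (sub_nonneg.2 g0)]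
  ·
    rcases le_total y (199/250) with g1 | g1
    · nlinarith [cl93 hp H, mul_nonneg (sub_nonneg.2 g0) (sub_nonneg.2 g1)]
    ·
      rcases le_total y (817/1000) with g2 | g2
      · nlinarith [cl96 hp H, mul_nonneg (sub_nonneg.2 g1) (sub_nonneg.2 g2)]
      ·
        rcases le_total y (207/250) with g3 | g3
        · nlinarith [cl97 hp H, mul_nonneg (sub_nonneg.2 g2) (sub_nonneg.2 g3)]
        ·
          rcases le_total y (173/200) with g4 | g4
          · nlinarith [cl98 hp H, mul_nonneg (sub_nonneg.2 g3) (sub_nonneg.2 g4)]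
          ·
            nlinarith [cl101 hp H, mul_nonneg (sub_nonneg.2 g4) (sub_nonneg.2 e2)]

lemma ln13 {t p : ℝ} (h : CapT t p) (h1 : (83521/1000000) ≤ t) (h2 : t ≤ 1) :
    (709/25000) + (3/8) * t ≤ p := by
  obtain ⟨y, hy, ht, hp, H⟩ := h
  have e1 : (289/1000) ≤ y := by nlinarith
  have e2 : y ≤ 1 := by nlinarith
  rw [ht]
  rcases le_total y (691/1000) with g0 | g0
  · nlinarith [cl76 hp H, mul_nonneg (sub_nonneg.2 e1) (sub_nonneg.2 g0)]
  ·
    rcases le_total y (807/1000) with g1 | g1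
    · nlinarith [cl94 hp H, mul_nonneg (sub_nonneg.2 g0) (sub_nonneg.2 g1)]
    ·
      rcases le_total y (827/1000) with g2 | g2
      · nlinarith [cl97 hp H, mul_nonneg (sub_nonneg.2 g1) (sub_nonneg.2 g2)]
      ·
        rcases le_total y (843/1000) with g3 | g3
        · nlinarith [cl98 hp H, mul_nonneg (sub_nonneg.2 g2) (sub_nonneg.2 g3)]
        ·
          rcases le_total y (223/250) with g4 | g4
          · nlinarith [cl99 hp H, mul_nonneg (sub_nonneg.2 g3) (sub_nonneg.2 g4)]
          ·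
            nlinarith [cl101 hp H, mul_nonneg (sub_nonneg.2 g4) (sub_nonneg.2 e2)]

/-! ### tree -/

end Vale.Agent.Propeller.Num5

namespace Vale.Agent.Propeller

open MeasureTheory ProbabilityTheory Finset Num5

theorem num5 (t p : ℕ → ℝ) (hd : Data 5 t p) (hc : CapIneq 4 5 t p) : False := by
  have hC : ∀ i, i < 5 → CapT (t i) (p i) := capT_of hd hc
  have hT := hd.tsum
  have hP := hd.psum
  have c3 := hd.cons3
  have b2 := hd.cons 2 (by norm_num) (by norm_num)
  have b3 := hd.cons 3 (by norm_num) (by norm_num)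
  have b4 := hd.cons 4 (by norm_num) (by norm_num)
  simp only [Finset.sum_range_succ, Finset.sum_range_zero, Finset.sum_Ico_eq_sum_range] at hT hP c3 b2 b3 b4
  norm_num [Finset.sum_range_succ] at hT hP c3 b2 b3 b4
  have a0 := hd.anti 0 1 (by norm_num) (by norm_num)
  have a1 := hd.anti 1 2 (by norm_num) (by norm_num)
  have a2 := hd.anti 2 3 (by norm_num) (by norm_num)
  have a3 := hd.anti 3 4 (by norm_num) (by norm_num)
  have q0 := hd.pnonneg 0 (by norm_num)
  have q1 := hd.pnonneg 1 (by norm_num)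
  have q2 := hd.pnonneg 2 (by norm_num)
  have q3 := hd.pnonneg 3 (by norm_num)
  have q4 := hd.pnonneg 4 (by norm_num)
  have z := hd.nonneg 4 (by norm_num)
  have m := t_le_one hd hc
  rcases le_total (t 4) (5329/250000) with s0 | s0
  ·
    rcases le_total (t 2) (729/15625) with s1 | s1
    ·
      linarith [hT, a0, a1, a2, a3, b2, b3, b4, c3, hP, q0, q1, q2, q3, q4, z, m]
    ·
      linarith [hT, b4, c3, ln0 (hC 2 (by norm_num)) (by linarith) (by linarith), ln1 (hC 3 (by norm_num)) (by linarith) (by linarith), ln2 (hC 4 (by norm_num)) (by linarith) (by linarith), ln3 (hC 0 (by norm_num)) (by linarith) (by linarith), ln4 (hC 1 (by norm_num)) (by linarith) (by linarith), ln5 (hC 0 (by norm_num)) (by linarith) (by linarith), hP, q0, q1, q2, q3, q4]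
  ·
    rcases le_total (t 3) (83521/1000000) with s2 | s2
    ·
      linarith [hT, a3, c3, ln6 (hC 1 (by norm_num)) (by linarith) (by linarith), ln6 (hC 2 (by norm_num)) (by linarith) (by linarith), ln7 (hC 3 (by norm_num)) (by linarith) (by linarith), ln7 (hC 4 (by norm_num)) (by linarith) (by linarith), ln8 (hC 0 (by norm_num)) (by linarith) (by linarith), ln9 (hC 0 (by norm_num)) (by linarith) (by linarith), hP, q0, q1, q2, q3, q4]
    ·
      rcases le_total (t 4) (729/15625) with s3 | s3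
      ·
        linarith [hT, a0, b4, ln10 (hC 2 (by norm_num)) (by linarith) (by linarith), ln10 (hC 3 (by norm_num)) (by linarith) (by linarith), ln11 (hC 4 (by norm_num)) (by linarith) (by linarith), ln12 (hC 1 (by norm_num)) (by linarith) (by linarith), ln13 (hC 0 (by norm_num)) (by linarith) (by linarith), hP, q0, q1, q2, q3, q4]
      ·
        linarith [hT, ln10 (hC 2 (by norm_num)) (by linarith) (by linarith), ln10 (hC 3 (by norm_num)) (by linarith) (by linarith), ln0 (hC 4 (by norm_num)) (by linarith) (by linarith), ln10 (hC 1 (by norm_num)) (by linarith) (by linarith), ln10 (hC 0 (by norm_num)) (by linarith) (by linarith), hP, q0, q1, q2, q3, q4]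

end Vale.Agent.Propeller
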