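import Vale.Agent.Propeller.CapPoly

/-!
# P226, part NUM6: the numerical contradiction for `k = 6` in dimension `5`
-/

namespace Vale.Agent.Propeller.Num6

open MeasureTheory ProbabilityTheory Finset Vale.Agent.Propeller Vale.Agent.Propeller.CapPoly

/-- the cap inequalities for one cell -/
def CapT (t p : ℝ) : Prop := ∃ y : ℝ, 0 ≤ y ∧ t = y ^ 2 ∧ 0 ≤ p ∧ ∀ c : ℝ, 0 ≤ c → c < 1 →
  y ≤ 1 - 8 / 3 * c + 2 * c ^ 2 - c ^ 4 / 3 + 16 / 3 * c * p

lemma capT_of {t p : ℕ → ℝ} (hd : Data 6 t p) (hc : CapIneq 5 6 t p) (i : ℕ) (hi : i < 6) :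
    CapT (t i) (p i) :=
  ⟨√(t i), Real.sqrt_nonneg _, (Real.sq_sqrt (hd.nonneg i hi)).symm, hd.pnonneg i hi,
    fun c h0 h1 => by
      have := hc i hi c h0 h1
      rwa [capA5, capB5] at this⟩

lemma t_le_one {t p : ℝ} (h : CapT t p) : t ≤ 1 := by
  obtain ⟨y, hy, ht, hp, H⟩ := h
  have := H 0 le_rfl (by norm_num)
  norm_num at this
  rw [ht]
  nlinarith

/-! ### lines -/

lemma ln0 {t p : ℝ} (h : CapT t p) (h1 : 0 ≤ t) (h2 : t ≤ 1) :
    (-3257/10000) + (39/50) * t ≤ p := by
  obtain ⟨y, hy, ht, hp, H⟩ := h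
  have e1 : 0 ≤ y := hy
  have e2 : y ≤ 1 := by nlinarith
  rw [ht]
  rcases le_total y (187/200) with g0 | g0
  · nlinarith [H (21/80) (by norm_num) (by norm_num), mul_nonneg (sub_nonneg.2 e1) (sub_nonneg.2 g0)]
  ·
    rcases le_total y (483/500) with g1 | g1
    · nlinarith [H (11/80) (by norm_num) (by norm_num), mul_nonneg (sub_nonneg.2 g0) (sub_nonneg.2 g1)]
    ·
      rcases le_total y (243/250) with g2 | g2
      · nlinarith [H (1/8) (by norm_num) (by norm_num), mul_nonneg (sub_nonneg.2 g1) (sub_nonneg.2 g2)]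
      ·
        nlinarith [H (9/80) (by norm_num) (by norm_num), mul_nonneg (sub_nonneg.2 g2) (sub_nonneg.2 e2)]

lemma ln1 {t p : ℝ} (h : CapT t p) (h1 : 0 ≤ t) (h2 : t ≤ 1) :
    (-7/12500) + (41/100) * t ≤ p := by
  obtain ⟨y, hy, ht, hp, H⟩ := h
  have e1 : 0 ≤ y := hy
  have e2 : y ≤ 1 := by nlinarith
  rw [ht]
  rcases le_total y (261/500) with g0 | g0
  · nlinarith [H (7/8) (by norm_num) (by norm_num), mul_nonneg (sub_nonneg.2 e1) (sub_nonneg.2 g0)]
  ·
    rcases le_total y (819/1000) with g1 | g1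
    · nlinarith [H (7/20) (by norm_num) (by norm_num), mul_nonneg (sub_nonneg.2 g0) (sub_nonneg.2 g1)]
    ·
      rcases le_total y (861/1000) with g2 | g2
      · nlinarith [H (11/40) (by norm_num) (by norm_num), mul_nonneg (sub_nonneg.2 g1) (sub_nonneg.2 g2)]
      ·
        rcases le_total y (883/1000) with g3 | g3
        · nlinarith [H (21/80) (by norm_num) (by norm_num), mul_nonneg (sub_nonneg.2 g2) (sub_nonneg.2 g3)]
        ·
          nlinarith [H (19/80) (by norm_num) (by norm_num), mul_nonneg (sub_nonneg.2 g3) (sub_nonneg.2 e2)]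

lemma ln2 {t p : ℝ} (h : CapT t p) (h1 : 0 ≤ t) (h2 : t ≤ (6561/390625)) :
    (-1/10000) + (167/100) * t ≤ p := by
  obtain ⟨y, hy, ht, hp, H⟩ := h
  have e1 : 0 ≤ y := hy
  have e2 : y ≤ (81/625) := by nlinarith
  rw [ht]
  rcases le_total y (119/1000) with g0 | g0
  · nlinarith [H (15/16) (by norm_num) (by norm_num), mul_nonneg (sub_nonneg.2 e1) (sub_nonneg.2 g0)]
  ·
    rcases le_total y (129/1000) with g1 | g1
    · nlinarith [H (31/40) (by norm_num) (by norm_num), mul_nonneg (sub_nonneg.2 g0) (sub_nonneg.2 g1)]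
    ·
      nlinarith [H (4/5) (by norm_num) (by norm_num), mul_nonneg (sub_nonneg.2 g1) (sub_nonneg.2 e2)]

lemma ln3 {t p : ℝ} (h : CapT t p) (h1 : (6561/390625) ≤ t) (h2 : t ≤ 1) :
    (-579/5000) + (11/20) * t ≤ p := by
  obtain ⟨y, hy, ht, hp, H⟩ := h
  have e1 : (81/625) ≤ y := by nlinarith
  have e2 : y ≤ 1 := by nlinarith
  rw [ht]
  rcases le_total y (873/1000) with g0 | g0
  · nlinarith [H (7/20) (by norm_num) (by norm_num), mul_nonneg (sub_nonneg.2 e1) (sub_nonneg.2 g0)]
  ·
    rcases le_total y (929/1000) with g1 | g1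
    · nlinarith [H (1/5) (by norm_num) (by norm_num), mul_nonneg (sub_nonneg.2 g0) (sub_nonneg.2 g1)]
    ·
      rcases le_total y (937/1000) with g2 | g2
      · nlinarith [H (3/16) (by norm_num) (by norm_num), mul_nonneg (sub_nonneg.2 g1) (sub_nonneg.2 g2)]
      ·
        nlinarith [H (7/40) (by norm_num) (by norm_num), mul_nonneg (sub_nonneg.2 g2) (sub_nonneg.2 e2)]

lemma ln4 {t p : ℝ} (h : CapT t p) (h1 : (6561/390625) ≤ t) (h2 : t ≤ 1) :
    (211/10000) + (19/50) * t ≤ p := by
  obtain ⟨y, hy, ht, hp, H⟩ := h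
  have e1 : (81/625) ≤ y := by nlinarith
  have e2 : y ≤ 1 := by nlinarith
  rw [ht]
  rcases le_total y (66/125) with g0 | g0
  · nlinarith [H (3/4) (by norm_num) (by norm_num), mul_nonneg (sub_nonneg.2 e1) (sub_nonneg.2 g0)]
  ·
    rcases le_total y (97/125) with g1 | g1
    · nlinarith [H (31/80) (by norm_num) (by norm_num), mul_nonneg (sub_nonneg.2 g0) (sub_nonneg.2 g1)]
    ·
      rcases le_total y (103/125) with g2 | g2
      · nlinarith [H (5/16) (by norm_num) (by norm_num), mul_nonneg (sub_nonneg.2 g1) (sub_nonneg.2 g2)]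
      ·
        rcases le_total y (209/250) with g3 | g3
        · nlinarith [H (3/10) (by norm_num) (by norm_num), mul_nonneg (sub_nonneg.2 g2) (sub_nonneg.2 g3)]
        ·
          rcases le_total y (441/500) with g4 | g4
          · nlinarith [H (23/80) (by norm_num) (by norm_num), mul_nonneg (sub_nonneg.2 g3) (sub_nonneg.2 g4)]
          ·
            nlinarith [H (9/40) (by norm_num) (by norm_num), mul_nonneg (sub_nonneg.2 g4) (sub_nonneg.2 e2)]

lemma ln5 {t p : ℝ} (h : CapT t p) (h1 : (6561/390625) ≤ t) (h2 : t ≤ 1) :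
    (-793/20000) + (23/50) * t ≤ p := by
  obtain ⟨y, hy, ht, hp, H⟩ := h
  have e1 : (81/625) ≤ y := by nlinarith
  have e2 : y ≤ 1 := by nlinarith
  rw [ht]
  rcases le_total y (401/500) with g0 | g0
  · nlinarith [H (7/16) (by norm_num) (by norm_num), mul_nonneg (sub_nonneg.2 e1) (sub_nonneg.2 g0)]
  ·
    rcases le_total y (89/100) with g1 | g1
    · nlinarith [H (1/4) (by norm_num) (by norm_num), mul_nonneg (sub_nonneg.2 g0) (sub_nonneg.2 g1)]
    ·
      rcases le_total y (112/125) with g2 | g2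
      · nlinarith [H (19/80) (by norm_num) (by norm_num), mul_nonneg (sub_nonneg.2 g1) (sub_nonneg.2 g2)]
      ·
        rcases le_total y (459/500) with g3 | g3
        · nlinarith [H (9/40) (by norm_num) (by norm_num), mul_nonneg (sub_nonneg.2 g2) (sub_nonneg.2 g3)]
        ·
          nlinarith [H (1/5) (by norm_num) (by norm_num), mul_nonneg (sub_nonneg.2 g3) (sub_nonneg.2 e2)]

lemma ln6 {t p : ℝ} (h : CapT t p) (h1 : (6561/390625) ≤ t) (h2 : t ≤ (2847396321/25600000000)) :
    (927/50000) + (14/25) * t ≤ p := by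
  obtain ⟨y, hy, ht, hp, H⟩ := h
  have e1 : (81/625) ≤ y := by nlinarith
  have e2 : y ≤ (53361/160000) := by nlinarith
  rw [ht]
  rcases le_total y (59/200) with g0 | g0
  · nlinarith [H (63/80) (by norm_num) (by norm_num), mul_nonneg (sub_nonneg.2 e1) (sub_nonneg.2 g0)]
  ·
    nlinarith [H (5/8) (by norm_num) (by norm_num), mul_nonneg (sub_nonneg.2 g0) (sub_nonneg.2 e2)]

lemma ln7 {t p : ℝ} (h : CapT t p) (h1 : (2847396321/25600000000) ≤ t) (h2 : t ≤ 1) :
    (137/20000) + (2/5) * t ≤ p := by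
  obtain ⟨y, hy, ht, hp, H⟩ := h
  have e1 : (53361/160000) ≤ y := by nlinarith
  have e2 : y ≤ 1 := by nlinarith
  rw [ht]
  rcases le_total y (769/1000) with g0 | g0
  · nlinarith [H (17/40) (by norm_num) (by norm_num), mul_nonneg (sub_nonneg.2 e1) (sub_nonneg.2 g0)]
  ·
    rcases le_total y (421/500) with g1 | g1
    · nlinarith [H (3/10) (by norm_num) (by norm_num), mul_nonneg (sub_nonneg.2 g0) (sub_nonneg.2 g1)]
    ·
      rcases le_total y (863/1000) with g2 | g2
      · nlinarith [H (11/40) (by norm_num) (by norm_num), mul_nonneg (sub_nonneg.2 g1) (sub_nonneg.2 g2)]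
      ·
        rcases le_total y (37/40) with g3 | g3
        · nlinarith [H (21/80) (by norm_num) (by norm_num), mul_nonneg (sub_nonneg.2 g2) (sub_nonneg.2 g3)]
        ·
          nlinarith [H (3/20) (by norm_num) (by norm_num), mul_nonneg (sub_nonneg.2 g3) (sub_nonneg.2 e2)]

lemma ln8 {t p : ℝ} (h : CapT t p) (h1 : (2847396321/25600000000) ≤ t) (h2 : t ≤ 1) :
    (1407/100000) + (39/100) * t ≤ p := by
  obtain ⟨y, hy, ht, hp, H⟩ := h
  have e1 : (53361/160000) ≤ y := by nlinarith
  have e2 : y ≤ 1 := by nlinarith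
  rw [ht]
  rcases le_total y (373/500) with g0 | g0
  · nlinarith [H (9/20) (by norm_num) (by norm_num), mul_nonneg (sub_nonneg.2 e1) (sub_nonneg.2 g0)]
  ·
    rcases le_total y (829/1000) with g1 | g1
    · nlinarith [H (5/16) (by norm_num) (by norm_num), mul_nonneg (sub_nonneg.2 g0) (sub_nonneg.2 g1)]
    ·
      rcases le_total y (17/20) with g2 | g2
      · nlinarith [H (23/80) (by norm_num) (by norm_num), mul_nonneg (sub_nonneg.2 g1) (sub_nonneg.2 g2)]
      ·
        rcases le_total y (901/1000) with g3 | g3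
        · nlinarith [H (11/40) (by norm_num) (by norm_num), mul_nonneg (sub_nonneg.2 g2) (sub_nonneg.2 g3)]
        ·
          nlinarith [H (1/5) (by norm_num) (by norm_num), mul_nonneg (sub_nonneg.2 g3) (sub_nonneg.2 e2)]

lemma ln9 {t p : ℝ} (h : CapT t p) (h1 : (2847396321/25600000000) ≤ t) (h2 : t ≤ 1) :
    (127/3125) + (7/20) * t ≤ p := by
  obtain ⟨y, hy, ht, hp, H⟩ := h
  have e1 : (53361/160000) ≤ y := by nlinarith
  have e2 : y ≤ 1 := by nlinarith
  rw [ht]
  rcases le_total y (579/1000) with g0 | g0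
  · nlinarith [H (47/80) (by norm_num) (by norm_num), mul_nonneg (sub_nonneg.2 e1) (sub_nonneg.2 g0)]
  ·
    rcases le_total y (363/500) with g1 | g1
    · nlinarith [H (33/80) (by norm_num) (by norm_num), mul_nonneg (sub_nonneg.2 g0) (sub_nonneg.2 g1)]
    ·
      rcases le_total y (383/500) with g2 | g2
      · nlinarith [H (29/80) (by norm_num) (by norm_num), mul_nonneg (sub_nonneg.2 g1) (sub_nonneg.2 g2)]
      ·
        rcases le_total y (779/1000) with g3 | g3
        · nlinarith [H (7/20) (by norm_num) (by norm_num), mul_nonneg (sub_nonneg.2 g2) (sub_nonneg.2 g3)]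
        ·
          rcases le_total y (81/100) with g4 | g4
          · nlinarith [H (27/80) (by norm_num) (by norm_num), mul_nonneg (sub_nonneg.2 g3) (sub_nonneg.2 g4)]
          ·
            rcases le_total y (489/500) with g5 | g5
            · nlinarith [H (3/10) (by norm_num) (by norm_num), mul_nonneg (sub_nonneg.2 g4) (sub_nonneg.2 g5)]
            ·
              nlinarith [H (1/20) (by norm_num) (by norm_num), mul_nonneg (sub_nonneg.2 g5) (sub_nonneg.2 e2)]

lemma ln10 {t p : ℝ} (h : CapT t p) (h1 : (6561/390625) ≤ t) (h2 : t ≤ (2401/65536)) :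
    (307/20000) + (3/4) * t ≤ p := by
  obtain ⟨y, hy, ht, hp, H⟩ := h
  have e1 : (81/625) ≤ y := by nlinarith
  have e2 : y ≤ (49/256) := by nlinarith
  rw [ht]
  rcases le_total y (47/250) with g0 | g0
  · nlinarith [H (63/80) (by norm_num) (by norm_num), mul_nonneg (sub_nonneg.2 e1) (sub_nonneg.2 g0)]
  ·
    nlinarith [H (3/4) (by norm_num) (by norm_num), mul_nonneg (sub_nonneg.2 g0) (sub_nonneg.2 e2)]

lemma ln11 {t p : ℝ} (h : CapT t p) (h1 : (2847396321/25600000000) ≤ t) (h2 : t ≤ 1) :
    (2121/50000) + (347/1000) * t ≤ p := by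
  obtain ⟨y, hy, ht, hp, H⟩ := h
  have e1 : (53361/160000) ≤ y := by nlinarith
  have e2 : y ≤ 1 := by nlinarith
  rw [ht]
  rcases le_total y (103/200) with g0 | g0
  · nlinarith [H (51/80) (by norm_num) (by norm_num), mul_nonneg (sub_nonneg.2 e1) (sub_nonneg.2 g0)]
  ·
    rcases le_total y (173/250) with g1 | g1
    · nlinarith [H (9/20) (by norm_num) (by norm_num), mul_nonneg (sub_nonneg.2 g0) (sub_nonneg.2 g1)]
    ·
      rcases le_total y (94/125) with g2 | g2
      · nlinarith [H (3/8) (by norm_num) (by norm_num), mul_nonneg (sub_nonneg.2 g1) (sub_nonneg.2 g2)]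
      ·
        rcases le_total y (191/250) with g3 | g3
        · nlinarith [H (29/80) (by norm_num) (by norm_num), mul_nonneg (sub_nonneg.2 g2) (sub_nonneg.2 g3)]
        ·
          rcases le_total y (157/200) with g4 | g4
          · nlinarith [H (7/20) (by norm_num) (by norm_num), mul_nonneg (sub_nonneg.2 g3) (sub_nonneg.2 g4)]
          ·
            rcases le_total y (413/500) with g5 | g5
            · nlinarith [H (27/80) (by norm_num) (by norm_num), mul_nonneg (sub_nonneg.2 g4) (sub_nonneg.2 g5)]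
            ·
              nlinarith [H (11/40) (by norm_num) (by norm_num), mul_nonneg (sub_nonneg.2 g5) (sub_nonneg.2 e2)]

lemma ln12 {t p : ℝ} (h : CapT t p) (h1 : (2401/65536) ≤ t) (h2 : t ≤ 1) :
    (2923/100000) + (46/125) * t ≤ p := by
  obtain ⟨y, hy, ht, hp, H⟩ := h
  have e1 : (49/256) ≤ y := by nlinarith
  have e2 : y ≤ 1 := by nlinarith
  rw [ht]
  rcases le_total y (64/125) with g0 | g0
  · nlinarith [H (29/40) (by norm_num) (by norm_num), mul_nonneg (sub_nonneg.2 e1) (sub_nonneg.2 g0)]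
  ·
    rcases le_total y (187/250) with g1 | g1
    · nlinarith [H (33/80) (by norm_num) (by norm_num), mul_nonneg (sub_nonneg.2 g0) (sub_nonneg.2 g1)]
    ·
      rcases le_total y (799/1000) with g2 | g2
      · nlinarith [H (27/80) (by norm_num) (by norm_num), mul_nonneg (sub_nonneg.2 g1) (sub_nonneg.2 g2)]
      ·
        rcases le_total y (101/125) with g3 | g3
        · nlinarith [H (13/40) (by norm_num) (by norm_num), mul_nonneg (sub_nonneg.2 g2) (sub_nonneg.2 g3)]
        ·
          rcases le_total y (827/1000) with g4 | g4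
          · nlinarith [H (5/16) (by norm_num) (by norm_num), mul_nonneg (sub_nonneg.2 g3) (sub_nonneg.2 g4)]
          ·
            rcases le_total y (879/1000) with g5 | g5
            · nlinarith [H (3/10) (by norm_num) (by norm_num), mul_nonneg (sub_nonneg.2 g4) (sub_nonneg.2 g5)]
            ·
              nlinarith [H (9/40) (by norm_num) (by norm_num), mul_nonneg (sub_nonneg.2 g5) (sub_nonneg.2 e2)]

lemma ln13 {t p : ℝ} (h : CapT t p) (h1 : (6561/390625) ≤ t) (h2 : t ≤ 1) :
    (1079/50000) + (379/1000) * t ≤ p := by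
  obtain ⟨y, hy, ht, hp, H⟩ := h
  have e1 : (81/625) ≤ y := by nlinarith
  have e2 : y ≤ 1 := by nlinarith
  rw [ht]
  rcases le_total y (249/500) with g0 | g0
  · nlinarith [H (63/80) (by norm_num) (by norm_num), mul_nonneg (sub_nonneg.2 e1) (sub_nonneg.2 g0)]
  ·
    rcases le_total y (769/1000) with g1 | g1
    · nlinarith [H (2/5) (by norm_num) (by norm_num), mul_nonneg (sub_nonneg.2 g0) (sub_nonneg.2 g1)]
    ·
      rcases le_total y (831/1000) with g2 | g2
      · nlinarith [H (5/16) (by norm_num) (by norm_num), mul_nonneg (sub_nonneg.2 g1) (sub_nonneg.2 g2)]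
      ·
        rcases le_total y (179/200) with g3 | g3
        · nlinarith [H (23/80) (by norm_num) (by norm_num), mul_nonneg (sub_nonneg.2 g2) (sub_nonneg.2 g3)]
        ·
          nlinarith [H (1/5) (by norm_num) (by norm_num), mul_nonneg (sub_nonneg.2 g3) (sub_nonneg.2 e2)]

/-! ### tree -/

end Vale.Agent.Propeller.Num6

namespace Vale.Agent.Propeller

open MeasureTheory ProbabilityTheory Finset Num6

theorem num6 (t p : ℕ → ℝ) (hd : Data 6 t p) (hc : CapIneq 5 6 t p) : False := by
  have hC : ∀ i, i < 6 → CapT (t i) (p i) := capT_of hd hc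
  have hT := hd.tsum
  have hP := hd.psum
  have c3 := hd.cons3
  have b3 := hd.cons 3 (by norm_num) (by norm_num)
  have b4 := hd.cons 4 (by norm_num) (by norm_num)
  have b5 := hd.cons 5 (by norm_num) (by norm_num)
  simp only [Finset.sum_range_succ, Finset.sum_range_zero, Finset.sum_Ico_eq_sum_range] at hT hP c3 b3 b4 b5
  norm_num [Finset.sum_range_succ] at hT hP c3 b3 b4 b5
  have a0 := hd.anti 0 1 (by norm_num) (by norm_num)
  have a1 := hd.anti 1 2 (by norm_num) (by norm_num)
  have a2 := hd.anti 2 3 (by norm_num) (by norm_num)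
  have a3 := hd.anti 3 4 (by norm_num) (by norm_num)
  have a4 := hd.anti 4 5 (by norm_num) (by norm_num)
  have q0 := hd.pnonneg 0 (by norm_num)
  have q1 := hd.pnonneg 1 (by norm_num)
  have q2 := hd.pnonneg 2 (by norm_num)
  have q3 := hd.pnonneg 3 (by norm_num)
  have q4 := hd.pnonneg 4 (by norm_num)
  have q5 := hd.pnonneg 5 (by norm_num)
  have z := hd.nonneg 5 (by norm_num)
  have m := t_le_one (hC 0 (by norm_num))
  rcases le_total (t 4) (6561/390625) with s0 | s0
  ·
    linarith [hT, a4, b4, ln0 (hC 0 (by norm_num)) (by linarith) (by linarith), ln0 (hC 1 (by norm_num)) (by linarith) (by linarith), ln1 (hC 2 (by norm_num)) (by linarith) (by linarith), ln1 (hC 3 (by norm_num)) (by linarith) (by linarith), ln2 (hC 4 (by norm_num)) (by linarith) (by linarith), ln2 (hC 5 (by norm_num)) (by linarith) (by linarith), hP, q0, q1, q2, q3, q4, q5]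
  ·
    rcases le_total (t 5) (6561/390625) with s1 | s1
    ·
      linarith [hT, b5, ln3 (hC 0 (by norm_num)) (by linarith) (by linarith), ln3 (hC 1 (by norm_num)) (by linarith) (by linarith), ln4 (hC 2 (by norm_num)) (by linarith) (by linarith), ln4 (hC 3 (by norm_num)) (by linarith) (by linarith), ln4 (hC 4 (by norm_num)) (by linarith) (by linarith), ln2 (hC 5 (by norm_num)) (by linarith) (by linarith), hP, q0, q1, q2, q3, q4, q5]
    ·
      rcases le_total (t 3) (2847396321/25600000000) with s2 | s2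
      ·
        linarith [hT, a3, a4, c3, ln5 (hC 0 (by norm_num)) (by linarith) (by linarith), ln4 (hC 1 (by norm_num)) (by linarith) (by linarith), ln4 (hC 2 (by norm_num)) (by linarith) (by linarith), ln6 (hC 3 (by norm_num)) (by linarith) (by linarith), ln6 (hC 4 (by norm_num)) (by linarith) (by linarith), ln6 (hC 5 (by norm_num)) (by linarith) (by linarith), hP, q0, q1, q2, q3, q4, q5]
      ·
        rcases le_total (t 4) (2401/65536) with s3 | s3
        ·
          linarith [hT, a0, a4, b4, ln7 (hC 0 (by norm_num)) (by linarith) (by linarith), ln8 (hC 1 (by norm_num)) (by linarith) (by linarith), ln9 (hC 2 (by norm_num)) (by linarith) (by linarith), ln9 (hC 3 (by norm_num)) (by linarith) (by linarith), ln10 (hC 4 (by norm_num)) (by linarith) (by linarith), ln10 (hC 5 (by norm_num)) (by linarith) (by linarith), hP, q0, q1, q2, q3, q4, q5]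
        ·
          linarith [hT, a0, a1, a2, a4, b4, ln9 (hC 0 (by norm_num)) (by linarith) (by linarith), ln9 (hC 1 (by norm_num)) (by linarith) (by linarith), ln11 (hC 2 (by norm_num)) (by linarith) (by linarith), ln11 (hC 3 (by norm_num)) (by linarith) (by linarith), ln12 (hC 4 (by norm_num)) (by linarith) (by linarith), ln13 (hC 5 (by norm_num)) (by linarith) (by linarith), hP, q0, q1, q2, q3, q4, q5]

end Vale.Agent.Propeller
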