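import Vale.Agent.Propeller.CapPoly

/-!
# P226, part NUM7: the numerical contradiction for `k = 7` in dimension `7`
-/

namespace Vale.Agent.Propeller.Num7

open MeasureTheory ProbabilityTheory Finset Vale.Agent.Propeller Vale.Agent.Propeller.CapPoly

/-- the cap inequalities for one cell -/
def CapT (t p : ℝ) : Prop := ∃ y : ℝ, 0 ≤ y ∧ t = y ^ 2 ∧ 0 ≤ p ∧ ∀ c : ℝ, 0 ≤ c → c < 1 →
  y ≤ (1 - c ^ 2) ^ 3
    - 6 * c * (8 / 15 - (c - 2 * c ^ 3 / 3 + c ^ 5 / 5)) + 32 / 5 * c * p

lemma capT_of {t p : ℕ → ℝ} (hd : Data 7 t p) (hc : CapIneq 7 7 t p) (i : ℕ) (hi : i < 7) :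
    CapT (t i) (p i) :=
  ⟨√(t i), Real.sqrt_nonneg _, (Real.sq_sqrt (hd.nonneg i hi)).symm, hd.pnonneg i hi,
    fun c h0 h1 => by
      have := hc i hi c h0 h1
      rwa [capA7, capB7] at this⟩

lemma t_le_one {t p : ℝ} (h : CapT t p) : t ≤ 1 := by
  obtain ⟨y, hy, ht, hp, H⟩ := h
  have := H 0 le_rfl (by norm_num)
  norm_num at this
  rw [ht]
  nlinarith

/-! ### lines -/

lemma ln0 {t p : ℝ} (h : CapT t p) (h1 : 0 ≤ t) (h2 : t ≤ 1) :
    (-80877/100000) + (32/25) * t ≤ p := by
  obtain ⟨y, hy, ht, hp, H⟩ := h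
  have e1 : 0 ≤ y := hy
  have e2 : y ≤ 1 := by nlinarith
  rw [ht]
  rcases le_total y (122/125) with g0 | g0
  · nlinarith [H (1/8) (by norm_num) (by norm_num), mul_nonneg (sub_nonneg.2 e1) (sub_nonneg.2 g0)]
  ·
    rcases le_total y (989/1000) with g1 | g1
    · nlinarith [H (1/16) (by norm_num) (by norm_num), mul_nonneg (sub_nonneg.2 g0) (sub_nonneg.2 g1)]
    ·
      rcases le_total y (1979/2000) with g2 | g2
      · nlinarith [H (1/16) (by norm_num) (by norm_num), mul_nonneg (sub_nonneg.2 g1) (sub_nonneg.2 g2)]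
      ·
        nlinarith [H (9/160) (by norm_num) (by norm_num), mul_nonneg (sub_nonneg.2 g2) (sub_nonneg.2 e2)]

lemma ln1 {t p : ℝ} (h : CapT t p) (h1 : 0 ≤ t) (h2 : t ≤ 1) :
    (-1/25000) + (2/5) * t ≤ p := by
  obtain ⟨y, hy, ht, hp, H⟩ := h
  have e1 : 0 ≤ y := hy
  have e2 : y ≤ 1 := by nlinarith
  rw [ht]
  rcases le_total y (217/500) with g0 | g0
  · nlinarith [H (9/10) (by norm_num) (by norm_num), mul_nonneg (sub_nonneg.2 e1) (sub_nonneg.2 g0)]
  ·
    rcases le_total y (81/100) with g1 | g1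
    · nlinarith [H (51/160) (by norm_num) (by norm_num), mul_nonneg (sub_nonneg.2 g0) (sub_nonneg.2 g1)]
    ·
      rcases le_total y (989/1000) with g2 | g2
      · nlinarith [H (7/32) (by norm_num) (by norm_num), mul_nonneg (sub_nonneg.2 g1) (sub_nonneg.2 g2)]
      ·
        nlinarith [H (1/40) (by norm_num) (by norm_num), mul_nonneg (sub_nonneg.2 g2) (sub_nonneg.2 e2)]

lemma ln2 {t p : ℝ} (h : CapT t p) (h1 : 0 ≤ t) (h2 : t ≤ (117649/16777216)) :
    (-1/25000) + 2 * t ≤ p := by
  obtain ⟨y, hy, ht, hp, H⟩ := h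
  have e1 : 0 ≤ y := hy
  have e2 : y ≤ (343/4096) := by nlinarith
  rw [ht]
  nlinarith [H (9/10) (by norm_num) (by norm_num), mul_nonneg (sub_nonneg.2 e1) (sub_nonneg.2 e2)]

lemma ln3 {t p : ℝ} (h : CapT t p) (h1 : (117649/16777216) ≤ t) (h2 : t ≤ 1) :
    (-4629/50000) + (13/25) * t ≤ p := by
  obtain ⟨y, hy, ht, hp, H⟩ := h
  have e1 : (343/4096) ≤ y := by nlinarith
  have e2 : y ≤ 1 := by nlinarith
  rw [ht]
  rcases le_total y (211/250) with g0 | g0
  · nlinarith [H (13/40) (by norm_num) (by norm_num), mul_nonneg (sub_nonneg.2 e1) (sub_nonneg.2 g0)]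
  ·
    rcases le_total y (917/1000) with g1 | g1
    · nlinarith [H (7/40) (by norm_num) (by norm_num), mul_nonneg (sub_nonneg.2 g0) (sub_nonneg.2 g1)]
    ·
      rcases le_total y (233/250) with g2 | g2
      · nlinarith [H (13/80) (by norm_num) (by norm_num), mul_nonneg (sub_nonneg.2 g1) (sub_nonneg.2 g2)]
      ·
        nlinarith [H (3/20) (by norm_num) (by norm_num), mul_nonneg (sub_nonneg.2 g2) (sub_nonneg.2 e2)]

lemma ln4 {t p : ℝ} (h : CapT t p) (h1 : (117649/16777216) ≤ t) (h2 : t ≤ 1) :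
    (313/100000) + (2/5) * t ≤ p := by
  obtain ⟨y, hy, ht, hp, H⟩ := h
  have e1 : (343/4096) ≤ y := by nlinarith
  have e2 : y ≤ 1 := by nlinarith
  rw [ht]
  rcases le_total y (157/250) with g0 | g0
  · nlinarith [H (11/20) (by norm_num) (by norm_num), mul_nonneg (sub_nonneg.2 e1) (sub_nonneg.2 g0)]
  ·
    rcases le_total y (819/1000) with g1 | g1
    · nlinarith [H (11/40) (by norm_num) (by norm_num), mul_nonneg (sub_nonneg.2 g0) (sub_nonneg.2 g1)]
    ·
      rcases le_total y (423/500) with g2 | g2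
      · nlinarith [H (19/80) (by norm_num) (by norm_num), mul_nonneg (sub_nonneg.2 g1) (sub_nonneg.2 g2)]
      ·
        rcases le_total y (171/200) with g3 | g3
        · nlinarith [H (37/160) (by norm_num) (by norm_num), mul_nonneg (sub_nonneg.2 g2) (sub_nonneg.2 g3)]
        ·
          rcases le_total y (177/200) with g4 | g4
          · nlinarith [H (9/40) (by norm_num) (by norm_num), mul_nonneg (sub_nonneg.2 g3) (sub_nonneg.2 g4)]
          ·
            nlinarith [H (1/5) (by norm_num) (by norm_num), mul_nonneg (sub_nonneg.2 g4) (sub_nonneg.2 e2)]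

lemma ln5 {t p : ℝ} (h : CapT t p) (h1 : (117649/16777216) ≤ t) (h2 : t ≤ 1) :
    (513/50000) + (39/100) * t ≤ p := by
  obtain ⟨y, hy, ht, hp, H⟩ := h
  have e1 : (343/4096) ≤ y := by nlinarith
  have e2 : y ≤ 1 := by nlinarith
  rw [ht]
  rcases le_total y (279/500) with g0 | g0
  · nlinarith [H (5/8) (by norm_num) (by norm_num), mul_nonneg (sub_nonneg.2 e1) (sub_nonneg.2 g0)]
  ·
    rcases le_total y (397/500) with g1 | g1
    · nlinarith [H (3/10) (by norm_num) (by norm_num), mul_nonneg (sub_nonneg.2 g0) (sub_nonneg.2 g1)]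
    ·
      rcases le_total y (831/1000) with g2 | g2
      · nlinarith [H (1/4) (by norm_num) (by norm_num), mul_nonneg (sub_nonneg.2 g1) (sub_nonneg.2 g2)]
      ·
        rcases le_total y (837/1000) with g3 | g3
        · nlinarith [H (39/160) (by norm_num) (by norm_num), mul_nonneg (sub_nonneg.2 g2) (sub_nonneg.2 g3)]
        ·
          rcases le_total y (853/1000) with g4 | g4
          · nlinarith [H (19/80) (by norm_num) (by norm_num), mul_nonneg (sub_nonneg.2 g3) (sub_nonneg.2 g4)]
          ·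
            rcases le_total y (979/1000) with g5 | g5
            · nlinarith [H (7/32) (by norm_num) (by norm_num), mul_nonneg (sub_nonneg.2 g4) (sub_nonneg.2 g5)]
            ·
              nlinarith [H (1/20) (by norm_num) (by norm_num), mul_nonneg (sub_nonneg.2 g5) (sub_nonneg.2 e2)]

lemma ln6 {t p : ℝ} (h : CapT t p) (h1 : (117649/16777216) ≤ t) (h2 : t ≤ (16777216/244140625)) :
    (279/25000) + (17/25) * t ≤ p := by
  obtain ⟨y, hy, ht, hp, H⟩ := h
  have e1 : (343/4096) ≤ y := by nlinarith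
  have e2 : y ≤ (4096/15625) := by nlinarith
  rw [ht]
  rcases le_total y (233/1000) with g0 | g0
  · nlinarith [H (29/40) (by norm_num) (by norm_num), mul_nonneg (sub_nonneg.2 e1) (sub_nonneg.2 g0)]
  ·
    rcases le_total y (131/500) with g1 | g1
    · nlinarith [H (3/5) (by norm_num) (by norm_num), mul_nonneg (sub_nonneg.2 g0) (sub_nonneg.2 g1)]
    ·
      nlinarith [H (3/5) (by norm_num) (by norm_num), mul_nonneg (sub_nonneg.2 g1) (sub_nonneg.2 e2)]

lemma ln7 {t p : ℝ} (h : CapT t p) (h1 : (16777216/244140625) ≤ t) (h2 : t ≤ 1) :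
    (513/50000) + (39/100) * t ≤ p := by
  obtain ⟨y, hy, ht, hp, H⟩ := h
  have e1 : (4096/15625) ≤ y := by nlinarith
  have e2 : y ≤ 1 := by nlinarith
  rw [ht]
  rcases le_total y (89/125) with g0 | g0
  · nlinarith [H (33/80) (by norm_num) (by norm_num), mul_nonneg (sub_nonneg.2 e1) (sub_nonneg.2 g0)]
  ·
    rcases le_total y (411/500) with g1 | g1
    · nlinarith [H (21/80) (by norm_num) (by norm_num), mul_nonneg (sub_nonneg.2 g0) (sub_nonneg.2 g1)]
    ·
      rcases le_total y (837/1000) with g2 | g2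
      · nlinarith [H (39/160) (by norm_num) (by norm_num), mul_nonneg (sub_nonneg.2 g1) (sub_nonneg.2 g2)]
      ·
        rcases le_total y (853/1000) with g3 | g3
        · nlinarith [H (19/80) (by norm_num) (by norm_num), mul_nonneg (sub_nonneg.2 g2) (sub_nonneg.2 g3)]
        ·
          rcases le_total y (979/1000) with g4 | g4
          · nlinarith [H (7/32) (by norm_num) (by norm_num), mul_nonneg (sub_nonneg.2 g3) (sub_nonneg.2 g4)]
          ·
            nlinarith [H (1/20) (by norm_num) (by norm_num), mul_nonneg (sub_nonneg.2 g4) (sub_nonneg.2 e2)]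

lemma ln8 {t p : ℝ} (h : CapT t p) (h1 : (16777216/244140625) ≤ t) (h2 : t ≤ 1) :
    (-10739/20000) + 1 * t ≤ p := by
  obtain ⟨y, hy, ht, hp, H⟩ := h
  have e1 : (4096/15625) ≤ y := by nlinarith
  have e2 : y ≤ 1 := by nlinarith
  rw [ht]
  rcases le_total y (121/125) with g0 | g0
  · nlinarith [H (21/160) (by norm_num) (by norm_num), mul_nonneg (sub_nonneg.2 e1) (sub_nonneg.2 g0)]
  ·
    rcases le_total y (491/500) with g1 | g1
    · nlinarith [H (13/160) (by norm_num) (by norm_num), mul_nonneg (sub_nonneg.2 g0) (sub_nonneg.2 g1)]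
    ·
      nlinarith [H (3/40) (by norm_num) (by norm_num), mul_nonneg (sub_nonneg.2 g1) (sub_nonneg.2 e2)]

lemma ln9 {t p : ℝ} (h : CapT t p) (h1 : (16777216/244140625) ≤ t) (h2 : t ≤ 1) :
    (667/20000) + (71/200) * t ≤ p := by
  obtain ⟨y, hy, ht, hp, H⟩ := h
  have e1 : (4096/15625) ≤ y := by nlinarith
  have e2 : y ≤ 1 := by nlinarith
  rw [ht]
  rcases le_total y (99/200) with g0 | g0
  · nlinarith [H (93/160) (by norm_num) (by norm_num), mul_nonneg (sub_nonneg.2 e1) (sub_nonneg.2 g0)]
  ·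
    rcases le_total y (88/125) with g1 | g1
    · nlinarith [H (59/160) (by norm_num) (by norm_num), mul_nonneg (sub_nonneg.2 g0) (sub_nonneg.2 g1)]
    ·
      rcases le_total y (153/200) with g2 | g2
      · nlinarith [H (3/10) (by norm_num) (by norm_num), mul_nonneg (sub_nonneg.2 g1) (sub_nonneg.2 g2)]
      ·
        rcases le_total y (389/500) with g3 | g3
        · nlinarith [H (23/80) (by norm_num) (by norm_num), mul_nonneg (sub_nonneg.2 g2) (sub_nonneg.2 g3)]
        ·
          rcases le_total y (99/125) with g4 | g4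
          · nlinarith [H (9/32) (by norm_num) (by norm_num), mul_nonneg (sub_nonneg.2 g3) (sub_nonneg.2 g4)]
          ·
            rcases le_total y (106/125) with g5 | g5
            · nlinarith [H (43/160) (by norm_num) (by norm_num), mul_nonneg (sub_nonneg.2 g4) (sub_nonneg.2 g5)]
            ·
              nlinarith [H (1/5) (by norm_num) (by norm_num), mul_nonneg (sub_nonneg.2 g5) (sub_nonneg.2 e2)]

lemma ln10 {t p : ℝ} (h : CapT t p) (h1 : (117649/16777216) ≤ t) (h2 : t ≤ (16777216/244140625)) :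
    (563/50000) + (339/500) * t ≤ p := by
  obtain ⟨y, hy, ht, hp, H⟩ := h
  have e1 : (343/4096) ≤ y := by nlinarith
  have e2 : y ≤ (4096/15625) := by nlinarith
  rw [ht]
  rcases le_total y (57/250) with g0 | g0
  · nlinarith [H (59/80) (by norm_num) (by norm_num), mul_nonneg (sub_nonneg.2 e1) (sub_nonneg.2 g0)]
  ·
    rcases le_total y (131/500) with g1 | g1
    · nlinarith [H (3/5) (by norm_num) (by norm_num), mul_nonneg (sub_nonneg.2 g0) (sub_nonneg.2 g1)]
    ·
      nlinarith [H (3/5) (by norm_num) (by norm_num), mul_nonneg (sub_nonneg.2 g1) (sub_nonneg.2 e2)]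

lemma ln11 {t p : ℝ} (h : CapT t p) (h1 : (16777216/244140625) ≤ t) (h2 : t ≤ 1) :
    (1193/50000) + (37/100) * t ≤ p := by
  obtain ⟨y, hy, ht, hp, H⟩ := h
  have e1 : (4096/15625) ≤ y := by nlinarith
  have e2 : y ≤ 1 := by nlinarith
  rw [ht]
  rcases le_total y (641/1000) with g0 | g0
  · nlinarith [H (15/32) (by norm_num) (by norm_num), mul_nonneg (sub_nonneg.2 e1) (sub_nonneg.2 g0)]
  ·
    rcases le_total y (779/1000) with g1 | g1
    · nlinarith [H (3/10) (by norm_num) (by norm_num), mul_nonneg (sub_nonneg.2 g0) (sub_nonneg.2 g1)]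
    ·
      rcases le_total y (161/200) with g2 | g2
      · nlinarith [H (43/160) (by norm_num) (by norm_num), mul_nonneg (sub_nonneg.2 g1) (sub_nonneg.2 g2)]
      ·
        rcases le_total y (407/500) with g3 | g3
        · nlinarith [H (21/80) (by norm_num) (by norm_num), mul_nonneg (sub_nonneg.2 g2) (sub_nonneg.2 g3)]
        ·
          rcases le_total y (419/500) with g4 | g4
          · nlinarith [H (41/160) (by norm_num) (by norm_num), mul_nonneg (sub_nonneg.2 g3) (sub_nonneg.2 g4)]
          ·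
            nlinarith [H (9/40) (by norm_num) (by norm_num), mul_nonneg (sub_nonneg.2 g4) (sub_nonneg.2 e2)]

lemma ln12 {t p : ℝ} (h : CapT t p) (h1 : (117649/16777216) ≤ t) (h2 : t ≤ (729/4096)) :
    (311/25000) + (51/100) * t ≤ p := by
  obtain ⟨y, hy, ht, hp, H⟩ := h
  have e1 : (343/4096) ≤ y := by nlinarith
  have e2 : y ≤ (27/64) := by nlinarith
  rw [ht]
  rcases le_total y (331/1000) with g0 | g0
  · nlinarith [H (59/80) (by norm_num) (by norm_num), mul_nonneg (sub_nonneg.2 e1) (sub_nonneg.2 g0)]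
  ·
    nlinarith [H (1/2) (by norm_num) (by norm_num), mul_nonneg (sub_nonneg.2 g0) (sub_nonneg.2 e2)]

lemma ln13 {t p : ℝ} (h : CapT t p) (h1 : (16777216/244140625) ≤ t) (h2 : t ≤ (729/4096)) :
    (2923/100000) + (417/1000) * t ≤ p := by
  obtain ⟨y, hy, ht, hp, H⟩ := h
  have e1 : (4096/15625) ≤ y := by nlinarith
  have e2 : y ≤ (27/64) := by nlinarith
  rw [ht]
  rcases le_total y (369/1000) with g0 | g0
  · nlinarith [H (19/32) (by norm_num) (by norm_num), mul_nonneg (sub_nonneg.2 e1) (sub_nonneg.2 g0)]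
  ·
    nlinarith [H (1/2) (by norm_num) (by norm_num), mul_nonneg (sub_nonneg.2 g0) (sub_nonneg.2 e2)]

lemma ln14 {t p : ℝ} (h : CapT t p) (h1 : (729/4096) ≤ t) (h2 : t ≤ 1) :
    (2099/50000) + (17/50) * t ≤ p := by
  obtain ⟨y, hy, ht, hp, H⟩ := h
  have e1 : (27/64) ≤ y := by nlinarith
  have e2 : y ≤ 1 := by nlinarith
  rw [ht]
  rcases le_total y (23/40) with g0 | g0
  · nlinarith [H (37/80) (by norm_num) (by norm_num), mul_nonneg (sub_nonneg.2 e1) (sub_nonneg.2 g0)]
  ·
    rcases le_total y (679/1000) with g1 | g1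
    · nlinarith [H (59/160) (by norm_num) (by norm_num), mul_nonneg (sub_nonneg.2 g0) (sub_nonneg.2 g1)]
    ·
      rcases le_total y (359/500) with g2 | g2
      · nlinarith [H (53/160) (by norm_num) (by norm_num), mul_nonneg (sub_nonneg.2 g1) (sub_nonneg.2 g2)]
      ·
        rcases le_total y (733/1000) with g3 | g3
        · nlinarith [H (51/160) (by norm_num) (by norm_num), mul_nonneg (sub_nonneg.2 g2) (sub_nonneg.2 g3)]
        ·
          rcases le_total y (149/200) with g4 | g4
          · nlinarith [H (5/16) (by norm_num) (by norm_num), mul_nonneg (sub_nonneg.2 g3) (sub_nonneg.2 g4)]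
          ·
            rcases le_total y (197/250) with g5 | g5
            · nlinarith [H (3/10) (by norm_num) (by norm_num), mul_nonneg (sub_nonneg.2 g4) (sub_nonneg.2 g5)]
            ·
              nlinarith [H (41/160) (by norm_num) (by norm_num), mul_nonneg (sub_nonneg.2 g5) (sub_nonneg.2 e2)]

lemma ln15 {t p : ℝ} (h : CapT t p) (h1 : (729/4096) ≤ t) (h2 : t ≤ 1) :
    (-7569/100000) + (1/2) * t ≤ p := by
  obtain ⟨y, hy, ht, hp, H⟩ := h
  have e1 : (27/64) ≤ y := by nlinarith
  have e2 : y ≤ 1 := by nlinarith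
  rw [ht]
  rcases le_total y (439/500) with g0 | g0
  · nlinarith [H (39/160) (by norm_num) (by norm_num), mul_nonneg (sub_nonneg.2 e1) (sub_nonneg.2 g0)]
  ·
    rcases le_total y (457/500) with g1 | g1
    · nlinarith [H (7/40) (by norm_num) (by norm_num), mul_nonneg (sub_nonneg.2 g0) (sub_nonneg.2 g1)]
    ·
      rcases le_total y (469/500) with g2 | g2
      · nlinarith [H (27/160) (by norm_num) (by norm_num), mul_nonneg (sub_nonneg.2 g1) (sub_nonneg.2 g2)]
      ·
        nlinarith [H (3/20) (by norm_num) (by norm_num), mul_nonneg (sub_nonneg.2 g2) (sub_nonneg.2 e2)]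

lemma ln16 {t p : ℝ} (h : CapT t p) (h1 : (729/4096) ≤ t) (h2 : t ≤ 1) :
    (87/2000) + (337/1000) * t ≤ p := by
  obtain ⟨y, hy, ht, hp, H⟩ := h
  have e1 : (27/64) ≤ y := by nlinarith
  have e2 : y ≤ 1 := by nlinarith
  rw [ht]
  rcases le_total y (517/1000) with g0 | g0
  · nlinarith [H (79/160) (by norm_num) (by norm_num), mul_nonneg (sub_nonneg.2 e1) (sub_nonneg.2 g0)]
  ·
    rcases le_total y (633/1000) with g1 | g1
    · nlinarith [H (13/32) (by norm_num) (by norm_num), mul_nonneg (sub_nonneg.2 g0) (sub_nonneg.2 g1)]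
    ·
      rcases le_total y (87/125) with g2 | g2
      · nlinarith [H (7/20) (by norm_num) (by norm_num), mul_nonneg (sub_nonneg.2 g1) (sub_nonneg.2 g2)]
      ·
        rcases le_total y (731/1000) with g3 | g3
        · nlinarith [H (13/40) (by norm_num) (by norm_num), mul_nonneg (sub_nonneg.2 g2) (sub_nonneg.2 g3)]
        ·
          rcases le_total y (98/125) with g4 | g4
          · nlinarith [H (49/160) (by norm_num) (by norm_num), mul_nonneg (sub_nonneg.2 g3) (sub_nonneg.2 g4)]
          ·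
            nlinarith [H (41/160) (by norm_num) (by norm_num), mul_nonneg (sub_nonneg.2 g4) (sub_nonneg.2 e2)]

lemma ln17 {t p : ℝ} (h : CapT t p) (h1 : (117649/16777216) ≤ t) (h2 : t ≤ 1) :
    (261/20000) + (193/500) * t ≤ p := by
  obtain ⟨y, hy, ht, hp, H⟩ := h
  have e1 : (343/4096) ≤ y := by nlinarith
  have e2 : y ≤ 1 := by nlinarith
  rw [ht]
  rcases le_total y (489/1000) with g0 | g0
  · nlinarith [H (113/160) (by norm_num) (by norm_num), mul_nonneg (sub_nonneg.2 e1) (sub_nonneg.2 g0)]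
  ·
    rcases le_total y (773/1000) with g1 | g1
    · nlinarith [H (13/40) (by norm_num) (by norm_num), mul_nonneg (sub_nonneg.2 g0) (sub_nonneg.2 g1)]
    ·
      rcases le_total y (103/125) with g2 | g2
      · nlinarith [H (41/160) (by norm_num) (by norm_num), mul_nonneg (sub_nonneg.2 g1) (sub_nonneg.2 g2)]
      ·
        rcases le_total y (21/25) with g3 | g3
        · nlinarith [H (39/160) (by norm_num) (by norm_num), mul_nonneg (sub_nonneg.2 g2) (sub_nonneg.2 g3)]
        ·
          rcases le_total y (87/100) with g4 | g4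
          · nlinarith [H (19/80) (by norm_num) (by norm_num), mul_nonneg (sub_nonneg.2 g3) (sub_nonneg.2 g4)]
          ·
            nlinarith [H (1/5) (by norm_num) (by norm_num), mul_nonneg (sub_nonneg.2 g4) (sub_nonneg.2 e2)]

/-! ### tree -/

end Vale.Agent.Propeller.Num7

namespace Vale.Agent.Propeller

open MeasureTheory ProbabilityTheory Finset Num7

theorem num7 (t p : ℕ → ℝ) (hd : Data 7 t p) (hc : CapIneq 7 7 t p) : False := by
  have hC : ∀ i, i < 7 → CapT (t i) (p i) := capT_of hd hc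
  have hT := hd.tsum
  have hP := hd.psum
  have c3 := hd.cons3
  have b3 := hd.cons 3 (by norm_num) (by norm_num)
  have b4 := hd.cons 4 (by norm_num) (by norm_num)
  have b5 := hd.cons 5 (by norm_num) (by norm_num)
  have b6 := hd.cons 6 (by norm_num) (by norm_num)
  simp only [Finset.sum_range_succ, Finset.sum_range_zero, Finset.sum_Ico_eq_sum_range] at hT hP c3 b3 b4 b5 b6
  norm_num [Finset.sum_range_succ] at hT hP c3 b3 b4 b5 b6
  have a0 := hd.anti 0 1 (by norm_num) (by norm_num)
  have a1 := hd.anti 1 2 (by norm_num) (by norm_num)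
  have a2 := hd.anti 2 3 (by norm_num) (by norm_num)
  have a3 := hd.anti 3 4 (by norm_num) (by norm_num)
  have a4 := hd.anti 4 5 (by norm_num) (by norm_num)
  have a5 := hd.anti 5 6 (by norm_num) (by norm_num)
  have q0 := hd.pnonneg 0 (by norm_num)
  have q1 := hd.pnonneg 1 (by norm_num)
  have q2 := hd.pnonneg 2 (by norm_num)
  have q3 := hd.pnonneg 3 (by norm_num)
  have q4 := hd.pnonneg 4 (by norm_num)
  have q5 := hd.pnonneg 5 (by norm_num)
  have q6 := hd.pnonneg 6 (by norm_num)
  have z := hd.nonneg 6 (by norm_num)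
  have m := t_le_one (hC 0 (by norm_num))
  rcases le_total (t 6) (117649/16777216) with s0 | s0
  ·
    linarith [hT, b6, ln0 (hC 0 (by norm_num)) (by linarith) (by linarith), ln0 (hC 1 (by norm_num)) (by linarith) (by linarith), ln1 (hC 2 (by norm_num)) (by linarith) (by linarith), ln1 (hC 3 (by norm_num)) (by linarith) (by linarith), ln1 (hC 4 (by norm_num)) (by linarith) (by linarith), ln1 (hC 5 (by norm_num)) (by linarith) (by linarith), ln2 (hC 6 (by norm_num)) (by linarith) (by linarith), hP, q0, q1, q2, q3, q4, q5, q6]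
  ·
    rcases le_total (t 4) (16777216/244140625) with s1 | s1
    ·
      rcases le_total (t 3) (16777216/244140625) with s2 | s2
      ·
        linarith [hT, a3, a4, a5, b3, c3, ln3 (hC 0 (by norm_num)) (by linarith) (by linarith), ln4 (hC 1 (by norm_num)) (by linarith) (by linarith), ln5 (hC 2 (by norm_num)) (by linarith) (by linarith), ln6 (hC 3 (by norm_num)) (by linarith) (by linarith), ln6 (hC 4 (by norm_num)) (by linarith) (by linarith), ln6 (hC 5 (by norm_num)) (by linarith) (by linarith), ln6 (hC 6 (by norm_num)) (by linarith) (by linarith), hP, q0, q1, q2, q3, q4, q5, q6]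
      ·
        linarith [hT, a0, a4, a5, b4, ln7 (hC 0 (by norm_num)) (by linarith) (by linarith), ln7 (hC 1 (by norm_num)) (by linarith) (by linarith), ln8 (hC 0 (by norm_num)) (by linarith) (by linarith), ln9 (hC 2 (by norm_num)) (by linarith) (by linarith), ln9 (hC 3 (by norm_num)) (by linarith) (by linarith), ln10 (hC 4 (by norm_num)) (by linarith) (by linarith), ln10 (hC 5 (by norm_num)) (by linarith) (by linarith), ln10 (hC 6 (by norm_num)) (by linarith) (by linarith), hP, q0, q1, q2, q3, q4, q5, q6]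
    ·
      rcases le_total (t 4) (729/4096) with s2 | s2
      ·
        linarith [hT, a5, b4, ln11 (hC 0 (by norm_num)) (by linarith) (by linarith), ln11 (hC 1 (by norm_num)) (by linarith) (by linarith), ln12 (hC 5 (by norm_num)) (by linarith) (by linarith), ln12 (hC 6 (by norm_num)) (by linarith) (by linarith), ln9 (hC 0 (by norm_num)) (by linarith) (by linarith), ln9 (hC 1 (by norm_num)) (by linarith) (by linarith), ln9 (hC 2 (by norm_num)) (by linarith) (by linarith), ln9 (hC 3 (by norm_num)) (by linarith) (by linarith), ln13 (hC 4 (by norm_num)) (by linarith) (by linarith), hP, q0, q1, q2, q3, q4, q5, q6]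
      ·
        linarith [hT, a0, a5, b5, ln14 (hC 0 (by norm_num)) (by linarith) (by linarith), ln14 (hC 1 (by norm_num)) (by linarith) (by linarith), ln15 (hC 0 (by norm_num)) (by linarith) (by linarith), ln16 (hC 2 (by norm_num)) (by linarith) (by linarith), ln16 (hC 3 (by norm_num)) (by linarith) (by linarith), ln16 (hC 4 (by norm_num)) (by linarith) (by linarith), ln17 (hC 5 (by norm_num)) (by linarith) (by linarith), ln17 (hC 6 (by norm_num)) (by linarith) (by linarith), hP, q0, q1, q2, q3, q4, q5, q6]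

end Vale.Agent.Propeller
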