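import Vale.Agent.Propeller.CapPoly

/-!
# P226, part NUM8: the numerical contradiction for `k = 8` in dimension `7`
-/

namespace Vale.Agent.Propeller.Num8

open MeasureTheory ProbabilityTheory Finset Vale.Agent.Propeller Vale.Agent.Propeller.CapPoly

/-- the cap inequalities for one cell -/
def CapT (t p : ℝ) : Prop := ∃ y : ℝ, 0 ≤ y ∧ t = y ^ 2 ∧ 0 ≤ p ∧ ∀ c : ℝ, 0 ≤ c → c < 1 →
  y ≤ (1 - c ^ 2) ^ 3
    - 6 * c * (8 / 15 - (c - 2 * c ^ 3 / 3 + c ^ 5 / 5)) + 32 / 5 * c * p

lemma capT_of {t p : ℕ → ℝ} (hd : Data 8 t p) (hc : CapIneq 7 8 t p) (i : ℕ) (hi : i < 8) :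
    CapT (t i) (p i) :=
  ⟨√(t i), Real.sqrt_nonneg _, (Real.sq_sqrt (hd.nonneg i hi)).symm, hd.pnonneg i hi,
    fun c h0 h1 => by
      have := hc i hi c h0 h1
      rwa [capA7, capB7] at this⟩

lemma t_le_one {t p : ℝ} (h : CapT t p) : t ≤ 1 := by
  obtain ⟨y, hy, ht, hp, H⟩ := h
  have := H 0 le_rfl (by norm_num)
  norm_num at this
  rw [ht]
  nlinarith

/-! ### lines -/

lemma ln0 {t p : ℝ} (h : CapT t p) (h1 : 0 ≤ t) (h2 : t ≤ 1) :
    (-7023/25000) + (73/100) * t ≤ p := by
  obtain ⟨y, hy, ht, hp, H⟩ := h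
  have e1 : 0 ≤ y := hy
  have e2 : y ≤ 1 := by nlinarith
  rw [ht]
  rcases le_total y (921/1000) with g0 | g0
  · nlinarith [H (19/80) (by norm_num) (by norm_num), mul_nonneg (sub_nonneg.2 e1) (sub_nonneg.2 g0)]
  ·
    rcases le_total y (961/1000) with g1 | g1
    · nlinarith [H (19/160) (by norm_num) (by norm_num), mul_nonneg (sub_nonneg.2 g0) (sub_nonneg.2 g1)]
    ·
      rcases le_total y (193/200) with g2 | g2
      · nlinarith [H (9/80) (by norm_num) (by norm_num), mul_nonneg (sub_nonneg.2 g1) (sub_nonneg.2 g2)]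
      ·
        nlinarith [H (17/160) (by norm_num) (by norm_num), mul_nonneg (sub_nonneg.2 g2) (sub_nonneg.2 e2)]

lemma ln1 {t p : ℝ} (h : CapT t p) (h1 : 0 ≤ t) (h2 : t ≤ (1053765797374081/4096000000000000)) :
    (-1/25000) + (51/100) * t ≤ p := by
  obtain ⟨y, hy, ht, hp, H⟩ := h
  have e1 : 0 ≤ y := hy
  have e2 : y ≤ (32461759/64000000) := by nlinarith
  rw [ht]
  rcases le_total y (17/50) with g0 | g0
  · nlinarith [H (9/10) (by norm_num) (by norm_num), mul_nonneg (sub_nonneg.2 e1) (sub_nonneg.2 g0)]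
  ·
    nlinarith [H (9/20) (by norm_num) (by norm_num), mul_nonneg (sub_nonneg.2 g0) (sub_nonneg.2 e2)]

lemma ln2 {t p : ℝ} (h : CapT t p) (h1 : 0 ≤ t) (h2 : t ≤ (117649/16777216)) :
    (-1/25000) + (229/100) * t ≤ p := by
  obtain ⟨y, hy, ht, hp, H⟩ := h
  have e1 : 0 ≤ y := hy
  have e2 : y ≤ (343/4096) := by nlinarith
  rw [ht]
  rcases le_total y (3/40) with g0 | g0
  · nlinarith [H (9/10) (by norm_num) (by norm_num), mul_nonneg (sub_nonneg.2 e1) (sub_nonneg.2 g0)]
  ·
    rcases le_total y (83/1000) with g1 | g1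
    · nlinarith [H (29/40) (by norm_num) (by norm_num), mul_nonneg (sub_nonneg.2 g0) (sub_nonneg.2 g1)]
    ·
      nlinarith [H (3/4) (by norm_num) (by norm_num), mul_nonneg (sub_nonneg.2 g1) (sub_nonneg.2 e2)]

lemma ln3 {t p : ℝ} (h : CapT t p) (h1 : (17596287801/1000000000000) ≤ t) (h2 : t ≤ 1) :
    (-963/50000) + (43/100) * t ≤ p := by
  obtain ⟨y, hy, ht, hp, H⟩ := h
  have e1 : (132651/1000000) ≤ y := by nlinarith
  have e2 : y ≤ 1 := by nlinarith
  rw [ht]
  rcases le_total y (749/1000) with g0 | g0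
  · nlinarith [H (33/80) (by norm_num) (by norm_num), mul_nonneg (sub_nonneg.2 e1) (sub_nonneg.2 g0)]
  ·
    rcases le_total y (433/500) with g1 | g1
    · nlinarith [H (9/40) (by norm_num) (by norm_num), mul_nonneg (sub_nonneg.2 g0) (sub_nonneg.2 g1)]
    ·
      rcases le_total y (7/8) with g2 | g2
      · nlinarith [H (17/80) (by norm_num) (by norm_num), mul_nonneg (sub_nonneg.2 g1) (sub_nonneg.2 g2)]
      ·
        rcases le_total y (89/100) with g3 | g3
        · nlinarith [H (33/160) (by norm_num) (by norm_num), mul_nonneg (sub_nonneg.2 g2) (sub_nonneg.2 g3)]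
        ·
          nlinarith [H (3/16) (by norm_num) (by norm_num), mul_nonneg (sub_nonneg.2 g3) (sub_nonneg.2 e2)]

lemma ln4 {t p : ℝ} (h : CapT t p) (h1 : (17596287801/1000000000000) ≤ t) (h2 : t ≤ 1) :
    (-233/20000) + (21/50) * t ≤ p := by
  obtain ⟨y, hy, ht, hp, H⟩ := h
  have e1 : (132651/1000000) ≤ y := by nlinarith
  have e2 : y ≤ 1 := by nlinarith
  rw [ht]
  rcases le_total y (29/40) with g0 | g0
  · nlinarith [H (7/16) (by norm_num) (by norm_num), mul_nonneg (sub_nonneg.2 e1) (sub_nonneg.2 g0)]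
  ·
    rcases le_total y (427/500) with g1 | g1
    · nlinarith [H (19/80) (by norm_num) (by norm_num), mul_nonneg (sub_nonneg.2 g0) (sub_nonneg.2 g1)]
    ·
      rcases le_total y (217/250) with g2 | g2
      · nlinarith [H (7/32) (by norm_num) (by norm_num), mul_nonneg (sub_nonneg.2 g1) (sub_nonneg.2 g2)]
      ·
        rcases le_total y (443/500) with g3 | g3
        · nlinarith [H (17/80) (by norm_num) (by norm_num), mul_nonneg (sub_nonneg.2 g2) (sub_nonneg.2 g3)]
        ·
          nlinarith [H (3/16) (by norm_num) (by norm_num), mul_nonneg (sub_nonneg.2 g3) (sub_nonneg.2 e2)]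

lemma ln5 {t p : ℝ} (h : CapT t p) (h1 : (17596287801/1000000000000) ≤ t) (h2 : t ≤ 1) :
    (497/25000) + (47/125) * t ≤ p := by
  obtain ⟨y, hy, ht, hp, H⟩ := h
  have e1 : (132651/1000000) ≤ y := by nlinarith
  have e2 : y ≤ 1 := by nlinarith
  rw [ht]
  rcases le_total y (477/1000) with g0 | g0
  · nlinarith [H (109/160) (by norm_num) (by norm_num), mul_nonneg (sub_nonneg.2 e1) (sub_nonneg.2 g0)]
  ·
    rcases le_total y (151/200) with g1 | g1
    · nlinarith [H (27/80) (by norm_num) (by norm_num), mul_nonneg (sub_nonneg.2 g0) (sub_nonneg.2 g1)]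
    ·
      rcases le_total y (809/1000) with g2 | g2
      · nlinarith [H (43/160) (by norm_num) (by norm_num), mul_nonneg (sub_nonneg.2 g1) (sub_nonneg.2 g2)]
      ·
        rcases le_total y (411/500) with g3 | g3
        · nlinarith [H (41/160) (by norm_num) (by norm_num), mul_nonneg (sub_nonneg.2 g2) (sub_nonneg.2 g3)]
        ·
          rcases le_total y (211/250) with g4 | g4
          · nlinarith [H (1/4) (by norm_num) (by norm_num), mul_nonneg (sub_nonneg.2 g3) (sub_nonneg.2 g4)]
          ·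
            nlinarith [H (9/40) (by norm_num) (by norm_num), mul_nonneg (sub_nonneg.2 g4) (sub_nonneg.2 e2)]

lemma ln6 {t p : ℝ} (h : CapT t p) (h1 : (117649/16777216) ≤ t) (h2 : t ≤ 1) :
    (261/20000) + (193/500) * t ≤ p := by
  obtain ⟨y, hy, ht, hp, H⟩ := h
  have e1 : (343/4096) ≤ y := by nlinarith
  have e2 : y ≤ 1 := by nlinarith
  rw [ht]
  rcases le_total y (489/1000) with g0 | g0
  · nlinarith [H (113/160) (by norm_num) (by norm_num), mul_nonneg (sub_nonneg.2 e1) (sub_nonneg.2 g0)]
  ·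
    rcases le_total y (773/1000) with g1 | g1
    · nlinarith [H (13/40) (by norm_num) (by norm_num), mul_nonneg (sub_nonneg.2 g0) (sub_nonneg.2 g1)]
    ·
      rcases le_total y (103/125) with g2 | g2
      · nlinarith [H (41/160) (by norm_num) (by norm_num), mul_nonneg (sub_nonneg.2 g1) (sub_nonneg.2 g2)]
      ·
        rcases le_total y (21/25) with g3 | g3
        · nlinarith [H (39/160) (by norm_num) (by norm_num), mul_nonneg (sub_nonneg.2 g2) (sub_nonneg.2 g3)]
        ·
          rcases le_total y (87/100) with g4 | g4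
          · nlinarith [H (19/80) (by norm_num) (by norm_num), mul_nonneg (sub_nonneg.2 g3) (sub_nonneg.2 g4)]
          ·
            nlinarith [H (1/5) (by norm_num) (by norm_num), mul_nonneg (sub_nonneg.2 g4) (sub_nonneg.2 e2)]

lemma ln7 {t p : ℝ} (h : CapT t p) (h1 : (117649/16777216) ≤ t) (h2 : t ≤ (16777216/244140625)) :
    (563/50000) + (339/500) * t ≤ p := by
  obtain ⟨y, hy, ht, hp, H⟩ := h
  have e1 : (343/4096) ≤ y := by nlinarith
  have e2 : y ≤ (4096/15625) := by nlinarith
  rw [ht]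
  rcases le_total y (57/250) with g0 | g0
  · nlinarith [H (59/80) (by norm_num) (by norm_num), mul_nonneg (sub_nonneg.2 e1) (sub_nonneg.2 g0)]
  ·
    rcases le_total y (131/500) with g1 | g1
    · nlinarith [H (3/5) (by norm_num) (by norm_num), mul_nonneg (sub_nonneg.2 g0) (sub_nonneg.2 g1)]
    ·
      nlinarith [H (3/5) (by norm_num) (by norm_num), mul_nonneg (sub_nonneg.2 g1) (sub_nonneg.2 e2)]

lemma ln8 {t p : ℝ} (h : CapT t p) (h1 : (16777216/244140625) ≤ t) (h2 : t ≤ 1) :
    (3027/100000) + (9/25) * t ≤ p := by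
  obtain ⟨y, hy, ht, hp, H⟩ := h
  have e1 : (4096/15625) ≤ y := by nlinarith
  have e2 : y ≤ 1 := by nlinarith
  rw [ht]
  rcases le_total y (72/125) with g0 | g0
  · nlinarith [H (83/160) (by norm_num) (by norm_num), mul_nonneg (sub_nonneg.2 e1) (sub_nonneg.2 g0)]
  ·
    rcases le_total y (743/1000) with g1 | g1
    · nlinarith [H (53/160) (by norm_num) (by norm_num), mul_nonneg (sub_nonneg.2 g0) (sub_nonneg.2 g1)]
    ·
      rcases le_total y (781/1000) with g2 | g2
      · nlinarith [H (23/80) (by norm_num) (by norm_num), mul_nonneg (sub_nonneg.2 g1) (sub_nonneg.2 g2)]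
      ·
        rcases le_total y (399/500) with g3 | g3
        · nlinarith [H (11/40) (by norm_num) (by norm_num), mul_nonneg (sub_nonneg.2 g2) (sub_nonneg.2 g3)]
        ·
          rcases le_total y (411/500) with g4 | g4
          · nlinarith [H (43/160) (by norm_num) (by norm_num), mul_nonneg (sub_nonneg.2 g3) (sub_nonneg.2 g4)]
          ·
            nlinarith [H (19/80) (by norm_num) (by norm_num), mul_nonneg (sub_nonneg.2 g4) (sub_nonneg.2 e2)]

lemma ln9 {t p : ℝ} (h : CapT t p) (h1 : (16777216/244140625) ≤ t) (h2 : t ≤ 1) :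
    (667/20000) + (71/200) * t ≤ p := by
  obtain ⟨y, hy, ht, hp, H⟩ := h
  have e1 : (4096/15625) ≤ y := by nlinarith
  have e2 : y ≤ 1 := by nlinarith
  rw [ht]
  rcases le_total y (99/200) with g0 | g0
  · nlinarith [H (93/160) (by norm_num) (by norm_num), mul_nonneg (sub_nonneg.2 e1) (sub_nonneg.2 g0)]
  ·
    rcases le_total y (88/125) with g1 | g1
    · nlinarith [H (59/160) (by norm_num) (by norm_num), mul_nonneg (sub_nonneg.2 g0) (sub_nonneg.2 g1)]
    ·
      rcases le_total y (153/200) with g2 | g2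
      · nlinarith [H (3/10) (by norm_num) (by norm_num), mul_nonneg (sub_nonneg.2 g1) (sub_nonneg.2 g2)]
      ·
        rcases le_total y (389/500) with g3 | g3
        · nlinarith [H (23/80) (by norm_num) (by norm_num), mul_nonneg (sub_nonneg.2 g2) (sub_nonneg.2 g3)]
        ·
          rcases le_total y (99/125) with g4 | g4
          · nlinarith [H (9/32) (by norm_num) (by norm_num), mul_nonneg (sub_nonneg.2 g3) (sub_nonneg.2 g4)]
          ·
            rcases le_total y (106/125) with g5 | g5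
            · nlinarith [H (43/160) (by norm_num) (by norm_num), mul_nonneg (sub_nonneg.2 g4) (sub_nonneg.2 g5)]
            ·
              nlinarith [H (1/5) (by norm_num) (by norm_num), mul_nonneg (sub_nonneg.2 g5) (sub_nonneg.2 e2)]

/-! ### tree -/

end Vale.Agent.Propeller.Num8

namespace Vale.Agent.Propeller

open MeasureTheory ProbabilityTheory Finset Num8

theorem num8 (t p : ℕ → ℝ) (hd : Data 8 t p) (hc : CapIneq 7 8 t p) : False := by
  have hC : ∀ i, i < 8 → CapT (t i) (p i) := capT_of hd hc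
  have hT := hd.tsum
  have hP := hd.psum
  have c3 := hd.cons3
  have b3 := hd.cons 3 (by norm_num) (by norm_num)
  have b4 := hd.cons 4 (by norm_num) (by norm_num)
  have b5 := hd.cons 5 (by norm_num) (by norm_num)
  have b6 := hd.cons 6 (by norm_num) (by norm_num)
  have b7 := hd.cons 7 (by norm_num) (by norm_num)
  simp only [Finset.sum_range_succ, Finset.sum_range_zero, Finset.sum_Ico_eq_sum_range] at hT hP c3 b3 b4 b5 b6 b7
  norm_num [Finset.sum_range_succ] at hT hP c3 b3 b4 b5 b6 b7
  have a0 := hd.anti 0 1 (by norm_num) (by norm_num)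
  have a1 := hd.anti 1 2 (by norm_num) (by norm_num)
  have a2 := hd.anti 2 3 (by norm_num) (by norm_num)
  have a3 := hd.anti 3 4 (by norm_num) (by norm_num)
  have a4 := hd.anti 4 5 (by norm_num) (by norm_num)
  have a5 := hd.anti 5 6 (by norm_num) (by norm_num)
  have a6 := hd.anti 6 7 (by norm_num) (by norm_num)
  have q0 := hd.pnonneg 0 (by norm_num)
  have q1 := hd.pnonneg 1 (by norm_num)
  have q2 := hd.pnonneg 2 (by norm_num)
  have q3 := hd.pnonneg 3 (by norm_num)
  have q4 := hd.pnonneg 4 (by norm_num)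
  have q5 := hd.pnonneg 5 (by norm_num)
  have q6 := hd.pnonneg 6 (by norm_num)
  have q7 := hd.pnonneg 7 (by norm_num)
  have z := hd.nonneg 7 (by norm_num)
  have m := t_le_one (hC 0 (by norm_num))
  rcases le_total (t 7) (117649/16777216) with s0 | s0
  ·
    rcases le_total (t 2) (1053765797374081/4096000000000000) with s1 | s1
    ·
      linarith [hT, b7, ln0 (hC 0 (by norm_num)) (by linarith) (by linarith), ln0 (hC 1 (by norm_num)) (by linarith) (by linarith), ln1 (hC 2 (by norm_num)) (by linarith) (by linarith), ln1 (hC 3 (by norm_num)) (by linarith) (by linarith), ln1 (hC 4 (by norm_num)) (by linarith) (by linarith), ln1 (hC 5 (by norm_num)) (by linarith) (by linarith), ln1 (hC 6 (by norm_num)) (by linarith) (by linarith), ln2 (hC 7 (by norm_num)) (by linarith) (by linarith), hP, q0, q1, q2, q3, q4, q5, q6, q7]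
    ·
      linarith [a3, a4, a5, b5, hP, q0, q1, q2, q3, q4, q5, q6, q7]
  ·
    rcases le_total (t 4) (16777216/244140625) with s1 | s1
    ·
      rcases le_total (t 2) (17596287801/1000000000000) with s2 | s2
      ·
        linarith [hT, a0, a2, a3, a4, a5, a6, hP, q0, q1, q2, q3, q4, q5, q6, q7]
      ·
        linarith [hT, a0, a1, a4, a5, a6, b4, c3, ln3 (hC 0 (by norm_num)) (by linarith) (by linarith), ln4 (hC 1 (by norm_num)) (by linarith) (by linarith), ln5 (hC 2 (by norm_num)) (by linarith) (by linarith), ln6 (hC 3 (by norm_num)) (by linarith) (by linarith), ln7 (hC 4 (by norm_num)) (by linarith) (by linarith), ln7 (hC 5 (by norm_num)) (by linarith) (by linarith), ln7 (hC 6 (by norm_num)) (by linarith) (by linarith), ln7 (hC 7 (by norm_num)) (by linarith) (by linarith), hP, q0, q1, q2, q3, q4, q5, q6, q7]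
    ·
      linarith [hT, a5, a6, b5, ln8 (hC 0 (by norm_num)) (by linarith) (by linarith), ln8 (hC 1 (by norm_num)) (by linarith) (by linarith), ln9 (hC 0 (by norm_num)) (by linarith) (by linarith), ln9 (hC 1 (by norm_num)) (by linarith) (by linarith), ln9 (hC 2 (by norm_num)) (by linarith) (by linarith), ln9 (hC 3 (by norm_num)) (by linarith) (by linarith), ln9 (hC 4 (by norm_num)) (by linarith) (by linarith), ln6 (hC 5 (by norm_num)) (by linarith) (by linarith), ln6 (hC 6 (by norm_num)) (by linarith) (by linarith), ln6 (hC 7 (by norm_num)) (by linarith) (by linarith), hP, q0, q1, q2, q3, q4, q5, q6, q7]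

end Vale.Agent.Propeller
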