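import Vale.Agent.Propeller.CapPoly

/-!
# P226, part NUM9: the numerical contradiction for `k = 9` in dimension `9`
-/

namespace Vale.Agent.Propeller.Num9

open MeasureTheory ProbabilityTheory Finset Vale.Agent.Propeller Vale.Agent.Propeller.CapPoly

/-- the cap inequalities for one cell -/
def CapT (t p : ℝ) : Prop := ∃ y : ℝ, 0 ≤ y ∧ t = y ^ 2 ∧ 0 ≤ p ∧ ∀ c : ℝ, 0 ≤ c → c < 1 →
  y ≤ (1 - c ^ 2) ^ 4
    - 8 * c * (16 / 35 - (c - c ^ 3 + 3 * c ^ 5 / 5 - c ^ 7 / 7)) + 256 / 35 * c * p

lemma capT_of {t p : ℕ → ℝ} (hd : Data 9 t p) (hc : CapIneq 9 9 t p) (i : ℕ) (hi : i < 9) :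
    CapT (t i) (p i) :=
  ⟨√(t i), Real.sqrt_nonneg _, (Real.sq_sqrt (hd.nonneg i hi)).symm, hd.pnonneg i hi,
    fun c h0 h1 => by
      have := hc i hi c h0 h1
      rwa [capA9, capB9] at this⟩

lemma t_le_one {t p : ℝ} (h : CapT t p) : t ≤ 1 := by
  obtain ⟨y, hy, ht, hp, H⟩ := h
  have := H 0 le_rfl (by norm_num)
  norm_num at this
  rw [ht]
  nlinarith

/-! ### lines -/

lemma ln0 {t p : ℝ} (h : CapT t p) (h1 : (4294967296/152587890625) ≤ t) (h2 : t ≤ 1) :
    (-25927/50000) + (49/50) * t ≤ p := by
  obtain ⟨y, hy, ht, hp, H⟩ := h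
  have e1 : (65536/390625) ≤ y := by nlinarith
  have e2 : y ≤ 1 := by nlinarith
  rw [ht]
  rcases le_total y (241/250) with g0 | g0
  · nlinarith [H (1/8) (by norm_num) (by norm_num), mul_nonneg (sub_nonneg.2 e1) (sub_nonneg.2 g0)]
  ·
    rcases le_total y (979/1000) with g1 | g1
    · nlinarith [H (3/40) (by norm_num) (by norm_num), mul_nonneg (sub_nonneg.2 g0) (sub_nonneg.2 g1)]
    ·
      rcases le_total y (24497/25000) with g2 | g2
      · nlinarith [H (3/40) (by norm_num) (by norm_num), mul_nonneg (sub_nonneg.2 g1) (sub_nonneg.2 g2)]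
      ·
        nlinarith [H (11/160) (by norm_num) (by norm_num), mul_nonneg (sub_nonneg.2 g2) (sub_nonneg.2 e2)]

lemma ln1 {t p : ℝ} (h : CapT t p) (h1 : (4294967296/152587890625) ≤ t) (h2 : t ≤ 1) :
    (68/3125) + (37/100) * t ≤ p := by
  obtain ⟨y, hy, ht, hp, H⟩ := h
  have e1 : (65536/390625) ≤ y := by nlinarith
  have e2 : y ≤ 1 := by nlinarith
  rw [ht]
  rcases le_total y (519/1000) with g0 | g0
  · nlinarith [H (43/80) (by norm_num) (by norm_num), mul_nonneg (sub_nonneg.2 e1) (sub_nonneg.2 g0)]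
  ·
    rcases le_total y (747/1000) with g1 | g1
    · nlinarith [H (47/160) (by norm_num) (by norm_num), mul_nonneg (sub_nonneg.2 g0) (sub_nonneg.2 g1)]
    ·
      rcases le_total y (793/1000) with g2 | g2
      · nlinarith [H (39/160) (by norm_num) (by norm_num), mul_nonneg (sub_nonneg.2 g1) (sub_nonneg.2 g2)]
      ·
        rcases le_total y (809/1000) with g3 | g3
        · nlinarith [H (37/160) (by norm_num) (by norm_num), mul_nonneg (sub_nonneg.2 g2) (sub_nonneg.2 g3)]
        ·
          rcases le_total y (209/250) with g4 | g4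
          · nlinarith [H (9/40) (by norm_num) (by norm_num), mul_nonneg (sub_nonneg.2 g3) (sub_nonneg.2 g4)]
          ·
            nlinarith [H (1/5) (by norm_num) (by norm_num), mul_nonneg (sub_nonneg.2 g4) (sub_nonneg.2 e2)]

lemma ln2 {t p : ℝ} (h : CapT t p) (h1 : 0 ≤ t) (h2 : t ≤ 1) :
    (-3/100000) + (2/5) * t ≤ p := by
  obtain ⟨y, hy, ht, hp, H⟩ := h
  have e1 : 0 ≤ y := hy
  have e2 : y ≤ 1 := by nlinarith
  rw [ht]
  rcases le_total y (399/1000) with g0 | g0
  · nlinarith [H (137/160) (by norm_num) (by norm_num), mul_nonneg (sub_nonneg.2 e1) (sub_nonneg.2 g0)]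
  ·
    rcases le_total y (391/500) with g1 | g1
    · nlinarith [H (47/160) (by norm_num) (by norm_num), mul_nonneg (sub_nonneg.2 g0) (sub_nonneg.2 g1)]
    ·
      rcases le_total y (443/500) with g2 | g2
      · nlinarith [H (33/160) (by norm_num) (by norm_num), mul_nonneg (sub_nonneg.2 g1) (sub_nonneg.2 g2)]
      ·
        nlinarith [H (3/20) (by norm_num) (by norm_num), mul_nonneg (sub_nonneg.2 g2) (sub_nonneg.2 e2)]

lemma ln3 {t p : ℝ} (h : CapT t p) (h1 : 0 ≤ t) (h2 : t ≤ (45767944570401/10000000000000000)) :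
    (-3/100000) + (66/25) * t ≤ p := by
  obtain ⟨y, hy, ht, hp, H⟩ := h
  have e1 : 0 ≤ y := hy
  have e2 : y ≤ (6765201/100000000) := by nlinarith
  rw [ht]
  rcases le_total y (3/50) with g0 | g0
  · nlinarith [H (69/80) (by norm_num) (by norm_num), mul_nonneg (sub_nonneg.2 e1) (sub_nonneg.2 g0)]
  ·
    rcases le_total y (67/1000) with g1 | g1
    · nlinarith [H (27/40) (by norm_num) (by norm_num), mul_nonneg (sub_nonneg.2 g0) (sub_nonneg.2 g1)]
    ·
      nlinarith [H (7/10) (by norm_num) (by norm_num), mul_nonneg (sub_nonneg.2 g1) (sub_nonneg.2 e2)]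

lemma ln4 {t p : ℝ} (h : CapT t p) (h1 : (45767944570401/10000000000000000) ≤ t) (h2 : t ≤ 1) :
    (-3659/100000) + (9/20) * t ≤ p := by
  obtain ⟨y, hy, ht, hp, H⟩ := h
  have e1 : (6765201/100000000) ≤ y := by nlinarith
  have e2 : y ≤ 1 := by nlinarith
  rw [ht]
  rcases le_total y (189/250) with g0 | g0
  · nlinarith [H (59/160) (by norm_num) (by norm_num), mul_nonneg (sub_nonneg.2 e1) (sub_nonneg.2 g0)]
  ·
    rcases le_total y (877/1000) with g1 | g1
    · nlinarith [H (3/16) (by norm_num) (by norm_num), mul_nonneg (sub_nonneg.2 g0) (sub_nonneg.2 g1)]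
    ·
      rcases le_total y (887/1000) with g2 | g2
      · nlinarith [H (7/40) (by norm_num) (by norm_num), mul_nonneg (sub_nonneg.2 g1) (sub_nonneg.2 g2)]
      ·
        rcases le_total y (913/1000) with g3 | g3
        · nlinarith [H (27/160) (by norm_num) (by norm_num), mul_nonneg (sub_nonneg.2 g2) (sub_nonneg.2 g3)]
        ·
          nlinarith [H (3/20) (by norm_num) (by norm_num), mul_nonneg (sub_nonneg.2 g3) (sub_nonneg.2 e2)]

lemma ln5 {t p : ℝ} (h : CapT t p) (h1 : (45767944570401/10000000000000000) ≤ t) (h2 : t ≤ 1) :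
    (103/10000) + (387/1000) * t ≤ p := by
  obtain ⟨y, hy, ht, hp, H⟩ := h
  have e1 : (6765201/100000000) ≤ y := by nlinarith
  have e2 : y ≤ 1 := by nlinarith
  rw [ht]
  rcases le_total y (223/500) with g0 | g0
  · nlinarith [H (11/16) (by norm_num) (by norm_num), mul_nonneg (sub_nonneg.2 e1) (sub_nonneg.2 g0)]
  ·
    rcases le_total y (191/250) with g1 | g1
    · nlinarith [H (47/160) (by norm_num) (by norm_num), mul_nonneg (sub_nonneg.2 g0) (sub_nonneg.2 g1)]
    ·
      rcases le_total y (823/1000) with g2 | g2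
      · nlinarith [H (9/40) (by norm_num) (by norm_num), mul_nonneg (sub_nonneg.2 g1) (sub_nonneg.2 g2)]
      ·
        rcases le_total y (423/500) with g3 | g3
        · nlinarith [H (17/80) (by norm_num) (by norm_num), mul_nonneg (sub_nonneg.2 g2) (sub_nonneg.2 g3)]
        ·
          rcases le_total y (489/500) with g4 | g4
          · nlinarith [H (31/160) (by norm_num) (by norm_num), mul_nonneg (sub_nonneg.2 g3) (sub_nonneg.2 g4)]
          ·
            nlinarith [H (1/20) (by norm_num) (by norm_num), mul_nonneg (sub_nonneg.2 g4) (sub_nonneg.2 e2)]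

lemma ln6 {t p : ℝ} (h : CapT t p) (h1 : (45767944570401/10000000000000000) ≤ t) (h2 : t ≤ (36714162532123280961/655360000000000000000)) :
    (109/12500) + (183/250) * t ≤ p := by
  obtain ⟨y, hy, ht, hp, H⟩ := h
  have e1 : (6765201/100000000) ≤ y := by nlinarith
  have e2 : y ≤ (6059221281/25600000000) := by nlinarith
  rw [ht]
  rcases le_total y (51/250) with g0 | g0
  · nlinarith [H (11/16) (by norm_num) (by norm_num), mul_nonneg (sub_nonneg.2 e1) (sub_nonneg.2 g0)]
  ·
    nlinarith [H (11/20) (by norm_num) (by norm_num), mul_nonneg (sub_nonneg.2 g0) (sub_nonneg.2 e2)]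

lemma ln7 {t p : ℝ} (h : CapT t p) (h1 : (36714162532123280961/655360000000000000000) ≤ t) (h2 : t ≤ 1) :
    (-1349/100000) + (21/50) * t ≤ p := by
  obtain ⟨y, hy, ht, hp, H⟩ := h
  have e1 : (6059221281/25600000000) ≤ y := by nlinarith
  have e2 : y ≤ 1 := by nlinarith
  rw [ht]
  rcases le_total y (153/200) with g0 | g0
  · nlinarith [H (13/40) (by norm_num) (by norm_num), mul_nonneg (sub_nonneg.2 e1) (sub_nonneg.2 g0)]
  ·
    rcases le_total y (853/1000) with g1 | g1
    · nlinarith [H (33/160) (by norm_num) (by norm_num), mul_nonneg (sub_nonneg.2 g0) (sub_nonneg.2 g1)]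
    ·
      rcases le_total y (863/1000) with g2 | g2
      · nlinarith [H (31/160) (by norm_num) (by norm_num), mul_nonneg (sub_nonneg.2 g1) (sub_nonneg.2 g2)]
      ·
        rcases le_total y (877/1000) with g3 | g3
        · nlinarith [H (3/16) (by norm_num) (by norm_num), mul_nonneg (sub_nonneg.2 g2) (sub_nonneg.2 g3)]
        ·
          rcases le_total y (197/200) with g4 | g4
          · nlinarith [H (7/40) (by norm_num) (by norm_num), mul_nonneg (sub_nonneg.2 g3) (sub_nonneg.2 g4)]
          ·
            nlinarith [H (1/40) (by norm_num) (by norm_num), mul_nonneg (sub_nonneg.2 g4) (sub_nonneg.2 e2)]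

lemma ln8 {t p : ℝ} (h : CapT t p) (h1 : (36714162532123280961/655360000000000000000) ≤ t) (h2 : t ≤ 1) :
    (1513/100000) + (19/50) * t ≤ p := by
  obtain ⟨y, hy, ht, hp, H⟩ := h
  have e1 : (6059221281/25600000000) ≤ y := by nlinarith
  have e2 : y ≤ 1 := by nlinarith
  rw [ht]
  rcases le_total y (83/125) with g0 | g0
  · nlinarith [H (2/5) (by norm_num) (by norm_num), mul_nonneg (sub_nonneg.2 e1) (sub_nonneg.2 g0)]
  ·
    rcases le_total y (159/200) with g1 | g1
    · nlinarith [H (1/4) (by norm_num) (by norm_num), mul_nonneg (sub_nonneg.2 g0) (sub_nonneg.2 g1)]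
    ·
      rcases le_total y (819/1000) with g2 | g2
      · nlinarith [H (9/40) (by norm_num) (by norm_num), mul_nonneg (sub_nonneg.2 g1) (sub_nonneg.2 g2)]
      ·
        rcases le_total y (104/125) with g3 | g3
        · nlinarith [H (7/32) (by norm_num) (by norm_num), mul_nonneg (sub_nonneg.2 g2) (sub_nonneg.2 g3)]
        ·
          rcases le_total y (913/1000) with g4 | g4
          · nlinarith [H (33/160) (by norm_num) (by norm_num), mul_nonneg (sub_nonneg.2 g3) (sub_nonneg.2 g4)]
          ·
            nlinarith [H (1/8) (by norm_num) (by norm_num), mul_nonneg (sub_nonneg.2 g4) (sub_nonneg.2 e2)]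

lemma ln9 {t p : ℝ} (h : CapT t p) (h1 : (36714162532123280961/655360000000000000000) ≤ t) (h2 : t ≤ 1) :
    (281/10000) + (9/25) * t ≤ p := by
  obtain ⟨y, hy, ht, hp, H⟩ := h
  have e1 : (6059221281/25600000000) ≤ y := by nlinarith
  have e2 : y ≤ 1 := by nlinarith
  rw [ht]
  rcases le_total y (267/500) with g0 | g0
  · nlinarith [H (79/160) (by norm_num) (by norm_num), mul_nonneg (sub_nonneg.2 e1) (sub_nonneg.2 g0)]
  ·
    rcases le_total y (181/250) with g1 | g1
    · nlinarith [H (49/160) (by norm_num) (by norm_num), mul_nonneg (sub_nonneg.2 g0) (sub_nonneg.2 g1)]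
    ·
      rcases le_total y (773/1000) with g2 | g2
      · nlinarith [H (41/160) (by norm_num) (by norm_num), mul_nonneg (sub_nonneg.2 g1) (sub_nonneg.2 g2)]
      ·
        rcases le_total y (79/100) with g3 | g3
        · nlinarith [H (39/160) (by norm_num) (by norm_num), mul_nonneg (sub_nonneg.2 g2) (sub_nonneg.2 g3)]
        ·
          rcases le_total y (813/1000) with g4 | g4
          · nlinarith [H (19/80) (by norm_num) (by norm_num), mul_nonneg (sub_nonneg.2 g3) (sub_nonneg.2 g4)]
          ·
            rcases le_total y (487/500) with g5 | g5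
            · nlinarith [H (17/80) (by norm_num) (by norm_num), mul_nonneg (sub_nonneg.2 g4) (sub_nonneg.2 g5)]
            ·
              nlinarith [H (1/20) (by norm_num) (by norm_num), mul_nonneg (sub_nonneg.2 g5) (sub_nonneg.2 e2)]

lemma ln10 {t p : ℝ} (h : CapT t p) (h1 : (36714162532123280961/655360000000000000000) ≤ t) (h2 : t ≤ (107232261306583856641/655360000000000000000)) :
    (639/25000) + (43/100) * t ≤ p := by
  obtain ⟨y, hy, ht, hp, H⟩ := h
  have e1 : (6059221281/25600000000) ≤ y := by nlinarith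
  have e2 : y ≤ (10355301121/25600000000) := by nlinarith
  rw [ht]
  rcases le_total y (71/200) with g0 | g0
  · nlinarith [H (43/80) (by norm_num) (by norm_num), mul_nonneg (sub_nonneg.2 e1) (sub_nonneg.2 g0)]
  ·
    nlinarith [H (9/20) (by norm_num) (by norm_num), mul_nonneg (sub_nonneg.2 g0) (sub_nonneg.2 e2)]

lemma ln11 {t p : ℝ} (h : CapT t p) (h1 : (45767944570401/10000000000000000) ≤ t) (h2 : t ≤ (107232261306583856641/655360000000000000000)) :
    (23/2500) + (53/100) * t ≤ p := by
  obtain ⟨y, hy, ht, hp, H⟩ := h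
  have e1 : (6765201/100000000) ≤ y := by nlinarith
  have e2 : y ≤ (10355301121/25600000000) := by nlinarith
  rw [ht]
  rcases le_total y (333/1000) with g0 | g0
  · nlinarith [H (103/160) (by norm_num) (by norm_num), mul_nonneg (sub_nonneg.2 e1) (sub_nonneg.2 g0)]
  ·
    rcases le_total y (101/250) with g1 | g1
    · nlinarith [H (9/20) (by norm_num) (by norm_num), mul_nonneg (sub_nonneg.2 g0) (sub_nonneg.2 g1)]
    ·
      nlinarith [H (9/20) (by norm_num) (by norm_num), mul_nonneg (sub_nonneg.2 g1) (sub_nonneg.2 e2)]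

lemma ln12 {t p : ℝ} (h : CapT t p) (h1 : (107232261306583856641/655360000000000000000) ≤ t) (h2 : t ≤ 1) :
    (341/10000) + (7/20) * t ≤ p := by
  obtain ⟨y, hy, ht, hp, H⟩ := h
  have e1 : (10355301121/25600000000) ≤ y := by nlinarith
  have e2 : y ≤ 1 := by nlinarith
  rw [ht]
  rcases le_total y (319/500) with g0 | g0
  · nlinarith [H (3/8) (by norm_num) (by norm_num), mul_nonneg (sub_nonneg.2 e1) (sub_nonneg.2 g0)]
  ·
    rcases le_total y (731/1000) with g1 | g1
    · nlinarith [H (23/80) (by norm_num) (by norm_num), mul_nonneg (sub_nonneg.2 g0) (sub_nonneg.2 g1)]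
    ·
      rcases le_total y (759/1000) with g2 | g2
      · nlinarith [H (21/80) (by norm_num) (by norm_num), mul_nonneg (sub_nonneg.2 g1) (sub_nonneg.2 g2)]
      ·
        rcases le_total y (193/250) with g3 | g3
        · nlinarith [H (41/160) (by norm_num) (by norm_num), mul_nonneg (sub_nonneg.2 g2) (sub_nonneg.2 g3)]
        ·
          rcases le_total y (797/1000) with g4 | g4
          · nlinarith [H (1/4) (by norm_num) (by norm_num), mul_nonneg (sub_nonneg.2 g3) (sub_nonneg.2 g4)]
          ·
            rcases le_total y (943/1000) with g5 | g5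
            · nlinarith [H (9/40) (by norm_num) (by norm_num), mul_nonneg (sub_nonneg.2 g4) (sub_nonneg.2 g5)]
            ·
              nlinarith [H (3/40) (by norm_num) (by norm_num), mul_nonneg (sub_nonneg.2 g5) (sub_nonneg.2 e2)]

lemma ln13 {t p : ℝ} (h : CapT t p) (h1 : (107232261306583856641/655360000000000000000) ≤ t) (h2 : t ≤ 1) :
    (3967/100000) + (17/50) * t ≤ p := by
  obtain ⟨y, hy, ht, hp, H⟩ := h
  have e1 : (10355301121/25600000000) ≤ y := by nlinarith
  have e2 : y ≤ 1 := by nlinarith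
  rw [ht]
  rcases le_total y (273/500) with g0 | g0
  · nlinarith [H (17/40) (by norm_num) (by norm_num), mul_nonneg (sub_nonneg.2 e1) (sub_nonneg.2 g0)]
  ·
    rcases le_total y (659/1000) with g1 | g1
    · nlinarith [H (27/80) (by norm_num) (by norm_num), mul_nonneg (sub_nonneg.2 g0) (sub_nonneg.2 g1)]
    ·
      rcases le_total y (71/100) with g2 | g2
      · nlinarith [H (47/160) (by norm_num) (by norm_num), mul_nonneg (sub_nonneg.2 g1) (sub_nonneg.2 g2)]
      ·
        rcases le_total y (727/1000) with g3 | g3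
        · nlinarith [H (9/32) (by norm_num) (by norm_num), mul_nonneg (sub_nonneg.2 g2) (sub_nonneg.2 g3)]
        ·
          rcases le_total y (741/1000) with g4 | g4
          · nlinarith [H (11/40) (by norm_num) (by norm_num), mul_nonneg (sub_nonneg.2 g3) (sub_nonneg.2 g4)]
          ·
            rcases le_total y (791/1000) with g5 | g5
            · nlinarith [H (21/80) (by norm_num) (by norm_num), mul_nonneg (sub_nonneg.2 g4) (sub_nonneg.2 g5)]
            ·
              nlinarith [H (9/40) (by norm_num) (by norm_num), mul_nonneg (sub_nonneg.2 g5) (sub_nonneg.2 e2)]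

lemma ln14 {t p : ℝ} (h : CapT t p) (h1 : (107232261306583856641/655360000000000000000) ≤ t) (h2 : t ≤ 1) :
    (4061/100000) + (169/500) * t ≤ p := by
  obtain ⟨y, hy, ht, hp, H⟩ := h
  have e1 : (10355301121/25600000000) ≤ y := by nlinarith
  have e2 : y ≤ 1 := by nlinarith
  rw [ht]
  rcases le_total y (507/1000) with g0 | g0
  · nlinarith [H (71/160) (by norm_num) (by norm_num), mul_nonneg (sub_nonneg.2 e1) (sub_nonneg.2 g0)]
  ·
    rcases le_total y (633/1000) with g1 | g1
    · nlinarith [H (57/160) (by norm_num) (by norm_num), mul_nonneg (sub_nonneg.2 g0) (sub_nonneg.2 g1)]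
    ·
      rcases le_total y (697/1000) with g2 | g2
      · nlinarith [H (49/160) (by norm_num) (by norm_num), mul_nonneg (sub_nonneg.2 g1) (sub_nonneg.2 g2)]
      ·
        rcases le_total y (29/40) with g3 | g3
        · nlinarith [H (23/80) (by norm_num) (by norm_num), mul_nonneg (sub_nonneg.2 g2) (sub_nonneg.2 g3)]
        ·
          rcases le_total y (39/50) with g4 | g4
          · nlinarith [H (43/160) (by norm_num) (by norm_num), mul_nonneg (sub_nonneg.2 g3) (sub_nonneg.2 g4)]
          ·
            nlinarith [H (9/40) (by norm_num) (by norm_num), mul_nonneg (sub_nonneg.2 g4) (sub_nonneg.2 e2)]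

lemma ln15 {t p : ℝ} (h : CapT t p) (h1 : (36714162532123280961/655360000000000000000) ≤ t) (h2 : t ≤ 1) :
    (2973/100000) + (357/1000) * t ≤ p := by
  obtain ⟨y, hy, ht, hp, H⟩ := h
  have e1 : (6059221281/25600000000) ≤ y := by nlinarith
  have e2 : y ≤ 1 := by nlinarith
  rw [ht]
  rcases le_total y (467/1000) with g0 | g0
  · nlinarith [H (87/160) (by norm_num) (by norm_num), mul_nonneg (sub_nonneg.2 e1) (sub_nonneg.2 g0)]
  ·
    rcases le_total y (349/500) with g1 | g1
    · nlinarith [H (53/160) (by norm_num) (by norm_num), mul_nonneg (sub_nonneg.2 g0) (sub_nonneg.2 g1)]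
    ·
      rcases le_total y (193/250) with g2 | g2
      · nlinarith [H (21/80) (by norm_num) (by norm_num), mul_nonneg (sub_nonneg.2 g1) (sub_nonneg.2 g2)]
      ·
        rcases le_total y (203/250) with g3 | g3
        · nlinarith [H (39/160) (by norm_num) (by norm_num), mul_nonneg (sub_nonneg.2 g2) (sub_nonneg.2 g3)]
        ·
          rcases le_total y (497/500) with g4 | g4
          · nlinarith [H (17/80) (by norm_num) (by norm_num), mul_nonneg (sub_nonneg.2 g3) (sub_nonneg.2 g4)]
          ·
            nlinarith [H (1/40) (by norm_num) (by norm_num), mul_nonneg (sub_nonneg.2 g4) (sub_nonneg.2 e2)]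

/-! ### tree -/

end Vale.Agent.Propeller.Num9

namespace Vale.Agent.Propeller

open MeasureTheory ProbabilityTheory Finset Num9

theorem num9 (t p : ℕ → ℝ) (hd : Data 9 t p) (hc : CapIneq 9 9 t p) : False := by
  have hC : ∀ i, i < 9 → CapT (t i) (p i) := capT_of hd hc
  have hT := hd.tsum
  have hP := hd.psum
  have c3 := hd.cons3
  have b3 := hd.cons 3 (by norm_num) (by norm_num)
  have b4 := hd.cons 4 (by norm_num) (by norm_num)
  have b5 := hd.cons 5 (by norm_num) (by norm_num)
  have b6 := hd.cons 6 (by norm_num) (by norm_num)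
  have b7 := hd.cons 7 (by norm_num) (by norm_num)
  have b8 := hd.cons 8 (by norm_num) (by norm_num)
  simp only [Finset.sum_range_succ, Finset.sum_range_zero, Finset.sum_Ico_eq_sum_range] at hT hP c3 b3 b4 b5 b6 b7 b8
  norm_num [Finset.sum_range_succ] at hT hP c3 b3 b4 b5 b6 b7 b8
  have a0 := hd.anti 0 1 (by norm_num) (by norm_num)
  have a1 := hd.anti 1 2 (by norm_num) (by norm_num)
  have a2 := hd.anti 2 3 (by norm_num) (by norm_num)
  have a3 := hd.anti 3 4 (by norm_num) (by norm_num)
  have a4 := hd.anti 4 5 (by norm_num) (by norm_num)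
  have a5 := hd.anti 5 6 (by norm_num) (by norm_num)
  have a6 := hd.anti 6 7 (by norm_num) (by norm_num)
  have a7 := hd.anti 7 8 (by norm_num) (by norm_num)
  have q0 := hd.pnonneg 0 (by norm_num)
  have q1 := hd.pnonneg 1 (by norm_num)
  have q2 := hd.pnonneg 2 (by norm_num)
  have q3 := hd.pnonneg 3 (by norm_num)
  have q4 := hd.pnonneg 4 (by norm_num)
  have q5 := hd.pnonneg 5 (by norm_num)
  have q6 := hd.pnonneg 6 (by norm_num)
  have q7 := hd.pnonneg 7 (by norm_num)
  have q8 := hd.pnonneg 8 (by norm_num)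
  have z := hd.nonneg 8 (by norm_num)
  have m := t_le_one (hC 0 (by norm_num))
  rcases le_total (t 8) (45767944570401/10000000000000000) with s0 | s0
  ·
    rcases le_total (t 2) (4294967296/152587890625) with s1 | s1
    ·
      linarith [hT, a0, a2, a3, a4, a5, a6, hP, q0, q1, q2, q3, q4, q5, q6, q7, q8]
    ·
      linarith [hT, a3, a4, a5, a6, b7, b8, ln0 (hC 0 (by norm_num)) (by linarith) (by linarith), ln0 (hC 1 (by norm_num)) (by linarith) (by linarith), ln1 (hC 2 (by norm_num)) (by linarith) (by linarith), ln2 (hC 3 (by norm_num)) (by linarith) (by linarith), ln2 (hC 4 (by norm_num)) (by linarith) (by linarith), ln2 (hC 5 (by norm_num)) (by linarith) (by linarith), ln2 (hC 6 (by norm_num)) (by linarith) (by linarith), ln2 (hC 7 (by norm_num)) (by linarith) (by linarith), ln3 (hC 8 (by norm_num)) (by linarith) (by linarith), hP, q0, q1, q2, q3, q4, q5, q6, q7, q8]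
  ·
    rcases le_total (t 4) (36714162532123280961/655360000000000000000) with s1 | s1
    ·
      linarith [hT, a0, a1, a2, a4, a5, a6, a7, b4, ln4 (hC 0 (by norm_num)) (by linarith) (by linarith), ln4 (hC 1 (by norm_num)) (by linarith) (by linarith), ln5 (hC 2 (by norm_num)) (by linarith) (by linarith), ln5 (hC 3 (by norm_num)) (by linarith) (by linarith), ln6 (hC 4 (by norm_num)) (by linarith) (by linarith), ln6 (hC 5 (by norm_num)) (by linarith) (by linarith), ln6 (hC 6 (by norm_num)) (by linarith) (by linarith), ln6 (hC 7 (by norm_num)) (by linarith) (by linarith), ln6 (hC 8 (by norm_num)) (by linarith) (by linarith), hP, q0, q1, q2, q3, q4, q5, q6, q7, q8]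
    ·
      rcases le_total (t 3) (107232261306583856641/655360000000000000000) with s2 | s2
      ·
        linarith [hT, a1, a3, a5, a6, a7, b3, b4, c3, ln7 (hC 0 (by norm_num)) (by linarith) (by linarith), ln8 (hC 1 (by norm_num)) (by linarith) (by linarith), ln9 (hC 2 (by norm_num)) (by linarith) (by linarith), ln10 (hC 3 (by norm_num)) (by linarith) (by linarith), ln10 (hC 4 (by norm_num)) (by linarith) (by linarith), ln11 (hC 5 (by norm_num)) (by linarith) (by linarith), ln11 (hC 6 (by norm_num)) (by linarith) (by linarith), ln11 (hC 7 (by norm_num)) (by linarith) (by linarith), ln11 (hC 8 (by norm_num)) (by linarith) (by linarith), hP, q0, q1, q2, q3, q4, q5, q6, q7, q8]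
      ·
        linarith [hT, a5, a6, a7, b4, ln12 (hC 0 (by norm_num)) (by linarith) (by linarith), ln12 (hC 1 (by norm_num)) (by linarith) (by linarith), ln13 (hC 0 (by norm_num)) (by linarith) (by linarith), ln13 (hC 1 (by norm_num)) (by linarith) (by linarith), ln14 (hC 2 (by norm_num)) (by linarith) (by linarith), ln14 (hC 3 (by norm_num)) (by linarith) (by linarith), ln15 (hC 4 (by norm_num)) (by linarith) (by linarith), ln5 (hC 5 (by norm_num)) (by linarith) (by linarith), ln5 (hC 6 (by norm_num)) (by linarith) (by linarith), ln5 (hC 7 (by norm_num)) (by linarith) (by linarith), ln5 (hC 8 (by norm_num)) (by linarith) (by linarith), hP, q0, q1, q2, q3, q4, q5, q6, q7, q8]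

end Vale.Agent.Propeller
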