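import Vale.Agent.Propeller.Step
import Vale.Agent.Propeller.AlgMain
import Vale.Agent.Propeller.Num5
import Vale.Agent.Propeller.Num6
import Vale.Agent.Propeller.Num7
import Vale.Agent.Propeller.Num8
import Vale.Agent.Propeller.Num9
import Vale.Agent.Propeller.Num10
import Vale.Agent.Propeller.FinPart

/-!
# P226: assembly of the propeller theorem
-/

namespace Vale.Agent.Propeller

open MeasureTheory ProbabilityTheory Finset

/-- one more vector does not help (`k ≥ 5`) -/
theorem step (k : ℕ) [NeZero k] [NeZero (k - 1)] (hk : 5 ≤ k) (C : ℝ)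
    (hC : 9 / (8 * Real.pi) ≤ C) (hb : ∀ n, Bd n (Fin (k - 1)) C) (n : ℕ) : Bd n (Fin k) C :=
  step_of (fun n hn => Alg.coreSt n hn) num5 num6 num7 num8 num9 num10 k hk C hC hb n

theorem bd_of_four (C : ℝ) (hC : 9 / (8 * Real.pi) ≤ C) (h4 : ∀ n, Bd n (Fin 4) C) :
    ∀ j n, Bd n (Fin (j + 4)) C := by
  intro j
  induction j with
  | zero => exact h4
  | succ j ih =>
    intro n
    have : NeZero (j + 1 + 4 - 1) := ⟨by omega⟩
    exact step (j + 1 + 4) (by omega) C hC (fun n => ih n) n

open FinP in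
/-- every partition satisfies the bound `C` as soon as partitions into four cells do -/
theorem propF_le_of_four (C : ℝ) (hC : 9 / (8 * Real.pi) ≤ C) (h4 : ∀ n, Bd n (Fin 4) C)
    (d k : ℕ) (A : Fin k → Set (E d)) (hA : IsPartition A) : propF A ≤ C := by
  have hpi := Real.pi_pos
  have hC0 : 0 ≤ C := le_trans (by positivity) hC
  have h1 : propM d k ≤ propM d (k + 4) := propM_mono (by omega)
  have h2 : propM d (k + 4) ≤ C :=
    propM_le hC0 fun A hA => propF_le_of_bd hC0 (bd_of_four C hC h4 k d) hA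
  exact (propF_le_propM hA).trans (h1.trans h2)

theorem propM_le_three_four (d k : ℕ) : propM d k ≤ propM 3 4 :=
  FinP.final_of (fun k _ _ hk C hC hb n => step k hk C hC hb n)
    (fun n m k _ h C hC hb => bd_of_bd n m k h C hC hb) d k

namespace FinP

open Opt1 Opt2

/-- the propeller (in the form of three vectors of `ℝ³`) shows `C ≥ 9/(8π)` -/
theorem propeller_le3 {C : ℝ} (hb : Bd 3 (Fin 3) C) : 9 / (8 * Real.pi) ≤ C := by
  set e : Fin 3 → E 3 := fun i => EuclideanSpace.single i 1 with he
  set m : E 3 := (3 : ℝ)⁻¹ • (e 0 + e 1 + e 2) with hm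
  set w : Fin 3 → E 3 := ![e 0 - m, e 1 - m, e 2 - m] with hw
  have hn : ∀ i j, inner ℝ (e i) (e j) = if i = j then (1 : ℝ) else 0 := by
    intro i j
    by_cases h : i = j
    · simp [he, EuclideanSpace.inner_single_left, h]
    · simp [he, EuclideanSpace.inner_single_left, h]
  have hnorm : ∀ i j : Fin 3, i ≠ j → ‖e i - e j‖ = Real.sqrt 2 := by
    intro i j hij
    rw [eq_comm, Real.sqrt_eq_iff_mul_self_eq_of_pos]
    · rw [← pow_two, ← real_inner_self_eq_norm_sq, inner_sub_left, inner_sub_right, inner_sub_right,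
        hn, hn, hn, hn]
      simp [hij, hij.symm]
      norm_num
    · have : e i - e j ≠ 0 := by
        intro h
        have h2 : inner ℝ (e i) (e i - e j) = 0 := by rw [h, inner_zero_right]
        rw [inner_sub_right, hn, hn] at h2
        simp [hij] at h2
      positivity
  have hsum : ∑ i, ‖w i‖ ^ 2 = 2 := by
    have h1 : ∀ i : Fin 3, ‖e i - m‖ ^ 2 = 2 / 3 := by
      intro i
      rw [← real_inner_self_eq_norm_sq, hm]
      simp only [inner_sub_left, inner_sub_right, inner_add_left, inner_add_right,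
        real_inner_smul_left, real_inner_smul_right, hn]
      fin_cases i <;> simp <;> norm_num
    rw [Fin.sum_univ_three]
    simp only [hw, Matrix.cons_val_zero, Matrix.cons_val_one, Matrix.cons_val, h1]
    norm_num
  have hlow : 3 / 2 * (Real.sqrt 2 * Real.sqrt (2 / Real.pi)) ≤ 2 * emax w := by
    have h1 : 2 * emax w = ∫ x, (hmax w x + hmax w (-x)) ∂gs 3 := by
      rw [integral_add (int_hmax w), emax_neg]
      · unfold emax; ring
      · have h : (gs 3).map (LinearIsometryEquiv.neg ℝ (E := E 3)) = gs 3 := stdGaussian_map _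
        have h2 := int_hmax w
        rw [← h] at h2
        exact (integrable_map_measure (continuous_hmax w).aestronglyMeasurable
          (by fun_prop)).mp h2
    have h2 : ∫ x, (1 / 2 * (|inner ℝ (e 0 - e 1) x| + |inner ℝ (e 1 - e 2) x|
        + |inner ℝ (e 0 - e 2) x|)) ∂gs 3 = 3 / 2 * (Real.sqrt 2 * Real.sqrt (2 / Real.pi)) := by
      rw [integral_const_mul, integral_add, integral_add]
      · rw [integral_abs_inner, integral_abs_inner, integral_abs_inner, hnorm 0 1 (by decide),
          hnorm 1 2 (by decide), hnorm 0 2 (by decide)]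
        ring
      · exact (int_inner _).abs
      · exact (int_inner _).abs
      · exact ((int_inner _).abs).add (int_inner _).abs
      · exact (int_inner _).abs
    rw [h1, ← h2]
    refine integral_mono ?_ ?_ fun x => ?_
    · exact ((((int_inner _).abs).add (int_inner _).abs).add (int_inner _).abs).const_mul _
    · refine (int_hmax w).add ?_
      have h : (gs 3).map (LinearIsometryEquiv.neg ℝ (E := E 3)) = gs 3 := stdGaussian_map _
      have h2 := int_hmax w
      rw [← h] at h2
      exact (integrable_map_measure (continuous_hmax w).aestronglyMeasurable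
        (by fun_prop)).mp h2
    · have a0 : inner ℝ (e 0 - m) x ≤ hmax w x := le_hmax w 0 x
      have a1 : inner ℝ (e 1 - m) x ≤ hmax w x := le_hmax w 1 x
      have a2 : inner ℝ (e 2 - m) x ≤ hmax w x := le_hmax w 2 x
      have b0 : inner ℝ (e 0 - m) (-x) ≤ hmax w (-x) := le_hmax w 0 (-x)
      have b1 : inner ℝ (e 1 - m) (-x) ≤ hmax w (-x) := le_hmax w 1 (-x)
      have b2 : inner ℝ (e 2 - m) (-x) ≤ hmax w (-x) := le_hmax w 2 (-x)
      simp only [inner_sub_left, inner_neg_right] at a0 a1 a2 b0 b1 b2 ⊢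
      rcases abs_cases (inner ℝ (e 0) x - inner ℝ (e 1) x) with h | h <;>
      rcases abs_cases (inner ℝ (e 1) x - inner ℝ (e 2) x) with h' | h' <;>
      rcases abs_cases (inner ℝ (e 0) x - inner ℝ (e 2) x) with h'' | h'' <;>
      linarith
  have h3 := hb w
  rw [hsum] at h3
  have hpi : 0 < Real.pi := Real.pi_pos
  have h4 : Real.sqrt 2 * Real.sqrt (2 / Real.pi) = 2 / Real.sqrt Real.pi := by
    rw [Real.sqrt_div (by norm_num), ← mul_div_assoc, Real.mul_self_sqrt (by norm_num)]
  rw [h4] at hlow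
  have h5 : (3 / 2 * (1 / Real.sqrt Real.pi)) ^ 2 ≤ emax w ^ 2 := by
    have : 0 ≤ 3 / 2 * (1 / Real.sqrt Real.pi) := by positivity
    have h6 : 3 / 2 * (1 / Real.sqrt Real.pi) ≤ emax w := by
      have : 3 / 2 * (2 / Real.sqrt Real.pi) = 2 * (3 / 2 * (1 / Real.sqrt Real.pi)) := by ring
      linarith
    nlinarith
  have h7 : (3 / 2 * (1 / Real.sqrt Real.pi)) ^ 2 = 9 / (4 * Real.pi) := by
    rw [mul_pow, div_pow, div_pow, Real.sq_sqrt hpi.le]
    field_simp
    norm_num
  rw [h7] at h5
  have h8 : 9 / (4 * Real.pi) = 2 * (9 / (8 * Real.pi)) := by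
    field_simp; norm_num
  linarith


/-- `M(d,k) ≥ 9/(8π)` for `d ≥ 2`, `k ≥ 3` -/
theorem propeller_le_propM (d k : ℕ) (hd : 2 ≤ d) (hk : 3 ≤ k) :
    9 / (8 * Real.pi) ≤ propM d k := by
  have h1 : propM d 3 ≤ propM d k := propM_mono hk
  refine le_trans ?_ h1
  apply propeller_le3
  exact bd_of_bd 3 d 3 (by omega) _ (propM_nonneg d 3) (bd_propM d 3)

end FinP

end Vale.Agent.Propeller
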