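import Vale.Agent.Propeller.HalfPoly

/-!
# P226, part NUM10: the numerical contradiction for `k ≥ 10` (half-space inequalities)
(generated; the tree of case distinctions and the supporting lines come from a linear-programming
branch and bound)
-/

namespace Vale.Agent.Propeller.Num10

open MeasureTheory ProbabilityTheory Finset Vale.Agent.Propeller Vale.Agent.Propeller.HalfPoly

lemma sq_lo {y l : ℝ} (hy : 0 ≤ y) (hl : 0 ≤ l) (h : l ^ 2 ≤ y ^ 2) : l ≤ y :=
  (sq_le_sq₀ hl hy).mp h

lemma sq_hi {y l : ℝ} (hy : 0 ≤ y) (hl : 0 ≤ l) (h : y ^ 2 ≤ l ^ 2) : y ≤ l :=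
  (sq_le_sq₀ hy hl).mp h

lemma ht_nonneg {t p : ℝ} (h : HT t p) : 0 ≤ t := by
  obtain ⟨y, hy, ht, hp, H, _⟩ := h
  rw [ht]; positivity

lemma ht_le_one {t p : ℝ} (h : HT t p) : t ≤ 1 := by
  obtain ⟨y, hy, ht, hp, H, _⟩ := h
  have h1 := H 0 le_rfl
  have e : PA 0 = 1 := by
    unfold PA
    rw [Finset.sum_range_succ']
    simp
  rw [e] at h1
  rw [ht]
  nlinarith

lemma ht_pnonneg {t p : ℝ} (h : HT t p) : 0 ≤ p := by
  obtain ⟨y, hy, ht, hp, H, _⟩ := h
  exact hp

/-! ### tangent lines of the half-space curve -/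

lemma hx5 {y p : ℝ} (H : ∀ a : ℝ, 0 ≤ a → y ≤ PA a - 1.253314 * a + 2.506629 * a * p) :
    y ≤ (923621/1000000) + (2506629/16000000) * p := by
  have h := H (1/16) (by norm_num)
  have e : PA (1/16) ≤ (513/512) := by
    simp only [PA, Finset.sum_range_succ, Finset.sum_range_zero, Nat.factorial]
    norm_num
  linarith

lemma hx11 {y p : ℝ} (H : ∀ a : ℝ, 0 ≤ a → y ≤ PA a - 1.253314 * a + 2.506629 * a * p) :
    y ≤ (209277/250000) + (27572919/80000000) * p := by
  have h := H (11/80) (by norm_num)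
  have e : PA (11/80) ≤ (40377547/40000000) := by
    simp only [PA, Finset.sum_range_succ, Finset.sum_range_zero, Nat.factorial]
    norm_num
  linarith

lemma hx12 {y p : ℝ} (H : ∀ a : ℝ, 0 ≤ a → y ≤ PA a - 1.253314 * a + 2.506629 * a * p) :
    y ≤ (12863/15625) + (7519887/20000000) * p := by
  have h := H (3/20) (by norm_num)
  have e : PA (3/20) ≤ (10112291/10000000) := by
    simp only [PA, Finset.sum_range_succ, Finset.sum_range_zero, Nat.factorial]
    norm_num
  linarith

lemma hx13 {y p : ℝ} (H : ∀ a : ℝ, 0 ≤ a → y ≤ PA a - 1.253314 * a + 2.506629 * a * p) :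
    y ≤ (809511/1000000) + (32586177/80000000) * p := by
  have h := H (13/80) (by norm_num)
  have e : PA (13/80) ≤ (40526981/40000000) := by
    simp only [PA, Finset.sum_range_succ, Finset.sum_range_zero, Nat.factorial]
    norm_num
  linarith

lemma hx14 {y p : ℝ} (H : ∀ a : ℝ, 0 ≤ a → y ≤ PA a - 1.253314 * a + 2.506629 * a * p) :
    y ≤ (99493/125000) + (17546403/40000000) * p := by
  have h := H (7/40) (by norm_num)
  have e : PA (7/40) ≤ (20305479/20000000) := by
    simp only [PA, Finset.sum_range_succ, Finset.sum_range_zero, Nat.factorial]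
    norm_num
  linarith

lemma hx15 {y p : ℝ} (H : ∀ a : ℝ, 0 ≤ a → y ≤ PA a - 1.253314 * a + 2.506629 * a * p) :
    y ≤ (782531/1000000) + (7519887/16000000) * p := by
  have h := H (3/16) (by norm_num)
  have e : PA (3/16) ≤ (8140219/8000000) := by
    simp only [PA, Finset.sum_range_succ, Finset.sum_range_zero, Nat.factorial]
    norm_num
  linarith

lemma hx19 {y p : ℝ} (H : ∀ a : ℝ, 0 ≤ a → y ≤ PA a - 1.253314 * a + 2.506629 * a * p) :
    y ≤ (73041/100000) + (47625951/80000000) * p := by
  have h := H (19/80) (by norm_num)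
  have e : PA (19/80) ≤ (41122883/40000000) := by
    simp only [PA, Finset.sum_range_succ, Finset.sum_range_zero, Nat.factorial]
    norm_num
  linarith

lemma hx22 {y p : ℝ} (H : ∀ a : ℝ, 0 ≤ a → y ≤ PA a - 1.253314 * a + 2.506629 * a * p) :
    y ≤ (138583/200000) + (27572919/40000000) * p := by
  have h := H (11/40) (by norm_num)
  have e : PA (11/40) ≤ (20751527/20000000) := by
    simp only [PA, Finset.sum_range_succ, Finset.sum_range_zero, Nat.factorial]
    norm_num
  linarith

lemma hx23 {y p : ℝ} (H : ∀ a : ℝ, 0 ≤ a → y ≤ PA a - 1.253314 * a + 2.506629 * a * p) :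
    y ≤ (680719/1000000) + (57652467/80000000) * p := by
  have h := H (23/80) (by norm_num)
  have e : PA (23/80) ≤ (41641871/40000000) := by
    simp only [PA, Finset.sum_range_succ, Finset.sum_range_zero, Nat.factorial]
    norm_num
  linarith

lemma hx25 {y p : ℝ} (H : ∀ a : ℝ, 0 ≤ a → y ≤ PA a - 1.253314 * a + 2.506629 * a * p) :
    y ≤ (26271/40000) + (2506629/3200000) * p := by
  have h := H (5/16) (by norm_num)
  have e : PA (5/16) ≤ (1677497/1600000) := by
    simp only [PA, Finset.sum_range_succ, Finset.sum_range_zero, Nat.factorial]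
    norm_num
  linarith

lemma hx26 {y p : ℝ} (H : ∀ a : ℝ, 0 ≤ a → y ≤ PA a - 1.253314 * a + 2.506629 * a * p) :
    y ≤ (322513/500000) + (32586177/40000000) * p := by
  have h := H (13/40) (by norm_num)
  have e : PA (13/40) ≤ (21047061/20000000) := by
    simp only [PA, Finset.sum_range_succ, Finset.sum_range_zero, Nat.factorial]
    norm_num
  linarith

lemma hx28 {y p : ℝ} (H : ∀ a : ℝ, 0 ≤ a → y ≤ PA a - 1.253314 * a + 2.506629 * a * p) :
    y ≤ (621973/1000000) + (17546403/20000000) * p := by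
  have h := H (7/20) (by norm_num)
  have e : PA (7/20) ≤ (10606329/10000000) := by
    simp only [PA, Finset.sum_range_succ, Finset.sum_range_zero, Nat.factorial]
    norm_num
  linarith

lemma hx29 {y p : ℝ} (H : ∀ a : ℝ, 0 ≤ a → y ≤ PA a - 1.253314 * a + 2.506629 * a * p) :
    y ≤ (610667/1000000) + (72692241/80000000) * p := by
  have h := H (29/80) (by norm_num)
  have e : PA (29/80) ≤ (42599733/40000000) := by
    simp only [PA, Finset.sum_range_succ, Finset.sum_range_zero, Nat.factorial]
    norm_num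
  linarith

lemma hx30 {y p : ℝ} (H : ∀ a : ℝ, 0 ≤ a → y ≤ PA a - 1.253314 * a + 2.506629 * a * p) :
    y ≤ (149877/250000) + (7519887/8000000) * p := by
  have h := H (3/8) (by norm_num)
  have e : PA (3/8) ≤ (4278003/4000000) := by
    simp only [PA, Finset.sum_range_succ, Finset.sum_range_zero, Nat.factorial]
    norm_num
  linarith

lemma hx31 {y p : ℝ} (H : ∀ a : ℝ, 0 ≤ a → y ≤ PA a - 1.253314 * a + 2.506629 * a * p) :
    y ≤ (294247/500000) + (77705499/80000000) * p := by
  have h := H (31/80) (by norm_num)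
  have e : PA (31/80) ≤ (42966127/40000000) := by
    simp only [PA, Finset.sum_range_succ, Finset.sum_range_zero, Nat.factorial]
    norm_num
  linarith

lemma hx32 {y p : ℝ} (H : ∀ a : ℝ, 0 ≤ a → y ≤ PA a - 1.253314 * a + 2.506629 * a * p) :
    y ≤ (4621/8000) + (2506629/2500000) * p := by
  have h := H (2/5) (by norm_num)
  have e : PA (2/5) ≤ (5394753/5000000) := by
    simp only [PA, Finset.sum_range_succ, Finset.sum_range_zero, Nat.factorial]
    norm_num
  linarith

lemma hx33 {y p : ℝ} (H : ∀ a : ℝ, 0 ≤ a → y ≤ PA a - 1.253314 * a + 2.506629 * a * p) :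
    y ≤ (566901/1000000) + (82718757/80000000) * p := by
  have h := H (33/80) (by norm_num)
  have e : PA (33/80) ≤ (43355721/40000000) := by
    simp only [PA, Finset.sum_range_succ, Finset.sum_range_zero, Nat.factorial]
    norm_num
  linarith

lemma hx34 {y p : ℝ} (H : ∀ a : ℝ, 0 ≤ a → y ≤ PA a - 1.253314 * a + 2.506629 * a * p) :
    y ≤ (556319/1000000) + (42612693/40000000) * p := by
  have h := H (17/40) (by norm_num)
  have e : PA (17/40) ≤ (21779549/20000000) := by
    simp only [PA, Finset.sum_range_succ, Finset.sum_range_zero, Nat.factorial]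
    norm_num
  linarith

lemma hx35 {y p : ℝ} (H : ∀ a : ℝ, 0 ≤ a → y ≤ PA a - 1.253314 * a + 2.506629 * a * p) :
    y ≤ (545881/1000000) + (17546403/16000000) * p := by
  have h := H (7/16) (by norm_num)
  have e : PA (7/16) ≤ (8753647/8000000) := by
    simp only [PA, Finset.sum_range_succ, Finset.sum_range_zero, Nat.factorial]
    norm_num
  linarith

lemma hx36 {y p : ℝ} (H : ∀ a : ℝ, 0 ≤ a → y ≤ PA a - 1.253314 * a + 2.506629 * a * p) :
    y ≤ (107117/200000) + (22559661/20000000) * p := by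
  have h := H (9/20) (by norm_num)
  have e : PA (9/20) ≤ (10995763/10000000) := by
    simp only [PA, Finset.sum_range_succ, Finset.sum_range_zero, Nat.factorial]
    norm_num
  linarith

lemma hx37 {y p : ℝ} (H : ∀ a : ℝ, 0 ≤ a → y ≤ PA a - 1.253314 * a + 2.506629 * a * p) :
    y ≤ (52543/100000) + (92745273/80000000) * p := by
  have h := H (37/80) (by norm_num)
  have e : PA (37/80) ≤ (44203509/40000000) := by
    simp only [PA, Finset.sum_range_succ, Finset.sum_range_zero, Nat.factorial]
    norm_num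
  linarith

lemma hx38 {y p : ℝ} (H : ∀ a : ℝ, 0 ≤ a → y ≤ PA a - 1.253314 * a + 2.506629 * a * p) :
    y ≤ (103083/200000) + (47625951/40000000) * p := by
  have h := H (19/40) (by norm_num)
  have e : PA (19/40) ≤ (22214783/20000000) := by
    simp only [PA, Finset.sum_range_succ, Finset.sum_range_zero, Nat.factorial]
    norm_num
  linarith

lemma hx39 {y p : ℝ} (H : ∀ a : ℝ, 0 ≤ a → y ≤ PA a - 1.253314 * a + 2.506629 * a * p) :
    y ≤ (25277/50000) + (97758531/80000000) * p := by
  have h := H (39/80) (by norm_num)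
  have e : PA (39/80) ≤ (44661223/40000000) := by
    simp only [PA, Finset.sum_range_succ, Finset.sum_range_zero, Nat.factorial]
    norm_num
  linarith

lemma hx40 {y p : ℝ} (H : ∀ a : ℝ, 0 ≤ a → y ≤ PA a - 1.253314 * a + 2.506629 * a * p) :
    y ≤ (495803/1000000) + (2506629/2000000) * p := by
  have h := H (1/2) (by norm_num)
  have e : PA (1/2) ≤ (56123/50000) := by
    simp only [PA, Finset.sum_range_succ, Finset.sum_range_zero, Nat.factorial]
    norm_num
  linarith

lemma hx41 {y p : ℝ} (H : ∀ a : ℝ, 0 ≤ a → y ≤ PA a - 1.253314 * a + 2.506629 * a * p) :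
    y ≤ (97241/200000) + (102771789/80000000) * p := by
  have h := H (41/80) (by norm_num)
  have e : PA (41/80) ≤ (45141137/40000000) := by
    simp only [PA, Finset.sum_range_succ, Finset.sum_range_zero, Nat.factorial]
    norm_num
  linarith

lemma hx42 {y p : ℝ} (H : ∀ a : ℝ, 0 ≤ a → y ≤ PA a - 1.253314 * a + 2.506629 * a * p) :
    y ≤ (476743/1000000) + (52639209/40000000) * p := by
  have h := H (21/40) (by norm_num)
  have e : PA (21/40) ≤ (22694657/20000000) := by
    simp only [PA, Finset.sum_range_succ, Finset.sum_range_zero, Nat.factorial]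
    norm_num
  linarith

lemma hx43 {y p : ℝ} (H : ∀ a : ℝ, 0 ≤ a → y ≤ PA a - 1.253314 * a + 2.506629 * a * p) :
    y ≤ (233709/500000) + (107785047/80000000) * p := by
  have h := H (43/80) (by norm_num)
  have e : PA (43/80) ≤ (45642971/40000000) := by
    simp only [PA, Finset.sum_range_succ, Finset.sum_range_zero, Nat.factorial]
    norm_num
  linarith

lemma hx44 {y p : ℝ} (H : ∀ a : ℝ, 0 ≤ a → y ≤ PA a - 1.253314 * a + 2.506629 * a * p) :
    y ≤ (458227/1000000) + (27572919/20000000) * p := by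
  have h := H (11/20) (by norm_num)
  have e : PA (11/20) ≤ (11475497/10000000) := by
    simp only [PA, Finset.sum_range_succ, Finset.sum_range_zero, Nat.factorial]
    norm_num
  linarith

lemma hx46 {y p : ℝ} (H : ∀ a : ℝ, 0 ≤ a → y ≤ PA a - 1.253314 * a + 2.506629 * a * p) :
    y ≤ (440249/1000000) + (57652467/40000000) * p := by
  have h := H (23/40) (by norm_num)
  have e : PA (23/40) ≤ (23218091/20000000) := by
    simp only [PA, Finset.sum_range_succ, Finset.sum_range_zero, Nat.factorial]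
    norm_num
  linarith

lemma hx47 {y p : ℝ} (H : ∀ a : ℝ, 0 ≤ a → y ≤ PA a - 1.253314 * a + 2.506629 * a * p) :
    y ≤ (431459/1000000) + (117811563/80000000) * p := by
  have h := H (47/80) (by norm_num)
  have e : PA (47/80) ≤ (46711239/40000000) := by
    simp only [PA, Finset.sum_range_succ, Finset.sum_range_zero, Nat.factorial]
    norm_num
  linarith

lemma hx48 {y p : ℝ} (H : ∀ a : ℝ, 0 ≤ a → y ≤ PA a - 1.253314 * a + 2.506629 * a * p) :
    y ≤ (422801/1000000) + (7519887/5000000) * p := by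
  have h := H (3/5) (by norm_num)
  have e : PA (3/5) ≤ (5873947/5000000) := by
    simp only [PA, Finset.sum_range_succ, Finset.sum_range_zero, Nat.factorial]
    norm_num
  linarith

lemma hx49 {y p : ℝ} (H : ∀ a : ℝ, 0 ≤ a → y ≤ PA a - 1.253314 * a + 2.506629 * a * p) :
    y ≤ (6473/15625) + (122824821/80000000) * p := by
  have h := H (49/80) (by norm_num)
  have e : PA (49/80) ≤ (47277073/40000000) := by
    simp only [PA, Finset.sum_range_succ, Finset.sum_range_zero, Nat.factorial]
    norm_num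
  linarith

lemma hx50 {y p : ℝ} (H : ∀ a : ℝ, 0 ≤ a → y ≤ PA a - 1.253314 * a + 2.506629 * a * p) :
    y ≤ (202937/500000) + (2506629/1600000) * p := by
  have h := H (5/8) (by norm_num)
  have e : PA (5/8) ≤ (4756781/4000000) := by
    simp only [PA, Finset.sum_range_succ, Finset.sum_range_zero, Nat.factorial]
    norm_num
  linarith

lemma hx51 {y p : ℝ} (H : ∀ a : ℝ, 0 ≤ a → y ≤ PA a - 1.253314 * a + 2.506629 * a * p) :
    y ≤ (99401/250000) + (127838079/80000000) * p := by
  have h := H (51/80) (by norm_num)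
  have e : PA (51/80) ≤ (47863667/40000000) := by
    simp only [PA, Finset.sum_range_succ, Finset.sum_range_zero, Nat.factorial]
    norm_num
  linarith

lemma hx52 {y p : ℝ} (H : ∀ a : ℝ, 0 ≤ a → y ≤ PA a - 1.253314 * a + 2.506629 * a * p) :
    y ≤ (194731/500000) + (32586177/20000000) * p := by
  have h := H (13/20) (by norm_num)
  have e : PA (13/20) ≤ (12041161/10000000) := by
    simp only [PA, Finset.sum_range_succ, Finset.sum_range_zero, Nat.factorial]
    norm_num
  linarith

lemma hx53 {y p : ℝ} (H : ∀ a : ℝ, 0 ≤ a → y ≤ PA a - 1.253314 * a + 2.506629 * a * p) :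
    y ≤ (190723/500000) + (132851337/80000000) * p := by
  have h := H (53/80) (by norm_num)
  have e : PA (53/80) ≤ (48470661/40000000) := by
    simp only [PA, Finset.sum_range_succ, Finset.sum_range_zero, Nat.factorial]
    norm_num
  linarith

lemma hx54 {y p : ℝ} (H : ∀ a : ℝ, 0 ≤ a → y ≤ PA a - 1.253314 * a + 2.506629 * a * p) :
    y ≤ (74711/200000) + (67678983/40000000) * p := by
  have h := H (27/40) (by norm_num)
  have e : PA (27/40) ≤ (24390839/20000000) := by
    simp only [PA, Finset.sum_range_succ, Finset.sum_range_zero, Nat.factorial]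
    norm_num
  linarith

lemma hx55 {y p : ℝ} (H : ∀ a : ℝ, 0 ≤ a → y ≤ PA a - 1.253314 * a + 2.506629 * a * p) :
    y ≤ (365789/1000000) + (27572919/16000000) * p := by
  have h := H (11/16) (by norm_num)
  have e : PA (11/16) ≤ (9819539/8000000) := by
    simp only [PA, Finset.sum_range_succ, Finset.sum_range_zero, Nat.factorial]
    norm_num
  linarith

lemma hx56 {y p : ℝ} (H : ∀ a : ℝ, 0 ≤ a → y ≤ PA a - 1.253314 * a + 2.506629 * a * p) :
    y ≤ (179073/500000) + (17546403/10000000) * p := by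
  have h := H (7/10) (by norm_num)
  have e : PA (7/10) ≤ (6177329/5000000) := by
    simp only [PA, Finset.sum_range_succ, Finset.sum_range_zero, Nat.factorial]
    norm_num
  linarith

lemma hx57 {y p : ℝ} (H : ∀ a : ℝ, 0 ≤ a → y ≤ PA a - 1.253314 * a + 2.506629 * a * p) :
    y ≤ (175313/500000) + (142877853/80000000) * p := by
  have h := H (57/80) (by norm_num)
  have e : PA (57/80) ≤ (49744489/40000000) := by
    simp only [PA, Finset.sum_range_succ, Finset.sum_range_zero, Nat.factorial]
    norm_num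
  linarith

lemma hx58 {y p : ℝ} (H : ∀ a : ℝ, 0 ≤ a → y ≤ PA a - 1.253314 * a + 2.506629 * a * p) :
    y ≤ (343227/1000000) + (72692241/40000000) * p := by
  have h := H (29/40) (by norm_num)
  have e : PA (29/40) ≤ (25037593/20000000) := by
    simp only [PA, Finset.sum_range_succ, Finset.sum_range_zero, Nat.factorial]
    norm_num
  linarith

lemma hx59 {y p : ℝ} (H : ∀ a : ℝ, 0 ≤ a → y ≤ PA a - 1.253314 * a + 2.506629 * a * p) :
    y ≤ (335947/1000000) + (147891111/80000000) * p := by
  have h := H (59/80) (by norm_num)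
  have e : PA (59/80) ≤ (50410643/40000000) := by
    simp only [PA, Finset.sum_range_succ, Finset.sum_range_zero, Nat.factorial]
    norm_num
  linarith

lemma hx60 {y p : ℝ} (H : ∀ a : ℝ, 0 ≤ a → y ≤ PA a - 1.253314 * a + 2.506629 * a * p) :
    y ≤ (328787/1000000) + (7519887/4000000) * p := by
  have h := H (3/4) (by norm_num)
  have e : PA (3/4) ≤ (507509/400000) := by
    simp only [PA, Finset.sum_range_succ, Finset.sum_range_zero, Nat.factorial]
    norm_num
  linarith

lemma hx64 {y p : ℝ} (H : ∀ a : ℝ, 0 ≤ a → y ≤ PA a - 1.253314 * a + 2.506629 * a * p) :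
    y ≤ (75329/250000) + (2506629/1250000) * p := by
  have h := H (4/5) (by norm_num)
  have e : PA (4/5) ≤ (1629959/1250000) := by
    simp only [PA, Finset.sum_range_succ, Finset.sum_range_zero, Nat.factorial]
    norm_num
  linarith

lemma hx68 {y p : ℝ} (H : ∀ a : ℝ, 0 ≤ a → y ≤ PA a - 1.253314 * a + 2.506629 * a * p) :
    y ≤ (275659/1000000) + (42612693/20000000) * p := by
  have h := H (17/20) (by norm_num)
  have e : PA (17/20) ≤ (13409759/10000000) := by
    simp only [PA, Finset.sum_range_succ, Finset.sum_range_zero, Nat.factorial]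
    norm_num
  linarith

lemma hx72 {y p : ℝ} (H : ∀ a : ℝ, 0 ≤ a → y ≤ PA a - 1.253314 * a + 2.506629 * a * p) :
    y ≤ (7867/31250) + (22559661/10000000) * p := by
  have h := H (9/10) (by norm_num)
  have e : PA (9/10) ≤ (6898633/5000000) := by
    simp only [PA, Finset.sum_range_succ, Finset.sum_range_zero, Nat.factorial]
    norm_num
  linarith

lemma hx76 {y p : ℝ} (H : ∀ a : ℝ, 0 ≤ a → y ≤ PA a - 1.253314 * a + 2.506629 * a * p) :
    y ≤ (229497/1000000) + (47625951/20000000) * p := by
  have h := H (19/20) (by norm_num)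
  have e : PA (19/20) ≤ (14201453/10000000) := by
    simp only [PA, Finset.sum_range_succ, Finset.sum_range_zero, Nat.factorial]
    norm_num
  linarith

lemma hx80 {y p : ℝ} (H : ∀ a : ℝ, 0 ≤ a → y ≤ PA a - 1.253314 * a + 2.506629 * a * p) :
    y ≤ (104421/500000) + (2506629/1000000) * p := by
  have h := H 1 (by norm_num)
  have e : PA 1 ≤ (365539/250000) := by
    simp only [PA, Finset.sum_range_succ, Finset.sum_range_zero, Nat.factorial]
    norm_num
  linarith

lemma hx84 {y p : ℝ} (H : ∀ a : ℝ, 0 ≤ a → y ≤ PA a - 1.253314 * a + 2.506629 * a * p) :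
    y ≤ (189703/1000000) + (52639209/20000000) * p := by
  have h := H (21/20) (by norm_num)
  have e : PA (21/20) ≤ (15056827/10000000) := by
    simp only [PA, Finset.sum_range_succ, Finset.sum_range_zero, Nat.factorial]
    norm_num
  linarith

lemma hx88 {y p : ℝ} (H : ∀ a : ℝ, 0 ≤ a → y ≤ PA a - 1.253314 * a + 2.506629 * a * p) :
    y ≤ (43001/250000) + (27572919/10000000) * p := by
  have h := H (11/10) (by norm_num)
  have e : PA (11/10) ≤ (7753247/5000000) := by
    simp only [PA, Finset.sum_range_succ, Finset.sum_range_zero, Nat.factorial]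
    norm_num
  linarith

lemma hx92 {y p : ℝ} (H : ∀ a : ℝ, 0 ≤ a → y ≤ PA a - 1.253314 * a + 2.506629 * a * p) :
    y ≤ (155671/1000000) + (57652467/20000000) * p := by
  have h := H (23/20) (by norm_num)
  have e : PA (23/20) ≤ (15969821/10000000) := by
    simp only [PA, Finset.sum_range_succ, Finset.sum_range_zero, Nat.factorial]
    norm_num
  linarith

lemma hx96 {y p : ℝ} (H : ∀ a : ℝ, 0 ≤ a → y ≤ PA a - 1.253314 * a + 2.506629 * a * p) :
    y ≤ (140629/1000000) + (7519887/2500000) * p := by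
  have h := H (6/5) (by norm_num)
  have e : PA (6/5) ≤ (8223029/5000000) := by
    simp only [PA, Finset.sum_range_succ, Finset.sum_range_zero, Nat.factorial]
    norm_num
  linarith

lemma hx100 {y p : ℝ} (H : ∀ a : ℝ, 0 ≤ a → y ≤ PA a - 1.253314 * a + 2.506629 * a * p) :
    y ≤ (126803/1000000) + (2506629/800000) * p := by
  have h := H (5/4) (by norm_num)
  have e : PA (5/4) ≤ (3386891/2000000) := by
    simp only [PA, Finset.sum_range_succ, Finset.sum_range_zero, Nat.factorial]
    norm_num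
  linarith

lemma hx104 {y p : ℝ} (H : ∀ a : ℝ, 0 ≤ a → y ≤ PA a - 1.253314 * a + 2.506629 * a * p) :
    y ≤ (57061/500000) + (32586177/10000000) * p := by
  have h := H (13/10) (by norm_num)
  have e : PA (13/10) ≤ (8717151/5000000) := by
    simp only [PA, Finset.sum_range_succ, Finset.sum_range_zero, Nat.factorial]
    norm_num
  linarith

lemma hx108 {y p : ℝ} (H : ∀ a : ℝ, 0 ≤ a → y ≤ PA a - 1.253314 * a + 2.506629 * a * p) :
    y ≤ (25629/250000) + (67678983/20000000) * p := by
  have h := H (27/20) (by norm_num)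
  have e : PA (27/20) ≤ (17944899/10000000) := by
    simp only [PA, Finset.sum_range_succ, Finset.sum_range_zero, Nat.factorial]
    norm_num
  linarith

lemma hx116 {y p : ℝ} (H : ∀ a : ℝ, 0 ≤ a → y ≤ PA a - 1.253314 * a + 2.506629 * a * p) :
    y ≤ (82251/1000000) + (72692241/20000000) * p := by
  have h := H (29/20) (by norm_num)
  have e : PA (29/20) ≤ (18995563/10000000) := by
    simp only [PA, Finset.sum_range_succ, Finset.sum_range_zero, Nat.factorial]
    norm_num
  linarith

lemma hx120 {y p : ℝ} (H : ∀ a : ℝ, 0 ≤ a → y ≤ PA a - 1.253314 * a + 2.506629 * a * p) :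
    y ≤ (36731/500000) + (7519887/2000000) * p := by
  have h := H (3/2) (by norm_num)
  have e : PA (3/2) ≤ (1953433/1000000) := by
    simp only [PA, Finset.sum_range_succ, Finset.sum_range_zero, Nat.factorial]
    norm_num
  linarith

lemma hx128 {y p : ℝ} (H : ∀ a : ℝ, 0 ≤ a → y ≤ PA a - 1.253314 * a + 2.506629 * a * p) :
    y ≤ (2913/50000) + (2506629/625000) * p := by
  have h := H (8/5) (by norm_num)
  have e : PA (8/5) ≤ (2579453/1250000) := by
    simp only [PA, Finset.sum_range_succ, Finset.sum_range_zero, Nat.factorial]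
    norm_num
  linarith

lemma hx136 {y p : ℝ} (H : ∀ a : ℝ, 0 ≤ a → y ≤ PA a - 1.253314 * a + 2.506629 * a * p) :
    y ≤ (22921/500000) + (42612693/10000000) * p := by
  have h := H (17/10) (by norm_num)
  have e : PA (17/10) ≤ (10882379/5000000) := by
    simp only [PA, Finset.sum_range_succ, Finset.sum_range_zero, Nat.factorial]
    norm_num
  linarith

lemma hx140 {y p : ℝ} (H : ∀ a : ℝ, 0 ≤ a → y ≤ PA a - 1.253314 * a + 2.506629 * a * p) :
    y ≤ (40543/1000000) + (17546403/4000000) * p := by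
  have h := H (7/4) (by norm_num)
  have e : PA (7/4) ≤ (893537/400000) := by
    simp only [PA, Finset.sum_range_succ, Finset.sum_range_zero, Nat.factorial]
    norm_num
  linarith

lemma hx148 {y p : ℝ} (H : ∀ a : ℝ, 0 ≤ a → y ≤ PA a - 1.253314 * a + 2.506629 * a * p) :
    y ≤ (31521/1000000) + (92745273/20000000) * p := by
  have h := H (37/20) (by norm_num)
  have e : PA (37/20) ≤ (23501519/10000000) := by
    simp only [PA, Finset.sum_range_succ, Finset.sum_range_zero, Nat.factorial]
    norm_num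
  linarith

lemma hx152 {y p : ℝ} (H : ∀ a : ℝ, 0 ≤ a → y ≤ PA a - 1.253314 * a + 2.506629 * a * p) :
    y ≤ (2771/100000) + (47625951/10000000) * p := by
  have h := H (19/10) (by norm_num)
  have e : PA (19/10) ≤ (12045033/5000000) := by
    simp only [PA, Finset.sum_range_succ, Finset.sum_range_zero, Nat.factorial]
    norm_num
  linarith

lemma hx160 {y p : ℝ} (H : ∀ a : ℝ, 0 ≤ a → y ≤ PA a - 1.253314 * a + 2.506629 * a * p) :
    y ≤ (5321/250000) + (2506629/500000) * p := by
  have h := H 2 (by norm_num)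
  have e : PA 2 ≤ (315989/125000) := by
    simp only [PA, Finset.sum_range_succ, Finset.sum_range_zero, Nat.factorial]
    norm_num
  linarith

lemma hx164 {y p : ℝ} (H : ∀ a : ℝ, 0 ≤ a → y ≤ PA a - 1.253314 * a + 2.506629 * a * p) :
    y ≤ (4649/250000) + (102771789/20000000) * p := by
  have h := H (41/20) (by norm_num)
  have e : PA (41/20) ≤ (25878897/10000000) := by
    simp only [PA, Finset.sum_range_succ, Finset.sum_range_zero, Nat.factorial]
    norm_num
  linarith

lemma hx168 {y p : ℝ} (H : ∀ a : ℝ, 0 ≤ a → y ≤ PA a - 1.253314 * a + 2.506629 * a * p) :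
    y ≤ (3243/200000) + (52639209/10000000) * p := by
  have h := H (21/10) (by norm_num)
  have e : PA (21/10) ≤ (1655109/625000) := by
    simp only [PA, Finset.sum_range_succ, Finset.sum_range_zero, Nat.factorial]
    norm_num
  linarith

lemma hx176 {y p : ℝ} (H : ∀ a : ℝ, 0 ≤ a → y ≤ PA a - 1.253314 * a + 2.506629 * a * p) :
    y ≤ (12251/1000000) + (27572919/5000000) * p := by
  have h := H (11/5) (by norm_num)
  have e : PA (11/5) ≤ (13847709/5000000) := by
    simp only [PA, Finset.sum_range_succ, Finset.sum_range_zero, Nat.factorial]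
    norm_num
  linarith

lemma hx180 {y p : ℝ} (H : ∀ a : ℝ, 0 ≤ a → y ≤ PA a - 1.253314 * a + 2.506629 * a * p) :
    y ≤ (1327/125000) + (22559661/4000000) * p := by
  have h := H (9/4) (by norm_num)
  have e : PA (9/4) ≤ (1132229/400000) := by
    simp only [PA, Finset.sum_range_succ, Finset.sum_range_zero, Nat.factorial]
    norm_num
  linarith

lemma hx184 {y p : ℝ} (H : ∀ a : ℝ, 0 ≤ a → y ≤ PA a - 1.253314 * a + 2.506629 * a * p) :
    y ≤ (9181/1000000) + (57652467/10000000) * p := by
  have h := H (23/10) (by norm_num)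
  have e : PA (23/10) ≤ (1807377/625000) := by
    simp only [PA, Finset.sum_range_succ, Finset.sum_range_zero, Nat.factorial]
    norm_num
  linarith

/-! ### lines on intervals -/

lemma ln0 {t p : ℝ} (h : HT t p) (h1 : 0 ≤ t) (h2 : t ≤ 1) : (-1679/10000) + (3/5) * t ≤ p := by
  obtain ⟨y, hy, ht, hp, H, _⟩ := h
  have e1 : (0 : ℝ) ≤ y := hy
  have e2 : y ≤ 1 := sq_hi hy (by norm_num) (by rw [← ht]; norm_num; linarith)
  rw [ht]
  rcases le_total y (66/125) with g0 | g0
  · nlinarith [hp, mul_nonneg (sub_nonneg.2 e1) (sub_nonneg.2 g0)]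
  ·
    rcases le_total y (921/1000) with g1 | g1
    · nlinarith [hx37 H, mul_nonneg (sub_nonneg.2 g0) (sub_nonneg.2 g1)]
    ·
      rcases le_total y (189/200) with g2 | g2
      · nlinarith [hx29 H, mul_nonneg (sub_nonneg.2 g1) (sub_nonneg.2 g2)]
      ·
        nlinarith [hx25 H, mul_nonneg (sub_nonneg.2 g2) (sub_nonneg.2 e2)]

lemma ln1 {t p : ℝ} (h : HT t p) (h1 : 0 ≤ t) (h2 : t ≤ 1) : (-1409/5000) + (363/500) * t ≤ p := by
  obtain ⟨y, hy, ht, hp, H, _⟩ := h
  have e1 : (0 : ℝ) ≤ y := hy
  have e2 : y ≤ 1 := sq_hi hy (by norm_num) (by rw [← ht]; norm_num; linarith)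
  rw [ht]
  rcases le_total y (623/1000) with g0 | g0
  · nlinarith [hp, mul_nonneg (sub_nonneg.2 e1) (sub_nonneg.2 g0)]
  ·
    rcases le_total y (951/1000) with g1 | g1
    · nlinarith [hx28 H, mul_nonneg (sub_nonneg.2 g0) (sub_nonneg.2 g1)]
    ·
      rcases le_total y (487/500) with g2 | g2
      · nlinarith [hx23 H, mul_nonneg (sub_nonneg.2 g1) (sub_nonneg.2 g2)]
      ·
        nlinarith [hx15 H, mul_nonneg (sub_nonneg.2 g2) (sub_nonneg.2 e2)]

lemma ln2 {t p : ℝ} (h : HT t p) (h1 : 0 ≤ t) (h2 : t ≤ (1/25)) : (-3/10000) + (91/100) * t ≤ p := by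
  obtain ⟨y, hy, ht, hp, H, _⟩ := h
  have e1 : (0 : ℝ) ≤ y := hy
  have e2 : y ≤ (1/5) := sq_hi hy (by norm_num) (by rw [← ht]; norm_num; linarith)
  rw [ht]
  rcases le_total y (9/500) with g0 | g0
  · nlinarith [hp, mul_nonneg (sub_nonneg.2 e1) (sub_nonneg.2 g0)]
  ·
    rcases le_total y (24/125) with g1 | g1
    · nlinarith [hx168 H, mul_nonneg (sub_nonneg.2 g0) (sub_nonneg.2 g1)]
    ·
      nlinarith [hx136 H, mul_nonneg (sub_nonneg.2 g1) (sub_nonneg.2 e2)]

lemma ln3 {t p : ℝ} (h : HT t p) (h1 : 0 ≤ t) (h2 : t ≤ (1/100)) : (-3/10000) + (797/500) * t ≤ p := by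
  obtain ⟨y, hy, ht, hp, H, _⟩ := h
  have e1 : (0 : ℝ) ≤ y := hy
  have e2 : y ≤ (1/10) := sq_hi hy (by norm_num) (by rw [← ht]; norm_num; linarith)
  rw [ht]
  rcases le_total y (13/1000) with g0 | g0
  · nlinarith [hp, mul_nonneg (sub_nonneg.2 e1) (sub_nonneg.2 g0)]
  ·
    nlinarith [hx176 H, mul_nonneg (sub_nonneg.2 g0) (sub_nonneg.2 e2)]

lemma ln4 {t p : ℝ} (h : HT t p) (h1 : 0 ≤ t) (h2 : t ≤ 1) : (-9/10000) + (197/500) * t ≤ p := by
  obtain ⟨y, hy, ht, hp, H, _⟩ := h
  have e1 : (0 : ℝ) ≤ y := hy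
  have e2 : y ≤ 1 := sq_hi hy (by norm_num) (by rw [← ht]; norm_num; linarith)
  rw [ht]
  rcases le_total y (47/1000) with g0 | g0
  · nlinarith [hp, mul_nonneg (sub_nonneg.2 e1) (sub_nonneg.2 g0)]
  ·
    rcases le_total y (11/20) with g1 | g1
    · nlinarith [hx136 H, mul_nonneg (sub_nonneg.2 g0) (sub_nonneg.2 g1)]
    ·
      rcases le_total y (779/1000) with g2 | g2
      · nlinarith [hx64 H, mul_nonneg (sub_nonneg.2 g1) (sub_nonneg.2 g2)]
      ·
        rcases le_total y (104/125) with g3 | g3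
        · nlinarith [hx51 H, mul_nonneg (sub_nonneg.2 g2) (sub_nonneg.2 g3)]
        ·
          rcases le_total y (897/1000) with g4 | g4
          · nlinarith [hx47 H, mul_nonneg (sub_nonneg.2 g3) (sub_nonneg.2 g4)]
          ·
            nlinarith [hx30 H, mul_nonneg (sub_nonneg.2 g4) (sub_nonneg.2 e2)]

lemma lm0 {t p : ℝ} (h : HT t p) (h2 : t ≤ (1/25)) : (9/10) * t ≤ p := by
  obtain ⟨y, hy, ht, hp, H, htiny⟩ := h
  have e1 : (0 : ℝ) ≤ y := hy
  have e2 : y ≤ (1/5) := sq_hi hy (by norm_num) (by rw [← ht]; norm_num; linarith)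
  rw [ht]
  rcases le_total y (1/91) with g0 | g0
  · nlinarith [htiny g0, sq_nonneg y]
  ·
    rcases le_total y (183/1000) with g1 | g1
    · nlinarith [hx184 H, mul_nonneg (sub_nonneg.2 g0) (sub_nonneg.2 g1)]
    ·
      nlinarith [hx136 H, mul_nonneg (sub_nonneg.2 g1) (sub_nonneg.2 e2)]

lemma ln5 {t p : ℝ} (h : HT t p) (h1 : (1/100) ≤ t) (h2 : t ≤ 1) : (-341/2500) + (141/250) * t ≤ p := by
  obtain ⟨y, hy, ht, hp, H, _⟩ := h
  have e1 : (1/10) ≤ y := sq_lo hy (by norm_num) (by rw [← ht]; norm_num; linarith)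
  have e2 : y ≤ 1 := sq_hi hy (by norm_num) (by rw [← ht]; norm_num; linarith)
  rw [ht]
  rcases le_total y (433/500) with g0 | g0
  · nlinarith [hx59 H, mul_nonneg (sub_nonneg.2 e1) (sub_nonneg.2 g0)]
  ·
    rcases le_total y (93/100) with g1 | g1
    · nlinarith [hx32 H, mul_nonneg (sub_nonneg.2 g0) (sub_nonneg.2 g1)]
    ·
      nlinarith [hx29 H, mul_nonneg (sub_nonneg.2 g1) (sub_nonneg.2 e2)]

lemma ln6 {t p : ℝ} (h : HT t p) (h1 : (1/100) ≤ t) (h2 : t ≤ (1/25)) : (89/10000) + (341/500) * t ≤ p := by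
  obtain ⟨y, hy, ht, hp, H, _⟩ := h
  have e1 : (1/10) ≤ y := sq_lo hy (by norm_num) (by rw [← ht]; norm_num; linarith)
  have e2 : y ≤ (1/5) := sq_hi hy (by norm_num) (by rw [← ht]; norm_num; linarith)
  rw [ht]
  rcases le_total y (187/1000) with g0 | g0
  · nlinarith [hx164 H, mul_nonneg (sub_nonneg.2 e1) (sub_nonneg.2 g0)]
  ·
    nlinarith [hx140 H, mul_nonneg (sub_nonneg.2 g0) (sub_nonneg.2 e2)]

lemma ln7 {t p : ℝ} (h : HT t p) (h1 : (1/100) ≤ t) (h2 : t ≤ 1) : (-79/1000) + (62/125) * t ≤ p := by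
  obtain ⟨y, hy, ht, hp, H, _⟩ := h
  have e1 : (1/10) ≤ y := sq_lo hy (by norm_num) (by rw [← ht]; norm_num; linarith)
  have e2 : y ≤ 1 := sq_hi hy (by norm_num) (by rw [← ht]; norm_num; linarith)
  rw [ht]
  rcases le_total y (203/250) with g0 | g0
  · nlinarith [hx72 H, mul_nonneg (sub_nonneg.2 e1) (sub_nonneg.2 g0)]
  ·
    rcases le_total y (113/125) with g1 | g1
    · nlinarith [hx38 H, mul_nonneg (sub_nonneg.2 g0) (sub_nonneg.2 g1)]
    ·
      rcases le_total y (989/1000) with g2 | g2
      · nlinarith [hx34 H, mul_nonneg (sub_nonneg.2 g1) (sub_nonneg.2 g2)]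
      ·
        nlinarith [hx5 H, mul_nonneg (sub_nonneg.2 g2) (sub_nonneg.2 e2)]

lemma ln8 {t p : ℝ} (h : HT t p) (h1 : (1/100) ≤ t) (h2 : t ≤ 1) : (119/10000) + (187/500) * t ≤ p := by
  obtain ⟨y, hy, ht, hp, H, _⟩ := h
  have e1 : (1/10) ≤ y := sq_lo hy (by norm_num) (by rw [← ht]; norm_num; linarith)
  have e2 : y ≤ 1 := sq_hi hy (by norm_num) (by rw [← ht]; norm_num; linarith)
  rw [ht]
  rcases le_total y (433/1000) with g0 | g0
  · nlinarith [hx160 H, mul_nonneg (sub_nonneg.2 e1) (sub_nonneg.2 g0)]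
  ·
    rcases le_total y (721/1000) with g1 | g1
    · nlinarith [hx76 H, mul_nonneg (sub_nonneg.2 g0) (sub_nonneg.2 g1)]
    ·
      rcases le_total y (102/125) with g2 | g2
      · nlinarith [hx56 H, mul_nonneg (sub_nonneg.2 g1) (sub_nonneg.2 g2)]
      ·
        nlinarith [hx47 H, mul_nonneg (sub_nonneg.2 g2) (sub_nonneg.2 e2)]

lemma ln9 {t p : ℝ} (h : HT t p) (h1 : (1/100) ≤ t) (h2 : t ≤ (9/100)) : (101/10000) + (139/250) * t ≤ p := by
  obtain ⟨y, hy, ht, hp, H, _⟩ := h
  have e1 : (1/10) ≤ y := sq_lo hy (by norm_num) (by rw [← ht]; norm_num; linarith)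
  have e2 : y ≤ (3/10) := sq_hi hy (by norm_num) (by rw [← ht]; norm_num; linarith)
  rw [ht]
  rcases le_total y (259/1000) with g0 | g0
  · nlinarith [hx160 H, mul_nonneg (sub_nonneg.2 e1) (sub_nonneg.2 g0)]
  ·
    nlinarith [hx120 H, mul_nonneg (sub_nonneg.2 g0) (sub_nonneg.2 e2)]

lemma ln10 {t p : ℝ} (h : HT t p) (h1 : (1/100) ≤ t) (h2 : t ≤ 1) : (-211/5000) + (9/20) * t ≤ p := by
  obtain ⟨y, hy, ht, hp, H, _⟩ := h
  have e1 : (1/10) ≤ y := sq_lo hy (by norm_num) (by rw [← ht]; norm_num; linarith)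
  have e2 : y ≤ 1 := sq_hi hy (by norm_num) (by rw [← ht]; norm_num; linarith)
  rw [ht]
  rcases le_total y (189/250) with g0 | g0
  · nlinarith [hx84 H, mul_nonneg (sub_nonneg.2 e1) (sub_nonneg.2 g0)]
  ·
    rcases le_total y (437/500) with g1 | g1
    · nlinarith [hx44 H, mul_nonneg (sub_nonneg.2 g0) (sub_nonneg.2 g1)]
    ·
      rcases le_total y (911/1000) with g2 | g2
      · nlinarith [hx40 H, mul_nonneg (sub_nonneg.2 g1) (sub_nonneg.2 g2)]
      ·
        nlinarith [hx30 H, mul_nonneg (sub_nonneg.2 g2) (sub_nonneg.2 e2)]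

lemma ln11 {t p : ℝ} (h : HT t p) (h1 : (9/100) ≤ t) (h2 : t ≤ 1) : (-391/10000) + (223/500) * t ≤ p := by
  obtain ⟨y, hy, ht, hp, H, _⟩ := h
  have e1 : (3/10) ≤ y := sq_lo hy (by norm_num) (by rw [← ht]; norm_num; linarith)
  have e2 : y ≤ 1 := sq_hi hy (by norm_num) (by rw [← ht]; norm_num; linarith)
  rw [ht]
  rcases le_total y (399/500) with g0 | g0
  · nlinarith [hx68 H, mul_nonneg (sub_nonneg.2 e1) (sub_nonneg.2 g0)]
  ·
    rcases le_total y (439/500) with g1 | g1
    · nlinarith [hx43 H, mul_nonneg (sub_nonneg.2 g0) (sub_nonneg.2 g1)]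
    ·
      rcases le_total y (959/1000) with g2 | g2
      · nlinarith [hx39 H, mul_nonneg (sub_nonneg.2 g1) (sub_nonneg.2 g2)]
      ·
        nlinarith [hx14 H, mul_nonneg (sub_nonneg.2 g2) (sub_nonneg.2 e2)]

lemma ln12 {t p : ℝ} (h : HT t p) (h1 : (9/100) ≤ t) (h2 : t ≤ 1) : (-93/10000) + (203/500) * t ≤ p := by
  obtain ⟨y, hy, ht, hp, H, _⟩ := h
  have e1 : (3/10) ≤ y := sq_lo hy (by norm_num) (by rw [← ht]; norm_num; linarith)
  have e2 : y ≤ 1 := sq_hi hy (by norm_num) (by rw [← ht]; norm_num; linarith)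
  rw [ht]
  rcases le_total y (747/1000) with g0 | g0
  · nlinarith [hx76 H, mul_nonneg (sub_nonneg.2 e1) (sub_nonneg.2 g0)]
  ·
    rcases le_total y (419/500) with g1 | g1
    · nlinarith [hx50 H, mul_nonneg (sub_nonneg.2 g0) (sub_nonneg.2 g1)]
    ·
      rcases le_total y (879/1000) with g2 | g2
      · nlinarith [hx46 H, mul_nonneg (sub_nonneg.2 g1) (sub_nonneg.2 g2)]
      ·
        nlinarith [hx36 H, mul_nonneg (sub_nonneg.2 g2) (sub_nonneg.2 e2)]

lemma ln13 {t p : ℝ} (h : HT t p) (h1 : (9/100) ≤ t) (h2 : t ≤ 1) : (29/1000) + (173/500) * t ≤ p := by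
  obtain ⟨y, hy, ht, hp, H, _⟩ := h
  have e1 : (3/10) ≤ y := sq_lo hy (by norm_num) (by rw [← ht]; norm_num; linarith)
  have e2 : y ≤ 1 := sq_hi hy (by norm_num) (by rw [← ht]; norm_num; linarith)
  rw [ht]
  rcases le_total y (47/100) with g0 | g0
  · nlinarith [hx120 H, mul_nonneg (sub_nonneg.2 e1) (sub_nonneg.2 g0)]
  ·
    rcases le_total y (129/200) with g1 | g1
    · nlinarith [hx84 H, mul_nonneg (sub_nonneg.2 g0) (sub_nonneg.2 g1)]
    ·
      rcases le_total y (29/40) with g2 | g2
      · nlinarith [hx68 H, mul_nonneg (sub_nonneg.2 g1) (sub_nonneg.2 g2)]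
      ·
        rcases le_total y (151/200) with g3 | g3
        · nlinarith [hx64 H, mul_nonneg (sub_nonneg.2 g2) (sub_nonneg.2 g3)]
        ·
          rcases le_total y (217/250) with g4 | g4
          · nlinarith [hx57 H, mul_nonneg (sub_nonneg.2 g3) (sub_nonneg.2 g4)]
          ·
            nlinarith [hx33 H, mul_nonneg (sub_nonneg.2 g4) (sub_nonneg.2 e2)]

lemma ln14 {t p : ℝ} (h : HT t p) (h1 : (1/25) ≤ t) (h2 : t ≤ 1) : (-109/1000) + (133/250) * t ≤ p := by
  obtain ⟨y, hy, ht, hp, H, _⟩ := h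
  have e1 : (1/5) ≤ y := sq_lo hy (by norm_num) (by rw [← ht]; norm_num; linarith)
  have e2 : y ≤ 1 := sq_hi hy (by norm_num) (by rw [← ht]; norm_num; linarith)
  rw [ht]
  rcases le_total y (431/500) with g0 | g0
  · nlinarith [hx57 H, mul_nonneg (sub_nonneg.2 e1) (sub_nonneg.2 g0)]
  ·
    rcases le_total y (461/500) with g1 | g1
    · nlinarith [hx34 H, mul_nonneg (sub_nonneg.2 g0) (sub_nonneg.2 g1)]
    ·
      nlinarith [hx31 H, mul_nonneg (sub_nonneg.2 g1) (sub_nonneg.2 e2)]

lemma ln15 {t p : ℝ} (h : HT t p) (h1 : (1/25) ≤ t) (h2 : t ≤ 1) : (-579/10000) + (47/100) * t ≤ p := by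
  obtain ⟨y, hy, ht, hp, H, _⟩ := h
  have e1 : (1/5) ≤ y := sq_lo hy (by norm_num) (by rw [← ht]; norm_num; linarith)
  have e2 : y ≤ 1 := sq_hi hy (by norm_num) (by rw [← ht]; norm_num; linarith)
  rw [ht]
  rcases le_total y (811/1000) with g0 | g0
  · nlinarith [hx68 H, mul_nonneg (sub_nonneg.2 e1) (sub_nonneg.2 g0)]
  ·
    rcases le_total y (893/1000) with g1 | g1
    · nlinarith [hx40 H, mul_nonneg (sub_nonneg.2 g0) (sub_nonneg.2 g1)]
    ·
      rcases le_total y (237/250) with g2 | g2
      · nlinarith [hx37 H, mul_nonneg (sub_nonneg.2 g1) (sub_nonneg.2 g2)]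
      ·
        nlinarith [hx19 H, mul_nonneg (sub_nonneg.2 g2) (sub_nonneg.2 e2)]

lemma ln16 {t p : ℝ} (h : HT t p) (h1 : 0 ≤ t) (h2 : t ≤ (9/100)) : (-1/5000) + (67/100) * t ≤ p := by
  obtain ⟨y, hy, ht, hp, H, _⟩ := h
  have e1 : (0 : ℝ) ≤ y := hy
  have e2 : y ≤ (3/10) := sq_hi hy (by norm_num) (by rw [← ht]; norm_num; linarith)
  rw [ht]
  rcases le_total y (17/1000) with g0 | g0
  · nlinarith [hp, mul_nonneg (sub_nonneg.2 e1) (sub_nonneg.2 g0)]
  ·
    rcases le_total y (267/1000) with g1 | g1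
    · nlinarith [hx168 H, mul_nonneg (sub_nonneg.2 g0) (sub_nonneg.2 g1)]
    ·
      nlinarith [hx120 H, mul_nonneg (sub_nonneg.2 g1) (sub_nonneg.2 e2)]

lemma ln17 {t p : ℝ} (h : HT t p) (h1 : (1/25) ≤ t) (h2 : t ≤ 1) : (109/5000) + (179/500) * t ≤ p := by
  obtain ⟨y, hy, ht, hp, H, _⟩ := h
  have e1 : (1/5) ≤ y := sq_lo hy (by norm_num) (by rw [← ht]; norm_num; linarith)
  have e2 : y ≤ 1 := sq_hi hy (by norm_num) (by rw [← ht]; norm_num; linarith)
  rw [ht]
  rcases le_total y (57/125) with g0 | g0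
  · nlinarith [hx136 H, mul_nonneg (sub_nonneg.2 e1) (sub_nonneg.2 g0)]
  ·
    rcases le_total y (343/500) with g1 | g1
    · nlinarith [hx80 H, mul_nonneg (sub_nonneg.2 g0) (sub_nonneg.2 g1)]
    ·
      rcases le_total y (763/1000) with g2 | g2
      · nlinarith [hx64 H, mul_nonneg (sub_nonneg.2 g1) (sub_nonneg.2 g2)]
      ·
        rcases le_total y (173/200) with g3 | g3
        · nlinarith [hx55 H, mul_nonneg (sub_nonneg.2 g2) (sub_nonneg.2 g3)]
        ·
          nlinarith [hx34 H, mul_nonneg (sub_nonneg.2 g3) (sub_nonneg.2 e2)]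

lemma ln18 {t p : ℝ} (h : HT t p) (h1 : (1/25) ≤ t) (h2 : t ≤ (9/100)) : (169/10000) + (12/25) * t ≤ p := by
  obtain ⟨y, hy, ht, hp, H, _⟩ := h
  have e1 : (1/5) ≤ y := sq_lo hy (by norm_num) (by rw [← ht]; norm_num; linarith)
  have e2 : y ≤ (3/10) := sq_hi hy (by norm_num) (by rw [← ht]; norm_num; linarith)
  rw [ht]
  rcases le_total y (29/100) with g0 | g0
  · nlinarith [hx136 H, mul_nonneg (sub_nonneg.2 e1) (sub_nonneg.2 g0)]
  ·
    nlinarith [hx120 H, mul_nonneg (sub_nonneg.2 g0) (sub_nonneg.2 e2)]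

lemma lm1 {t p : ℝ} (h : HT t p) (h2 : t ≤ (9/100)) : (33/50) * t ≤ p := by
  obtain ⟨y, hy, ht, hp, H, htiny⟩ := h
  have e1 : (0 : ℝ) ≤ y := hy
  have e2 : y ≤ (3/10) := sq_hi hy (by norm_num) (by rw [← ht]; norm_num; linarith)
  rw [ht]
  rcases le_total y (1/91) with g0 | g0
  · nlinarith [htiny g0, sq_nonneg y]
  ·
    rcases le_total y (253/1000) with g1 | g1
    · nlinarith [hx184 H, mul_nonneg (sub_nonneg.2 g0) (sub_nonneg.2 g1)]
    ·
      nlinarith [hx116 H, mul_nonneg (sub_nonneg.2 g1) (sub_nonneg.2 e2)]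

lemma ln19 {t p : ℝ} (h : HT t p) (h1 : (1/25) ≤ t) (h2 : t ≤ 1) : (-239/10000) + (213/500) * t ≤ p := by
  obtain ⟨y, hy, ht, hp, H, _⟩ := h
  have e1 : (1/5) ≤ y := sq_lo hy (by norm_num) (by rw [← ht]; norm_num; linarith)
  have e2 : y ≤ 1 := sq_hi hy (by norm_num) (by rw [← ht]; norm_num; linarith)
  rw [ht]
  rcases le_total y (3/4) with g0 | g0
  · nlinarith [hx80 H, mul_nonneg (sub_nonneg.2 e1) (sub_nonneg.2 g0)]
  ·
    rcases le_total y (107/125) with g1 | g1
    · nlinarith [hx47 H, mul_nonneg (sub_nonneg.2 g0) (sub_nonneg.2 g1)]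
    ·
      rcases le_total y (112/125) with g2 | g2
      · nlinarith [hx43 H, mul_nonneg (sub_nonneg.2 g1) (sub_nonneg.2 g2)]
      ·
        nlinarith [hx33 H, mul_nonneg (sub_nonneg.2 g2) (sub_nonneg.2 e2)]

lemma ln20 {t p : ℝ} (h : HT t p) (h1 : (1/25) ≤ t) (h2 : t ≤ 1) : (-23/10000) + (99/250) * t ≤ p := by
  obtain ⟨y, hy, ht, hp, H, _⟩ := h
  have e1 : (1/5) ≤ y := sq_lo hy (by norm_num) (by rw [← ht]; norm_num; linarith)
  have e2 : y ≤ 1 := sq_hi hy (by norm_num) (by rw [← ht]; norm_num; linarith)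
  rw [ht]
  rcases le_total y (137/200) with g0 | g0
  · nlinarith [hx92 H, mul_nonneg (sub_nonneg.2 e1) (sub_nonneg.2 g0)]
  ·
    rcases le_total y (409/500) with g1 | g1
    · nlinarith [hx54 H, mul_nonneg (sub_nonneg.2 g0) (sub_nonneg.2 g1)]
    ·
      rcases le_total y (433/500) with g2 | g2
      · nlinarith [hx48 H, mul_nonneg (sub_nonneg.2 g1) (sub_nonneg.2 g2)]
      ·
        nlinarith [hx39 H, mul_nonneg (sub_nonneg.2 g2) (sub_nonneg.2 e2)]

lemma ln21 {t p : ℝ} (h : HT t p) (h1 : 0 ≤ t) (h2 : t ≤ (9/400)) : (-1/5000) + (571/500) * t ≤ p := by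
  obtain ⟨y, hy, ht, hp, H, _⟩ := h
  have e1 : (0 : ℝ) ≤ y := hy
  have e2 : y ≤ (3/20) := sq_hi hy (by norm_num) (by rw [← ht]; norm_num; linarith)
  rw [ht]
  rcases le_total y (13/1000) with g0 | g0
  · nlinarith [hp, mul_nonneg (sub_nonneg.2 e1) (sub_nonneg.2 g0)]
  ·
    rcases le_total y (73/500) with g1 | g1
    · nlinarith [hx176 H, mul_nonneg (sub_nonneg.2 g0) (sub_nonneg.2 g1)]
    ·
      nlinarith [hx148 H, mul_nonneg (sub_nonneg.2 g1) (sub_nonneg.2 e2)]

lemma ln22 {t p : ℝ} (h : HT t p) (h1 : (1/25) ≤ t) (h2 : t ≤ 1) : (31/2500) + (187/500) * t ≤ p := by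
  obtain ⟨y, hy, ht, hp, H, _⟩ := h
  have e1 : (1/5) ≤ y := sq_lo hy (by norm_num) (by rw [← ht]; norm_num; linarith)
  have e2 : y ≤ 1 := sq_hi hy (by norm_num) (by rw [← ht]; norm_num; linarith)
  rw [ht]
  rcases le_total y (599/1000) with g0 | g0
  · nlinarith [hx108 H, mul_nonneg (sub_nonneg.2 e1) (sub_nonneg.2 g0)]
  ·
    rcases le_total y (191/250) with g1 | g1
    · nlinarith [hx64 H, mul_nonneg (sub_nonneg.2 g0) (sub_nonneg.2 g1)]
    ·
      rcases le_total y (819/1000) with g2 | g2
      · nlinarith [hx54 H, mul_nonneg (sub_nonneg.2 g1) (sub_nonneg.2 g2)]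
      ·
        rcases le_total y (961/1000) with g3 | g3
        · nlinarith [hx48 H, mul_nonneg (sub_nonneg.2 g2) (sub_nonneg.2 g3)]
        ·
          nlinarith [hx11 H, mul_nonneg (sub_nonneg.2 g3) (sub_nonneg.2 e2)]

lemma ln23 {t p : ℝ} (h : HT t p) (h1 : (9/400) ≤ t) (h2 : t ≤ (9/100)) : (139/10000) + (257/500) * t ≤ p := by
  obtain ⟨y, hy, ht, hp, H, _⟩ := h
  have e1 : (3/20) ≤ y := sq_lo hy (by norm_num) (by rw [← ht]; norm_num; linarith)
  have e2 : y ≤ (3/10) := sq_hi hy (by norm_num) (by rw [← ht]; norm_num; linarith)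
  rw [ht]
  rcases le_total y (27/100) with g0 | g0
  · nlinarith [hx148 H, mul_nonneg (sub_nonneg.2 e1) (sub_nonneg.2 g0)]
  ·
    nlinarith [hx120 H, mul_nonneg (sub_nonneg.2 g0) (sub_nonneg.2 e2)]

lemma ln24 {t p : ℝ} (h : HT t p) (h1 : (9/100) ≤ t) (h2 : t ≤ (4/25)) : (123/5000) + (197/500) * t ≤ p := by
  obtain ⟨y, hy, ht, hp, H, _⟩ := h
  have e1 : (3/10) ≤ y := sq_lo hy (by norm_num) (by rw [← ht]; norm_num; linarith)
  have e2 : y ≤ (2/5) := sq_hi hy (by norm_num) (by rw [← ht]; norm_num; linarith)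
  rw [ht]
  rcases le_total y (19/50) with g0 | g0
  · nlinarith [hx120 H, mul_nonneg (sub_nonneg.2 e1) (sub_nonneg.2 g0)]
  ·
    nlinarith [hx104 H, mul_nonneg (sub_nonneg.2 g0) (sub_nonneg.2 e2)]

lemma ln25 {t p : ℝ} (h : HT t p) (h1 : 0 ≤ t) (h2 : t ≤ (4/25)) : (-3/10000) + (11/20) * t ≤ p := by
  obtain ⟨y, hy, ht, hp, H, _⟩ := h
  have e1 : (0 : ℝ) ≤ y := hy
  have e2 : y ≤ (2/5) := sq_hi hy (by norm_num) (by rw [← ht]; norm_num; linarith)
  rw [ht]
  rcases le_total y (23/1000) with g0 | g0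
  · nlinarith [hp, mul_nonneg (sub_nonneg.2 e1) (sub_nonneg.2 g0)]
  ·
    rcases le_total y (341/1000) with g1 | g1
    · nlinarith [hx160 H, mul_nonneg (sub_nonneg.2 g0) (sub_nonneg.2 g1)]
    ·
      nlinarith [hx104 H, mul_nonneg (sub_nonneg.2 g1) (sub_nonneg.2 e2)]

lemma lm2 {t p : ℝ} (h : HT t p) (h2 : t ≤ (4/25)) : (27/50) * t ≤ p := by
  obtain ⟨y, hy, ht, hp, H, htiny⟩ := h
  have e1 : (0 : ℝ) ≤ y := hy
  have e2 : y ≤ (2/5) := sq_hi hy (by norm_num) (by rw [← ht]; norm_num; linarith)
  rw [ht]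
  rcases le_total y (1/91) with g0 | g0
  · nlinarith [htiny g0, sq_nonneg y]
  ·
    rcases le_total y (317/1000) with g1 | g1
    · nlinarith [hx180 H, mul_nonneg (sub_nonneg.2 g0) (sub_nonneg.2 g1)]
    ·
      nlinarith [hx100 H, mul_nonneg (sub_nonneg.2 g1) (sub_nonneg.2 e2)]

lemma ln26 {t p : ℝ} (h : HT t p) (h1 : (1/100) ≤ t) (h2 : t ≤ (4/25)) : (109/10000) + (12/25) * t ≤ p := by
  obtain ⟨y, hy, ht, hp, H, _⟩ := h
  have e1 : (1/10) ≤ y := sq_lo hy (by norm_num) (by rw [← ht]; norm_num; linarith)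
  have e2 : y ≤ (2/5) := sq_hi hy (by norm_num) (by rw [← ht]; norm_num; linarith)
  rw [ht]
  rcases le_total y (63/200) with g0 | g0
  · nlinarith [hx160 H, mul_nonneg (sub_nonneg.2 e1) (sub_nonneg.2 g0)]
  ·
    nlinarith [hx104 H, mul_nonneg (sub_nonneg.2 g0) (sub_nonneg.2 e2)]

lemma ln27 {t p : ℝ} (h : HT t p) (h1 : (9/100) ≤ t) (h2 : t ≤ 1) : (211/10000) + (9/25) * t ≤ p := by
  obtain ⟨y, hy, ht, hp, H, _⟩ := h
  have e1 : (3/10) ≤ y := sq_lo hy (by norm_num) (by rw [← ht]; norm_num; linarith)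
  have e2 : y ≤ 1 := sq_hi hy (by norm_num) (by rw [← ht]; norm_num; linarith)
  rw [ht]
  rcases le_total y (301/500) with g0 | g0
  · nlinarith [hx100 H, mul_nonneg (sub_nonneg.2 e1) (sub_nonneg.2 g0)]
  ·
    rcases le_total y (147/200) with g1 | g1
    · nlinarith [hx68 H, mul_nonneg (sub_nonneg.2 g0) (sub_nonneg.2 g1)]
    ·
      rcases le_total y (783/1000) with g2 | g2
      · nlinarith [hx59 H, mul_nonneg (sub_nonneg.2 g1) (sub_nonneg.2 g2)]
      ·
        rcases le_total y (108/125) with g3 | g3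
        · nlinarith [hx54 H, mul_nonneg (sub_nonneg.2 g2) (sub_nonneg.2 g3)]
        ·
          nlinarith [hx35 H, mul_nonneg (sub_nonneg.2 g3) (sub_nonneg.2 e2)]

lemma ln28 {t p : ℝ} (h : HT t p) (h1 : (9/100) ≤ t) (h2 : t ≤ 1) : (17/2000) + (19/50) * t ≤ p := by
  obtain ⟨y, hy, ht, hp, H, _⟩ := h
  have e1 : (3/10) ≤ y := sq_lo hy (by norm_num) (by rw [← ht]; norm_num; linarith)
  have e2 : y ≤ 1 := sq_hi hy (by norm_num) (by rw [← ht]; norm_num; linarith)
  rw [ht]
  rcases le_total y (17/25) with g0 | g0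
  · nlinarith [hx88 H, mul_nonneg (sub_nonneg.2 e1) (sub_nonneg.2 g0)]
  ·
    rcases le_total y (399/500) with g1 | g1
    · nlinarith [hx57 H, mul_nonneg (sub_nonneg.2 g0) (sub_nonneg.2 g1)]
    ·
      rcases le_total y (213/250) with g2 | g2
      · nlinarith [hx51 H, mul_nonneg (sub_nonneg.2 g1) (sub_nonneg.2 g2)]
      ·
        nlinarith [hx41 H, mul_nonneg (sub_nonneg.2 g2) (sub_nonneg.2 e2)]

lemma ln29 {t p : ℝ} (h : HT t p) (h1 : (9/400) ≤ t) (h2 : t ≤ (4/25)) : (153/10000) + (113/250) * t ≤ p := by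
  obtain ⟨y, hy, ht, hp, H, _⟩ := h
  have e1 : (3/20) ≤ y := sq_lo hy (by norm_num) (by rw [← ht]; norm_num; linarith)
  have e2 : y ≤ (2/5) := sq_hi hy (by norm_num) (by rw [← ht]; norm_num; linarith)
  rw [ht]
  rcases le_total y (41/125) with g0 | g0
  · nlinarith [hx148 H, mul_nonneg (sub_nonneg.2 e1) (sub_nonneg.2 g0)]
  ·
    nlinarith [hx104 H, mul_nonneg (sub_nonneg.2 g0) (sub_nonneg.2 e2)]

lemma ln30 {t p : ℝ} (h : HT t p) (h1 : (4/25) ≤ t) (h2 : t ≤ 1) : (9/5000) + (39/100) * t ≤ p := by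
  obtain ⟨y, hy, ht, hp, H, _⟩ := h
  have e1 : (2/5) ≤ y := sq_lo hy (by norm_num) (by rw [← ht]; norm_num; linarith)
  have e2 : y ≤ 1 := sq_hi hy (by norm_num) (by rw [← ht]; norm_num; linarith)
  rw [ht]
  rcases le_total y (747/1000) with g0 | g0
  · nlinarith [hx72 H, mul_nonneg (sub_nonneg.2 e1) (sub_nonneg.2 g0)]
  ·
    rcases le_total y (827/1000) with g1 | g1
    · nlinarith [hx52 H, mul_nonneg (sub_nonneg.2 g0) (sub_nonneg.2 g1)]
    ·
      rcases le_total y (183/200) with g2 | g2
      · nlinarith [hx47 H, mul_nonneg (sub_nonneg.2 g1) (sub_nonneg.2 g2)]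
      ·
        nlinarith [hx25 H, mul_nonneg (sub_nonneg.2 g2) (sub_nonneg.2 e2)]

lemma ln31 {t p : ℝ} (h : HT t p) (h1 : (4/25) ≤ t) (h2 : t ≤ (81/400)) : (19/625) + (179/500) * t ≤ p := by
  obtain ⟨y, hy, ht, hp, H, _⟩ := h
  have e1 : (2/5) ≤ y := sq_lo hy (by norm_num) (by rw [← ht]; norm_num; linarith)
  have e2 : y ≤ (9/20) := sq_hi hy (by norm_num) (by rw [← ht]; norm_num; linarith)
  rw [ht]
  nlinarith [hx104 H, mul_nonneg (sub_nonneg.2 e1) (sub_nonneg.2 e2)]

lemma ln32 {t p : ℝ} (h : HT t p) (h1 : 0 ≤ t) (h2 : t ≤ (81/400)) : (-1/2500) + (51/100) * t ≤ p := by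
  obtain ⟨y, hy, ht, hp, H, _⟩ := h
  have e1 : (0 : ℝ) ≤ y := hy
  have e2 : y ≤ (9/20) := sq_hi hy (by norm_num) (by rw [← ht]; norm_num; linarith)
  rw [ht]
  rcases le_total y (7/250) with g0 | g0
  · nlinarith [hp, mul_nonneg (sub_nonneg.2 e1) (sub_nonneg.2 g0)]
  ·
    rcases le_total y (48/125) with g1 | g1
    · nlinarith [hx152 H, mul_nonneg (sub_nonneg.2 g0) (sub_nonneg.2 g1)]
    ·
      nlinarith [hx100 H, mul_nonneg (sub_nonneg.2 g1) (sub_nonneg.2 e2)]

lemma ln33 {t p : ℝ} (h : HT t p) (h1 : (4/25) ≤ t) (h2 : t ≤ 1) : (-14/625) + (53/125) * t ≤ p := by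
  obtain ⟨y, hy, ht, hp, H, _⟩ := h
  have e1 : (2/5) ≤ y := sq_lo hy (by norm_num) (by rw [← ht]; norm_num; linarith)
  have e2 : y ≤ 1 := sq_hi hy (by norm_num) (by rw [← ht]; norm_num; linarith)
  rw [ht]
  rcases le_total y (399/500) with g0 | g0
  · nlinarith [hx64 H, mul_nonneg (sub_nonneg.2 e1) (sub_nonneg.2 g0)]
  ·
    rcases le_total y (861/1000) with g1 | g1
    · nlinarith [hx46 H, mul_nonneg (sub_nonneg.2 g0) (sub_nonneg.2 g1)]
    ·
      rcases le_total y (933/1000) with g2 | g2
      · nlinarith [hx42 H, mul_nonneg (sub_nonneg.2 g1) (sub_nonneg.2 g2)]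
      ·
        nlinarith [hx22 H, mul_nonneg (sub_nonneg.2 g2) (sub_nonneg.2 e2)]

lemma ln34 {t p : ℝ} (h : HT t p) (h1 : (4/25) ≤ t) (h2 : t ≤ 1) : (333/10000) + (169/500) * t ≤ p := by
  obtain ⟨y, hy, ht, hp, H, _⟩ := h
  have e1 : (2/5) ≤ y := sq_lo hy (by norm_num) (by rw [← ht]; norm_num; linarith)
  have e2 : y ≤ 1 := sq_hi hy (by norm_num) (by rw [← ht]; norm_num; linarith)
  rw [ht]
  rcases le_total y (129/250) with g0 | g0
  · nlinarith [hx104 H, mul_nonneg (sub_nonneg.2 e1) (sub_nonneg.2 g0)]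
  ·
    rcases le_total y (313/500) with g1 | g1
    · nlinarith [hx84 H, mul_nonneg (sub_nonneg.2 g0) (sub_nonneg.2 g1)]
    ·
      rcases le_total y (691/1000) with g2 | g2
      · nlinarith [hx72 H, mul_nonneg (sub_nonneg.2 g1) (sub_nonneg.2 g2)]
      ·
        rcases le_total y (721/1000) with g3 | g3
        · nlinarith [hx68 H, mul_nonneg (sub_nonneg.2 g2) (sub_nonneg.2 g3)]
        ·
          rcases le_total y (77/100) with g4 | g4
          · nlinarith [hx64 H, mul_nonneg (sub_nonneg.2 g3) (sub_nonneg.2 g4)]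
          ·
            nlinarith [hx53 H, mul_nonneg (sub_nonneg.2 g4) (sub_nonneg.2 e2)]

lemma lm3 {t p : ℝ} (h : HT t p) (h2 : t ≤ (81/400)) : (1/2) * t ≤ p := by
  obtain ⟨y, hy, ht, hp, H, htiny⟩ := h
  have e1 : (0 : ℝ) ≤ y := hy
  have e2 : y ≤ (9/20) := sq_hi hy (by norm_num) (by rw [← ht]; norm_num; linarith)
  rw [ht]
  rcases le_total y (1/91) with g0 | g0
  · nlinarith [htiny g0, sq_nonneg y]
  ·
    rcases le_total y (343/1000) with g1 | g1
    · nlinarith [hx180 H, mul_nonneg (sub_nonneg.2 g0) (sub_nonneg.2 g1)]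
    ·
      nlinarith [hx92 H, mul_nonneg (sub_nonneg.2 g1) (sub_nonneg.2 e2)]

lemma ln35 {t p : ℝ} (h : HT t p) (h1 : (1/100) ≤ t) (h2 : t ≤ (81/400)) : (11/1000) + (227/500) * t ≤ p := by
  obtain ⟨y, hy, ht, hp, H, _⟩ := h
  have e1 : (1/10) ≤ y := sq_lo hy (by norm_num) (by rw [← ht]; norm_num; linarith)
  have e2 : y ≤ (9/20) := sq_hi hy (by norm_num) (by rw [← ht]; norm_num; linarith)
  rw [ht]
  rcases le_total y (17/50) with g0 | g0
  · nlinarith [hx160 H, mul_nonneg (sub_nonneg.2 e1) (sub_nonneg.2 g0)]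
  ·
    nlinarith [hx100 H, mul_nonneg (sub_nonneg.2 g0) (sub_nonneg.2 e2)]

lemma ln36 {t p : ℝ} (h : HT t p) (h1 : (4/25) ≤ t) (h2 : t ≤ 1) : (7/400) + (183/500) * t ≤ p := by
  obtain ⟨y, hy, ht, hp, H, _⟩ := h
  have e1 : (2/5) ≤ y := sq_lo hy (by norm_num) (by rw [← ht]; norm_num; linarith)
  have e2 : y ≤ 1 := sq_hi hy (by norm_num) (by rw [← ht]; norm_num; linarith)
  rw [ht]
  rcases le_total y (691/1000) with g0 | g0
  · nlinarith [hx80 H, mul_nonneg (sub_nonneg.2 e1) (sub_nonneg.2 g0)]
  ·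
    rcases le_total y (31/40) with g1 | g1
    · nlinarith [hx60 H, mul_nonneg (sub_nonneg.2 g0) (sub_nonneg.2 g1)]
    ·
      rcases le_total y (409/500) with g2 | g2
      · nlinarith [hx55 H, mul_nonneg (sub_nonneg.2 g1) (sub_nonneg.2 g2)]
      ·
        nlinarith [hx47 H, mul_nonneg (sub_nonneg.2 g2) (sub_nonneg.2 e2)]

lemma ln37 {t p : ℝ} (h : HT t p) (h1 : (9/400) ≤ t) (h2 : t ≤ (81/400)) : (79/5000) + (43/100) * t ≤ p := by
  obtain ⟨y, hy, ht, hp, H, _⟩ := h
  have e1 : (3/20) ≤ y := sq_lo hy (by norm_num) (by rw [← ht]; norm_num; linarith)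
  have e2 : y ≤ (9/20) := sq_hi hy (by norm_num) (by rw [← ht]; norm_num; linarith)
  rw [ht]
  rcases le_total y (44/125) with g0 | g0
  · nlinarith [hx148 H, mul_nonneg (sub_nonneg.2 e1) (sub_nonneg.2 g0)]
  ·
    nlinarith [hx100 H, mul_nonneg (sub_nonneg.2 g0) (sub_nonneg.2 e2)]

lemma ln38 {t p : ℝ} (h : HT t p) (h1 : (4/25) ≤ t) (h2 : t ≤ 1) : (281/10000) + (87/250) * t ≤ p := by
  obtain ⟨y, hy, ht, hp, H, _⟩ := h
  have e1 : (2/5) ≤ y := sq_lo hy (by norm_num) (by rw [← ht]; norm_num; linarith)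
  have e2 : y ≤ 1 := sq_hi hy (by norm_num) (by rw [← ht]; norm_num; linarith)
  rw [ht]
  rcases le_total y (61/100) with g0 | g0
  · nlinarith [hx92 H, mul_nonneg (sub_nonneg.2 e1) (sub_nonneg.2 g0)]
  ·
    rcases le_total y (701/1000) with g1 | g1
    · nlinarith [hx72 H, mul_nonneg (sub_nonneg.2 g0) (sub_nonneg.2 g1)]
    ·
      rcases le_total y (149/200) with g2 | g2
      · nlinarith [hx64 H, mul_nonneg (sub_nonneg.2 g1) (sub_nonneg.2 g2)]
      ·
        rcases le_total y (81/100) with g3 | g3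
        · nlinarith [hx59 H, mul_nonneg (sub_nonneg.2 g2) (sub_nonneg.2 g3)]
        ·
          nlinarith [hx46 H, mul_nonneg (sub_nonneg.2 g3) (sub_nonneg.2 e2)]

lemma ln39 {t p : ℝ} (h : HT t p) (h1 : (81/400) ≤ t) (h2 : t ≤ 1) : (223/10000) + (179/500) * t ≤ p := by
  obtain ⟨y, hy, ht, hp, H, _⟩ := h
  have e1 : (9/20) ≤ y := sq_lo hy (by norm_num) (by rw [← ht]; norm_num; linarith)
  have e2 : y ≤ 1 := sq_hi hy (by norm_num) (by rw [← ht]; norm_num; linarith)
  rw [ht]
  rcases le_total y (681/1000) with g0 | g0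
  · nlinarith [hx80 H, mul_nonneg (sub_nonneg.2 e1) (sub_nonneg.2 g0)]
  ·
    rcases le_total y (751/1000) with g1 | g1
    · nlinarith [hx64 H, mul_nonneg (sub_nonneg.2 g0) (sub_nonneg.2 g1)]
    ·
      rcases le_total y (199/250) with g2 | g2
      · nlinarith [hx58 H, mul_nonneg (sub_nonneg.2 g1) (sub_nonneg.2 g2)]
      ·
        rcases le_total y (191/200) with g3 | g3
        · nlinarith [hx51 H, mul_nonneg (sub_nonneg.2 g2) (sub_nonneg.2 g3)]
        ·
          nlinarith [hx12 H, mul_nonneg (sub_nonneg.2 g3) (sub_nonneg.2 e2)]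

lemma ln40 {t p : ℝ} (h : HT t p) (h1 : (81/400) ≤ t) (h2 : t ≤ (1/4)) : (333/10000) + (43/125) * t ≤ p := by
  obtain ⟨y, hy, ht, hp, H, _⟩ := h
  have e1 : (9/20) ≤ y := sq_lo hy (by norm_num) (by rw [← ht]; norm_num; linarith)
  have e2 : y ≤ (1/2) := sq_hi hy (by norm_num) (by rw [← ht]; norm_num; linarith)
  rw [ht]
  rcases le_total y (491/1000) with g0 | g0
  · nlinarith [hx100 H, mul_nonneg (sub_nonneg.2 e1) (sub_nonneg.2 g0)]
  ·
    nlinarith [hx92 H, mul_nonneg (sub_nonneg.2 g0) (sub_nonneg.2 e2)]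

lemma ln41 {t p : ℝ} (h : HT t p) (h1 : 0 ≤ t) (h2 : t ≤ (1/4)) : (-1/5000) + (239/500) * t ≤ p := by
  obtain ⟨y, hy, ht, hp, H, _⟩ := h
  have e1 : (0 : ℝ) ≤ y := hy
  have e2 : y ≤ (1/2) := sq_hi hy (by norm_num) (by rw [← ht]; norm_num; linarith)
  rw [ht]
  rcases le_total y (1/50) with g0 | g0
  · nlinarith [hp, mul_nonneg (sub_nonneg.2 e1) (sub_nonneg.2 g0)]
  ·
    rcases le_total y (97/250) with g1 | g1
    · nlinarith [hx164 H, mul_nonneg (sub_nonneg.2 g0) (sub_nonneg.2 g1)]
    ·
      nlinarith [hx92 H, mul_nonneg (sub_nonneg.2 g1) (sub_nonneg.2 e2)]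

lemma ln42 {t p : ℝ} (h : HT t p) (h1 : (81/400) ≤ t) (h2 : t ≤ 1) : (151/5000) + (43/125) * t ≤ p := by
  obtain ⟨y, hy, ht, hp, H, _⟩ := h
  have e1 : (9/20) ≤ y := sq_lo hy (by norm_num) (by rw [← ht]; norm_num; linarith)
  have e2 : y ≤ 1 := sq_hi hy (by norm_num) (by rw [← ht]; norm_num; linarith)
  rw [ht]
  rcases le_total y (31/50) with g0 | g0
  · nlinarith [hx88 H, mul_nonneg (sub_nonneg.2 e1) (sub_nonneg.2 g0)]
  ·
    rcases le_total y (349/500) with g1 | g1
    · nlinarith [hx72 H, mul_nonneg (sub_nonneg.2 g0) (sub_nonneg.2 g1)]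
    ·
      rcases le_total y (94/125) with g2 | g2
      · nlinarith [hx64 H, mul_nonneg (sub_nonneg.2 g1) (sub_nonneg.2 g2)]
      ·
        rcases le_total y (7/8) with g3 | g3
        · nlinarith [hx57 H, mul_nonneg (sub_nonneg.2 g2) (sub_nonneg.2 g3)]
        ·
          nlinarith [hx31 H, mul_nonneg (sub_nonneg.2 g3) (sub_nonneg.2 e2)]

lemma ln43 {t p : ℝ} (h : HT t p) (h1 : (81/400) ≤ t) (h2 : t ≤ 1) : (22/625) + (167/500) * t ≤ p := by
  obtain ⟨y, hy, ht, hp, H, _⟩ := h
  have e1 : (9/20) ≤ y := sq_lo hy (by norm_num) (by rw [← ht]; norm_num; linarith)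
  have e2 : y ≤ 1 := sq_hi hy (by norm_num) (by rw [← ht]; norm_num; linarith)
  rw [ht]
  rcases le_total y (109/200) with g0 | g0
  · nlinarith [hx96 H, mul_nonneg (sub_nonneg.2 e1) (sub_nonneg.2 g0)]
  ·
    rcases le_total y (77/125) with g1 | g1
    · nlinarith [hx84 H, mul_nonneg (sub_nonneg.2 g0) (sub_nonneg.2 g1)]
    ·
      rcases le_total y (83/125) with g2 | g2
      · nlinarith [hx76 H, mul_nonneg (sub_nonneg.2 g1) (sub_nonneg.2 g2)]
      ·
        rcases le_total y (173/250) with g3 | g3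
        · nlinarith [hx72 H, mul_nonneg (sub_nonneg.2 g2) (sub_nonneg.2 g3)]
        ·
          rcases le_total y (183/250) with g4 | g4
          · nlinarith [hx68 H, mul_nonneg (sub_nonneg.2 g3) (sub_nonneg.2 g4)]
          ·
            rcases le_total y (889/1000) with g5 | g5
            · nlinarith [hx59 H, mul_nonneg (sub_nonneg.2 g4) (sub_nonneg.2 g5)]
            ·
              nlinarith [hx26 H, mul_nonneg (sub_nonneg.2 g5) (sub_nonneg.2 e2)]

lemma lm4 {t p : ℝ} (h : HT t p) (h2 : t ≤ (1/4)) : (47/100) * t ≤ p := by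
  obtain ⟨y, hy, ht, hp, H, htiny⟩ := h
  have e1 : (0 : ℝ) ≤ y := hy
  have e2 : y ≤ (1/2) := sq_hi hy (by norm_num) (by rw [← ht]; norm_num; linarith)
  rw [ht]
  rcases le_total y (1/91) with g0 | g0
  · nlinarith [htiny g0, sq_nonneg y]
  ·
    rcases le_total y (183/500) with g1 | g1
    · nlinarith [hx180 H, mul_nonneg (sub_nonneg.2 g0) (sub_nonneg.2 g1)]
    ·
      nlinarith [hx84 H, mul_nonneg (sub_nonneg.2 g1) (sub_nonneg.2 e2)]

lemma ln44 {t p : ℝ} (h : HT t p) (h1 : (81/400) ≤ t) (h2 : t ≤ 1) : (9/1250) + (191/500) * t ≤ p := by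
  obtain ⟨y, hy, ht, hp, H, _⟩ := h
  have e1 : (9/20) ≤ y := sq_lo hy (by norm_num) (by rw [← ht]; norm_num; linarith)
  have e2 : y ≤ 1 := sq_hi hy (by norm_num) (by rw [← ht]; norm_num; linarith)
  rw [ht]
  rcases le_total y (37/50) with g0 | g0
  · nlinarith [hx72 H, mul_nonneg (sub_nonneg.2 e1) (sub_nonneg.2 g0)]
  ·
    rcases le_total y (407/500) with g1 | g1
    · nlinarith [hx54 H, mul_nonneg (sub_nonneg.2 g0) (sub_nonneg.2 g1)]
    ·
      rcases le_total y (223/250) with g2 | g2
      · nlinarith [hx49 H, mul_nonneg (sub_nonneg.2 g1) (sub_nonneg.2 g2)]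
      ·
        nlinarith [hx30 H, mul_nonneg (sub_nonneg.2 g2) (sub_nonneg.2 e2)]

lemma ln45 {t p : ℝ} (h : HT t p) (h1 : (1/100) ≤ t) (h2 : t ≤ (1/4)) : (113/10000) + (54/125) * t ≤ p := by
  obtain ⟨y, hy, ht, hp, H, _⟩ := h
  have e1 : (1/10) ≤ y := sq_lo hy (by norm_num) (by rw [← ht]; norm_num; linarith)
  have e2 : y ≤ (1/2) := sq_hi hy (by norm_num) (by rw [← ht]; norm_num; linarith)
  rw [ht]
  rcases le_total y (181/500) with g0 | g0
  · nlinarith [hx160 H, mul_nonneg (sub_nonneg.2 e1) (sub_nonneg.2 g0)]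
  ·
    nlinarith [hx92 H, mul_nonneg (sub_nonneg.2 g0) (sub_nonneg.2 e2)]

lemma ln46 {t p : ℝ} (h : HT t p) (h1 : (9/400) ≤ t) (h2 : t ≤ (1/4)) : (81/5000) + (103/250) * t ≤ p := by
  obtain ⟨y, hy, ht, hp, H, _⟩ := h
  have e1 : (3/20) ≤ y := sq_lo hy (by norm_num) (by rw [← ht]; norm_num; linarith)
  have e2 : y ≤ (1/2) := sq_hi hy (by norm_num) (by rw [← ht]; norm_num; linarith)
  rw [ht]
  rcases le_total y (187/500) with g0 | g0
  · nlinarith [hx148 H, mul_nonneg (sub_nonneg.2 e1) (sub_nonneg.2 g0)]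
  ·
    nlinarith [hx92 H, mul_nonneg (sub_nonneg.2 g0) (sub_nonneg.2 e2)]

lemma ln47 {t p : ℝ} (h : HT t p) (h1 : (1/4) ≤ t) (h2 : t ≤ (121/400)) : (179/5000) + (167/500) * t ≤ p := by
  obtain ⟨y, hy, ht, hp, H, _⟩ := h
  have e1 : (1/2) ≤ y := sq_lo hy (by norm_num) (by rw [← ht]; norm_num; linarith)
  have e2 : y ≤ (11/20) := sq_hi hy (by norm_num) (by rw [← ht]; norm_num; linarith)
  rw [ht]
  rcases le_total y (547/1000) with g0 | g0
  · nlinarith [hx92 H, mul_nonneg (sub_nonneg.2 e1) (sub_nonneg.2 g0)]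
  ·
    nlinarith [hx84 H, mul_nonneg (sub_nonneg.2 g0) (sub_nonneg.2 e2)]

lemma ln48 {t p : ℝ} (h : HT t p) (h1 : 0 ≤ t) (h2 : t ≤ (121/400)) : (-1/2000) + (227/500) * t ≤ p := by
  obtain ⟨y, hy, ht, hp, H, _⟩ := h
  have e1 : (0 : ℝ) ≤ y := hy
  have e2 : y ≤ (11/20) := sq_hi hy (by norm_num) (by rw [← ht]; norm_num; linarith)
  rw [ht]
  rcases le_total y (33/1000) with g0 | g0
  · nlinarith [hp, mul_nonneg (sub_nonneg.2 e1) (sub_nonneg.2 g0)]
  ·
    rcases le_total y (443/1000) with g1 | g1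
    · nlinarith [hx148 H, mul_nonneg (sub_nonneg.2 g0) (sub_nonneg.2 g1)]
    ·
      nlinarith [hx84 H, mul_nonneg (sub_nonneg.2 g1) (sub_nonneg.2 e2)]

lemma ln49 {t p : ℝ} (h : HT t p) (h1 : (1/4) ≤ t) (h2 : t ≤ 1) : (361/10000) + (83/250) * t ≤ p := by
  obtain ⟨y, hy, ht, hp, H, _⟩ := h
  have e1 : (1/2) ≤ y := sq_lo hy (by norm_num) (by rw [← ht]; norm_num; linarith)
  have e2 : y ≤ 1 := sq_hi hy (by norm_num) (by rw [← ht]; norm_num; linarith)
  rw [ht]
  rcases le_total y (561/1000) with g0 | g0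
  · nlinarith [hx92 H, mul_nonneg (sub_nonneg.2 e1) (sub_nonneg.2 g0)]
  ·
    rcases le_total y (153/250) with g1 | g1
    · nlinarith [hx84 H, mul_nonneg (sub_nonneg.2 g0) (sub_nonneg.2 g1)]
    ·
      rcases le_total y (663/1000) with g2 | g2
      · nlinarith [hx76 H, mul_nonneg (sub_nonneg.2 g1) (sub_nonneg.2 g2)]
      ·
        rcases le_total y (139/200) with g3 | g3
        · nlinarith [hx72 H, mul_nonneg (sub_nonneg.2 g2) (sub_nonneg.2 g3)]
        ·
          rcases le_total y (741/1000) with g4 | g4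
          · nlinarith [hx68 H, mul_nonneg (sub_nonneg.2 g3) (sub_nonneg.2 g4)]
          ·
            rcases le_total y (237/250) with g5 | g5
            · nlinarith [hx57 H, mul_nonneg (sub_nonneg.2 g4) (sub_nonneg.2 g5)]
            ·
              nlinarith [hx13 H, mul_nonneg (sub_nonneg.2 g5) (sub_nonneg.2 e2)]

lemma lm5 {t p : ℝ} (h : HT t p) (h2 : t ≤ (121/400)) : (9/20) * t ≤ p := by
  obtain ⟨y, hy, ht, hp, H, htiny⟩ := h
  have e1 : (0 : ℝ) ≤ y := hy
  have e2 : y ≤ (11/20) := sq_hi hy (by norm_num) (by rw [← ht]; norm_num; linarith)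
  rw [ht]
  rcases le_total y (1/91) with g0 | g0
  · nlinarith [htiny g0, sq_nonneg y]
  ·
    rcases le_total y (383/1000) with g1 | g1
    · nlinarith [hx180 H, mul_nonneg (sub_nonneg.2 g0) (sub_nonneg.2 g1)]
    ·
      nlinarith [hx84 H, mul_nonneg (sub_nonneg.2 g1) (sub_nonneg.2 e2)]

lemma ln50 {t p : ℝ} (h : HT t p) (h1 : 0 ≤ t) (h2 : t ≤ (9/25)) : (-1/2500) + (217/500) * t ≤ p := by
  obtain ⟨y, hy, ht, hp, H, _⟩ := h
  have e1 : (0 : ℝ) ≤ y := hy
  have e2 : y ≤ (3/5) := sq_hi hy (by norm_num) (by rw [← ht]; norm_num; linarith)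
  rw [ht]
  rcases le_total y (3/100) with g0 | g0
  · nlinarith [hp, mul_nonneg (sub_nonneg.2 e1) (sub_nonneg.2 g0)]
  ·
    rcases le_total y (57/125) with g1 | g1
    · nlinarith [hx152 H, mul_nonneg (sub_nonneg.2 g0) (sub_nonneg.2 g1)]
    ·
      nlinarith [hx80 H, mul_nonneg (sub_nonneg.2 g1) (sub_nonneg.2 e2)]

lemma ln51 {t p : ℝ} (h : HT t p) (h1 : (121/400) ≤ t) (h2 : t ≤ (9/25)) : (37/1000) + (33/100) * t ≤ p := by
  obtain ⟨y, hy, ht, hp, H, _⟩ := h
  have e1 : (11/20) ≤ y := sq_lo hy (by norm_num) (by rw [← ht]; norm_num; linarith)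
  have e2 : y ≤ (3/5) := sq_hi hy (by norm_num) (by rw [← ht]; norm_num; linarith)
  rw [ht]
  nlinarith [hx84 H, mul_nonneg (sub_nonneg.2 e1) (sub_nonneg.2 e2)]

lemma ln52 {t p : ℝ} (h : HT t p) (h1 : (121/400) ≤ t) (h2 : t ≤ 1) : (37/1000) + (33/100) * t ≤ p := by
  obtain ⟨y, hy, ht, hp, H, _⟩ := h
  have e1 : (11/20) ≤ y := sq_lo hy (by norm_num) (by rw [← ht]; norm_num; linarith)
  have e2 : y ≤ 1 := sq_hi hy (by norm_num) (by rw [← ht]; norm_num; linarith)
  rw [ht]
  rcases le_total y (121/200) with g0 | g0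
  · nlinarith [hx84 H, mul_nonneg (sub_nonneg.2 e1) (sub_nonneg.2 g0)]
  ·
    rcases le_total y (79/125) with g1 | g1
    · nlinarith [hx80 H, mul_nonneg (sub_nonneg.2 g0) (sub_nonneg.2 g1)]
    ·
      rcases le_total y (331/500) with g2 | g2
      · nlinarith [hx76 H, mul_nonneg (sub_nonneg.2 g1) (sub_nonneg.2 g2)]
      ·
        rcases le_total y (699/1000) with g3 | g3
        · nlinarith [hx72 H, mul_nonneg (sub_nonneg.2 g2) (sub_nonneg.2 g3)]
        ·
          rcases le_total y (407/500) with g4 | g4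
          · nlinarith [hx64 H, mul_nonneg (sub_nonneg.2 g3) (sub_nonneg.2 g4)]
          ·
            nlinarith [hx42 H, mul_nonneg (sub_nonneg.2 g4) (sub_nonneg.2 e2)]

lemma lm6 {t p : ℝ} (h : HT t p) (h2 : t ≤ (9/25)) : (43/100) * t ≤ p := by
  obtain ⟨y, hy, ht, hp, H, htiny⟩ := h
  have e1 : (0 : ℝ) ≤ y := hy
  have e2 : y ≤ (3/5) := sq_hi hy (by norm_num) (by rw [← ht]; norm_num; linarith)
  rw [ht]
  rcases le_total y (1/91) with g0 | g0
  · nlinarith [htiny g0, sq_nonneg y]
  ·
    rcases le_total y (401/1000) with g1 | g1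
    · nlinarith [hx180 H, mul_nonneg (sub_nonneg.2 g0) (sub_nonneg.2 g1)]
    ·
      nlinarith [hx76 H, mul_nonneg (sub_nonneg.2 g1) (sub_nonneg.2 e2)]

lemma ln53 {t p : ℝ} (h : HT t p) (h1 : (1/4) ≤ t) (h2 : t ≤ 1) : (247/10000) + (177/500) * t ≤ p := by
  obtain ⟨y, hy, ht, hp, H, _⟩ := h
  have e1 : (1/2) ≤ y := sq_lo hy (by norm_num) (by rw [← ht]; norm_num; linarith)
  have e2 : y ≤ 1 := sq_hi hy (by norm_num) (by rw [← ht]; norm_num; linarith)
  rw [ht]
  rcases le_total y (173/250) with g0 | g0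
  · nlinarith [hx76 H, mul_nonneg (sub_nonneg.2 e1) (sub_nonneg.2 g0)]
  ·
    rcases le_total y (747/1000) with g1 | g1
    · nlinarith [hx64 H, mul_nonneg (sub_nonneg.2 g0) (sub_nonneg.2 g1)]
    ·
      rcases le_total y (789/1000) with g2 | g2
      · nlinarith [hx59 H, mul_nonneg (sub_nonneg.2 g1) (sub_nonneg.2 g2)]
      ·
        rcases le_total y (947/1000) with g3 | g3
        · nlinarith [hx52 H, mul_nonneg (sub_nonneg.2 g2) (sub_nonneg.2 g3)]
        ·
          nlinarith [hx14 H, mul_nonneg (sub_nonneg.2 g3) (sub_nonneg.2 e2)]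

lemma ln54 {t p : ℝ} (h : HT t p) (h1 : (1/4) ≤ t) (h2 : t ≤ (9/25)) : (363/10000) + (83/250) * t ≤ p := by
  obtain ⟨y, hy, ht, hp, H, _⟩ := h
  have e1 : (1/2) ≤ y := sq_lo hy (by norm_num) (by rw [← ht]; norm_num; linarith)
  have e2 : y ≤ (3/5) := sq_hi hy (by norm_num) (by rw [← ht]; norm_num; linarith)
  rw [ht]
  rcases le_total y (553/1000) with g0 | g0
  · nlinarith [hx92 H, mul_nonneg (sub_nonneg.2 e1) (sub_nonneg.2 g0)]
  ·
    nlinarith [hx84 H, mul_nonneg (sub_nonneg.2 g0) (sub_nonneg.2 e2)]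

lemma ln55 {t p : ℝ} (h : HT t p) (h1 : (1/100) ≤ t) (h2 : t ≤ (9/25)) : (117/10000) + (2/5) * t ≤ p := by
  obtain ⟨y, hy, ht, hp, H, _⟩ := h
  have e1 : (1/10) ≤ y := sq_lo hy (by norm_num) (by rw [← ht]; norm_num; linarith)
  have e2 : y ≤ (3/5) := sq_hi hy (by norm_num) (by rw [← ht]; norm_num; linarith)
  rw [ht]
  rcases le_total y (199/500) with g0 | g0
  · nlinarith [hx160 H, mul_nonneg (sub_nonneg.2 e1) (sub_nonneg.2 g0)]
  ·
    nlinarith [hx80 H, mul_nonneg (sub_nonneg.2 g0) (sub_nonneg.2 e2)]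

lemma ln56 {t p : ℝ} (h : HT t p) (h1 : (1/4) ≤ t) (h2 : t ≤ 1) : (323/10000) + (17/50) * t ≤ p := by
  obtain ⟨y, hy, ht, hp, H, _⟩ := h
  have e1 : (1/2) ≤ y := sq_lo hy (by norm_num) (by rw [← ht]; norm_num; linarith)
  have e2 : y ≤ 1 := sq_hi hy (by norm_num) (by rw [← ht]; norm_num; linarith)
  rw [ht]
  rcases le_total y (63/100) with g0 | g0
  · nlinarith [hx84 H, mul_nonneg (sub_nonneg.2 e1) (sub_nonneg.2 g0)]
  ·
    rcases le_total y (693/1000) with g1 | g1
    · nlinarith [hx72 H, mul_nonneg (sub_nonneg.2 g0) (sub_nonneg.2 g1)]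
    ·
      rcases le_total y (719/1000) with g2 | g2
      · nlinarith [hx68 H, mul_nonneg (sub_nonneg.2 g1) (sub_nonneg.2 g2)]
      ·
        rcases le_total y (381/500) with g3 | g3
        · nlinarith [hx64 H, mul_nonneg (sub_nonneg.2 g2) (sub_nonneg.2 g3)]
        ·
          rcases le_total y (947/1000) with g4 | g4
          · nlinarith [hx55 H, mul_nonneg (sub_nonneg.2 g3) (sub_nonneg.2 g4)]
          ·
            nlinarith [hx13 H, mul_nonneg (sub_nonneg.2 g4) (sub_nonneg.2 e2)]

lemma ln57 {t p : ℝ} (h : HT t p) (h1 : (9/400) ≤ t) (h2 : t ≤ (9/25)) : (21/1250) + (193/500) * t ≤ p := by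
  obtain ⟨y, hy, ht, hp, H, _⟩ := h
  have e1 : (3/20) ≤ y := sq_lo hy (by norm_num) (by rw [← ht]; norm_num; linarith)
  have e2 : y ≤ (3/5) := sq_hi hy (by norm_num) (by rw [← ht]; norm_num; linarith)
  rw [ht]
  rcases le_total y (409/1000) with g0 | g0
  · nlinarith [hx148 H, mul_nonneg (sub_nonneg.2 e1) (sub_nonneg.2 g0)]
  ·
    nlinarith [hx84 H, mul_nonneg (sub_nonneg.2 g0) (sub_nonneg.2 e2)]

lemma ln58 {t p : ℝ} (h : HT t p) (h1 : (9/25) ≤ t) (h2 : t ≤ 1) : (377/10000) + (41/125) * t ≤ p := by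
  obtain ⟨y, hy, ht, hp, H, _⟩ := h
  have e1 : (3/5) ≤ y := sq_lo hy (by norm_num) (by rw [← ht]; norm_num; linarith)
  have e2 : y ≤ 1 := sq_hi hy (by norm_num) (by rw [← ht]; norm_num; linarith)
  rw [ht]
  rcases le_total y (637/1000) with g0 | g0
  · nlinarith [hx80 H, mul_nonneg (sub_nonneg.2 e1) (sub_nonneg.2 g0)]
  ·
    rcases le_total y (84/125) with g1 | g1
    · nlinarith [hx76 H, mul_nonneg (sub_nonneg.2 g0) (sub_nonneg.2 g1)]
    ·
      rcases le_total y (153/200) with g2 | g2
      · nlinarith [hx68 H, mul_nonneg (sub_nonneg.2 g1) (sub_nonneg.2 g2)]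
      ·
        nlinarith [hx51 H, mul_nonneg (sub_nonneg.2 g2) (sub_nonneg.2 e2)]

lemma lm7 {t p : ℝ} (h : HT t p) (h2 : t ≤ 1) : (39/100) * t ≤ p := by
  obtain ⟨y, hy, ht, hp, H, htiny⟩ := h
  have e1 : (0 : ℝ) ≤ y := hy
  have e2 : y ≤ 1 := sq_hi hy (by norm_num) (by rw [← ht]; norm_num; linarith)
  rw [ht]
  rcases le_total y (1/91) with g0 | g0
  · nlinarith [htiny g0, sq_nonneg y]
  ·
    rcases le_total y (443/1000) with g1 | g1
    · nlinarith [hx180 H, mul_nonneg (sub_nonneg.2 g0) (sub_nonneg.2 g1)]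
    ·
      rcases le_total y (31/40) with g2 | g2
      · nlinarith [hx68 H, mul_nonneg (sub_nonneg.2 g1) (sub_nonneg.2 g2)]
      ·
        rcases le_total y (227/250) with g3 | g3
        · nlinarith [hx49 H, mul_nonneg (sub_nonneg.2 g2) (sub_nonneg.2 g3)]
        ·
          nlinarith [hx26 H, mul_nonneg (sub_nonneg.2 g3) (sub_nonneg.2 e2)]

lemma ln59 {t p : ℝ} (h : HT t p) (h1 : (1/100) ≤ t) (h2 : t ≤ (1/16)) : (6/625) + (61/100) * t ≤ p := by
  obtain ⟨y, hy, ht, hp, H, _⟩ := h
  have e1 : (1/10) ≤ y := sq_lo hy (by norm_num) (by rw [← ht]; norm_num; linarith)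
  have e2 : y ≤ (1/4) := sq_hi hy (by norm_num) (by rw [← ht]; norm_num; linarith)
  rw [ht]
  rcases le_total y (227/1000) with g0 | g0
  · nlinarith [hx160 H, mul_nonneg (sub_nonneg.2 e1) (sub_nonneg.2 g0)]
  ·
    nlinarith [hx128 H, mul_nonneg (sub_nonneg.2 g0) (sub_nonneg.2 e2)]

lemma ln60 {t p : ℝ} (h : HT t p) (h1 : (9/25) ≤ t) (h2 : t ≤ 1) : (151/5000) + (43/125) * t ≤ p := by
  obtain ⟨y, hy, ht, hp, H, _⟩ := h
  have e1 : (3/5) ≤ y := sq_lo hy (by norm_num) (by rw [← ht]; norm_num; linarith)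
  have e2 : y ≤ 1 := sq_hi hy (by norm_num) (by rw [← ht]; norm_num; linarith)
  rw [ht]
  rcases le_total y (349/500) with g0 | g0
  · nlinarith [hx72 H, mul_nonneg (sub_nonneg.2 e1) (sub_nonneg.2 g0)]
  ·
    rcases le_total y (94/125) with g1 | g1
    · nlinarith [hx64 H, mul_nonneg (sub_nonneg.2 g0) (sub_nonneg.2 g1)]
    ·
      rcases le_total y (7/8) with g2 | g2
      · nlinarith [hx57 H, mul_nonneg (sub_nonneg.2 g1) (sub_nonneg.2 g2)]
      ·
        nlinarith [hx31 H, mul_nonneg (sub_nonneg.2 g2) (sub_nonneg.2 e2)]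

lemma ln61 {t p : ℝ} (h : HT t p) (h1 : (9/25) ≤ t) (h2 : t ≤ 1) : (361/10000) + (83/250) * t ≤ p := by
  obtain ⟨y, hy, ht, hp, H, _⟩ := h
  have e1 : (3/5) ≤ y := sq_lo hy (by norm_num) (by rw [← ht]; norm_num; linarith)
  have e2 : y ≤ 1 := sq_hi hy (by norm_num) (by rw [← ht]; norm_num; linarith)
  rw [ht]
  rcases le_total y (159/250) with g0 | g0
  · nlinarith [hx80 H, mul_nonneg (sub_nonneg.2 e1) (sub_nonneg.2 g0)]
  ·
    rcases le_total y (663/1000) with g1 | g1
    · nlinarith [hx76 H, mul_nonneg (sub_nonneg.2 g0) (sub_nonneg.2 g1)]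
    ·
      rcases le_total y (139/200) with g2 | g2
      · nlinarith [hx72 H, mul_nonneg (sub_nonneg.2 g1) (sub_nonneg.2 g2)]
      ·
        rcases le_total y (741/1000) with g3 | g3
        · nlinarith [hx68 H, mul_nonneg (sub_nonneg.2 g2) (sub_nonneg.2 g3)]
        ·
          rcases le_total y (237/250) with g4 | g4
          · nlinarith [hx57 H, mul_nonneg (sub_nonneg.2 g3) (sub_nonneg.2 g4)]
          ·
            nlinarith [hx13 H, mul_nonneg (sub_nonneg.2 g4) (sub_nonneg.2 e2)]

lemma ln62 {t p : ℝ} (h : HT t p) (h1 : (1/16) ≤ t) (h2 : t ≤ 1) : (257/10000) + (44/125) * t ≤ p := by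
  obtain ⟨y, hy, ht, hp, H, _⟩ := h
  have e1 : (1/4) ≤ y := sq_lo hy (by norm_num) (by rw [← ht]; norm_num; linarith)
  have e2 : y ≤ 1 := sq_hi hy (by norm_num) (by rw [← ht]; norm_num; linarith)
  rw [ht]
  rcases le_total y (459/1000) with g0 | g0
  · nlinarith [hx128 H, mul_nonneg (sub_nonneg.2 e1) (sub_nonneg.2 g0)]
  ·
    rcases le_total y (131/200) with g1 | g1
    · nlinarith [hx84 H, mul_nonneg (sub_nonneg.2 g0) (sub_nonneg.2 g1)]
    ·
      rcases le_total y (729/1000) with g2 | g2
      · nlinarith [hx68 H, mul_nonneg (sub_nonneg.2 g1) (sub_nonneg.2 g2)]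
      ·
        rcases le_total y (787/1000) with g3 | g3
        · nlinarith [hx60 H, mul_nonneg (sub_nonneg.2 g2) (sub_nonneg.2 g3)]
        ·
          rcases le_total y (961/1000) with g4 | g4
          · nlinarith [hx52 H, mul_nonneg (sub_nonneg.2 g3) (sub_nonneg.2 g4)]
          ·
            nlinarith [hx11 H, mul_nonneg (sub_nonneg.2 g4) (sub_nonneg.2 e2)]

/-- the branch and bound tree -/
theorem core (t0 t1 t2 t3 t4 t5 t6 t7 t8 t9 R p0 p1 p2 p3 p4 p5 p6 p7 p8 p9 PR : ℝ)
    (h0 : HT t0 p0)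
    (h1 : HT t1 p1)
    (h2 : HT t2 p2)
    (h3 : HT t3 p3)
    (h4 : HT t4 p4)
    (h5 : HT t5 p5)
    (h6 : HT t6 p6)
    (h7 : HT t7 p7)
    (h8 : HT t8 p8)
    (h9 : HT t9 p9)
    (o0 : t1 ≤ t0)
    (o1 : t2 ≤ t1)
    (o2 : t3 ≤ t2)
    (o3 : t4 ≤ t3)
    (o4 : t5 ≤ t4)
    (o5 : t6 ≤ t5)
    (o6 : t7 ≤ t6)
    (o7 : t8 ≤ t7)
    (o8 : t9 ≤ t8)
    (hR : 0 ≤ R)
    (hRl : ∀ lam T : ℝ, (∀ t p, HT t p → t ≤ T → lam * t ≤ p) → t4 ≤ T → lam * R ≤ PR)
    (sp : p0 + p1 + p2 + p3 + p4 + PR + p5 + p6 + p7 + p8 + p9 ≤ 1)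
    (st : 9 / 4 < t0 + t1 + t2 + t3 + t4 + R + t5 + t6 + t7 + t8 + t9)
    (c3 : t2 ≤ 11 * t9 + (t3 + t4 + R + t5 + t6 + t7 + t8))
    (c4 : t2 + t3 ≤ 19 * t9 + (t4 + R + t5 + t6 + t7 + t8))
    (c5 : t2 + t3 + t4 ≤ 29 * t9 + (R + t5 + t6 + t7 + t8))
    (dd : 3 / 2 * (t1 + t2 - t0) ≤ 23 / 2 * t9 + 3 / 2 * (t3 + t4 + R + t5 + t6 + t7 + t8)) :
    False := by
  have z0 := ht_nonneg h0
  have w0 := ht_le_one h0
  have q0 := ht_pnonneg h0
  have z1 := ht_nonneg h1
  have w1 := ht_le_one h1
  have q1 := ht_pnonneg h1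
  have z2 := ht_nonneg h2
  have w2 := ht_le_one h2
  have q2 := ht_pnonneg h2
  have z3 := ht_nonneg h3
  have w3 := ht_le_one h3
  have q3 := ht_pnonneg h3
  have z4 := ht_nonneg h4
  have w4 := ht_le_one h4
  have q4 := ht_pnonneg h4
  have z5 := ht_nonneg h5
  have w5 := ht_le_one h5
  have q5 := ht_pnonneg h5
  have z6 := ht_nonneg h6
  have w6 := ht_le_one h6
  have q6 := ht_pnonneg h6
  have z7 := ht_nonneg h7
  have w7 := ht_le_one h7
  have q7 := ht_pnonneg h7
  have z8 := ht_nonneg h8
  have w8 := ht_le_one h8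
  have q8 := ht_pnonneg h8
  have z9 := ht_nonneg h9
  have w9 := ht_le_one h9
  have q9 := ht_pnonneg h9
  have O1_0 : t1 ≤ t0 := o0
  have O2_1 : t2 ≤ t1 := o1
  have O3_2 : t3 ≤ t2 := o2
  have O4_3 : t4 ≤ t3 := o3
  have O5_4 : t5 ≤ t4 := o4
  have O6_5 : t6 ≤ t5 := o5
  have O7_6 : t7 ≤ t6 := o6
  have O8_7 : t8 ≤ t7 := o7
  have O9_8 : t9 ≤ t8 := o8
  have O2_0 : t2 ≤ t0 := le_trans O2_1 O1_0
  have O3_1 : t3 ≤ t1 := le_trans O3_2 O2_1
  have O4_2 : t4 ≤ t2 := le_trans O4_3 O3_2
  have O5_3 : t5 ≤ t3 := le_trans O5_4 O4_3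
  have O6_4 : t6 ≤ t4 := le_trans O6_5 O5_4
  have O7_5 : t7 ≤ t5 := le_trans O7_6 O6_5
  have O8_6 : t8 ≤ t6 := le_trans O8_7 O7_6
  have O9_7 : t9 ≤ t7 := le_trans O9_8 O8_7
  have O3_0 : t3 ≤ t0 := le_trans O3_1 O1_0
  have O4_1 : t4 ≤ t1 := le_trans O4_2 O2_1
  have O5_2 : t5 ≤ t2 := le_trans O5_3 O3_2
  have O6_3 : t6 ≤ t3 := le_trans O6_4 O4_3
  have O7_4 : t7 ≤ t4 := le_trans O7_5 O5_4
  have O8_5 : t8 ≤ t5 := le_trans O8_6 O6_5
  have O9_6 : t9 ≤ t6 := le_trans O9_7 O7_6
  have O4_0 : t4 ≤ t0 := le_trans O4_1 O1_0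
  have O5_1 : t5 ≤ t1 := le_trans O5_2 O2_1
  have O6_2 : t6 ≤ t2 := le_trans O6_3 O3_2
  have O7_3 : t7 ≤ t3 := le_trans O7_4 O4_3
  have O8_4 : t8 ≤ t4 := le_trans O8_5 O5_4
  have O9_5 : t9 ≤ t5 := le_trans O9_6 O6_5
  have O5_0 : t5 ≤ t0 := le_trans O5_1 O1_0
  have O6_1 : t6 ≤ t1 := le_trans O6_2 O2_1
  have O7_2 : t7 ≤ t2 := le_trans O7_3 O3_2
  have O8_3 : t8 ≤ t3 := le_trans O8_4 O4_3
  have O9_4 : t9 ≤ t4 := le_trans O9_5 O5_4
  have O6_0 : t6 ≤ t0 := le_trans O6_1 O1_0
  have O7_1 : t7 ≤ t1 := le_trans O7_2 O2_1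
  have O8_2 : t8 ≤ t2 := le_trans O8_3 O3_2
  have O9_3 : t9 ≤ t3 := le_trans O9_4 O4_3
  have O7_0 : t7 ≤ t0 := le_trans O7_1 O1_0
  have O8_1 : t8 ≤ t1 := le_trans O8_2 O2_1
  have O9_2 : t9 ≤ t2 := le_trans O9_3 O3_2
  have O8_0 : t8 ≤ t0 := le_trans O8_1 O1_0
  have O9_1 : t9 ≤ t1 := le_trans O9_2 O2_1
  have O9_0 : t9 ≤ t0 := le_trans O9_1 O1_0
  rcases le_total t4 (1/25) with s0 | s0
  · rcases le_total t7 (1/100) with s1 | s1
    · linarith only [ln0 h0 z0 w0,
          ln1 h1 z1 w1,
          (le_trans O9_7 s1),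
          ln2 h4 z4 s0,
          ln2 h5 z5 (le_trans O5_4 s0),
          ln2 h6 z6 (le_trans O6_4 s0),
          ln3 h7 z7 s1,
          ln3 h8 z8 (le_trans O8_7 s1),
          ln3 h9 z9 (le_trans O9_7 s1),
          sp,
          st,
          ln0 h1 z1 w1,
          ln4 h2 z2 w2,
          ln4 h3 z3 w3,
          o4,
          o5,
          o6,
          o7,
          o8,
          hRl (9/10) (1/25) (fun _ _ h h2 => lm0 h h2) s0,
          c4,
          ln1 h0 z0 w0]
    · rcases le_total t3 (9/100) with s2 | s2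
      · linarith only [ln5 h0 (le_trans s1 O7_0) w0,
            dd,
            c3,
            c4,
            ln6 h4 (le_trans s1 O7_4) s0,
            ln6 h5 (le_trans s1 O7_5) (le_trans O5_4 s0),
            ln6 h6 (le_trans s1 O7_6) (le_trans O6_4 s0),
            ln6 h7 s1 (le_trans O7_4 s0),
            ln2 h8 z8 (le_trans O8_4 s0),
            ln2 h9 z9 (le_trans O9_4 s0),
            sp,
            st,
            ln7 h0 (le_trans s1 O7_0) w0,
            ln8 h2 (le_trans s1 O7_2) w2,
            ln9 h3 (le_trans s1 O7_3) s2,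
            o4,
            o5,
            o6,
            o7,
            o8,
            hRl (9/10) (1/25) (fun _ _ h h2 => lm0 h h2) s0,
            ln10 h1 (le_trans s1 O7_1) w1,
            hR]
      · linarith only [ln11 h1 (le_trans s2 O3_1) w1,
            ln11 h0 (le_trans s2 O3_0) w0,
            c4,
            ln6 h4 (le_trans s1 O7_4) s0,
            ln6 h5 (le_trans s1 O7_5) (le_trans O5_4 s0),
            o5,
            ln6 h7 s1 (le_trans O7_4 s0),
            o6,
            ln6 h6 (le_trans s1 O7_6) (le_trans O6_4 s0),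
            sp,
            st,
            ln12 h1 (le_trans s2 O3_1) w1,
            ln13 h2 (le_trans s2 O3_2) w2,
            ln13 h3 s2 w3,
            o4,
            o8,
            ln12 h0 (le_trans s2 O3_0) w0,
            o7,
            ln2 h8 z8 (le_trans O8_4 s0),
            hRl (9/10) (1/25) (fun _ _ h h2 => lm0 h h2) s0,
            ln2 h9 z9 (le_trans O9_4 s0),
            hR]
  · rcases le_total t4 (9/100) with s3 | s3
    · rcases le_total t8 (1/100) with s4 | s4
      · linarith only [ln14 h0 (le_trans s0 O4_0) w0,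
            ln15 h0 (le_trans s0 O4_0) w0,
            (le_trans O9_8 s4),
            c5,
            ln16 h5 z5 (le_trans O5_4 s3),
            ln16 h6 z6 (le_trans O6_4 s3),
            ln16 h7 z7 (le_trans O7_4 s3),
            ln3 h8 z8 s4,
            ln3 h9 z9 (le_trans O9_8 s4),
            sp,
            st,
            ln15 h1 (le_trans s0 O4_1) w1,
            ln17 h2 (le_trans s0 O4_2) w2,
            ln17 h3 (le_trans s0 O4_3) w3,
            ln18 h4 s0 s3,
            o5,
            o6,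
            o7,
            o8,
            hRl (33/50) (9/100) (fun _ _ h h2 => lm1 h h2) s3,
            c4,
            ln14 h1 (le_trans s0 O4_1) w1]
      · rcases le_total t9 (9/400) with s5 | s5
        · linarith only [ln19 h1 (le_trans s0 O4_1) w1,
              ln20 h0 (le_trans s0 O4_0) w0,
              ln19 h0 (le_trans s0 O4_0) w0,
              ln18 h4 s0 s3,
              ln9 h5 (le_trans s4 O8_5) (le_trans O5_4 s3),
              ln9 h6 (le_trans s4 O8_6) (le_trans O6_4 s3),
              ln9 h7 (le_trans s4 O8_7) (le_trans O7_4 s3),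
              o6,
              s5,
              sp,
              st,
              ln20 h1 (le_trans s0 O4_1) w1,
              ln17 h2 (le_trans s0 O4_2) w2,
              ln17 h3 (le_trans s0 O4_3) w3,
              ln9 h8 s4 (le_trans O8_4 s3),
              o5,
              c4,
              o7,
              o8,
              hRl (33/50) (9/100) (fun _ _ h h2 => lm1 h h2) s3,
              ln21 h9 z9 s5,
              hR]
        · linarith only [ln20 h0 (le_trans s0 O4_0) w0,
              ln20 h1 (le_trans s0 O4_1) w1,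
              ln22 h0 (le_trans s0 O4_0) w0,
              ln18 h4 s0 s3,
              ln23 h5 (le_trans s5 O9_5) (le_trans O5_4 s3),
              ln23 h6 (le_trans s5 O9_6) (le_trans O6_4 s3),
              ln23 h7 (le_trans s5 O9_7) (le_trans O7_4 s3),
              o6,
              ln23 h8 (le_trans s5 O9_8) (le_trans O8_4 s3),
              sp,
              st,
              ln22 h1 (le_trans s0 O4_1) w1,
              ln17 h2 (le_trans s0 O4_2) w2,
              ln17 h3 (le_trans s0 O4_3) w3,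
              s0,
              o5,
              o8,
              o7,
              c4,
              hRl (33/50) (9/100) (fun _ _ h h2 => lm1 h h2) s3,
              ln23 h9 s5 (le_trans O9_4 s3),
              hR]
    · rcases le_total t4 (4/25) with s6 | s6
      · rcases le_total t8 (1/100) with s7 | s7
        · linarith only [o8,
              ln12 h0 (le_trans s3 O4_0) w0,
              s3,
              ln24 h4 s3 s6,
              ln25 h5 z5 (le_trans O5_4 s6),
              ln25 h6 z6 (le_trans O6_4 s6),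
              o6,
              ln3 h8 z8 s7,
              ln3 h9 z9 (le_trans O9_8 s7),
              sp,
              st,
              ln11 h0 (le_trans s3 O4_0) w0,
              ln13 h2 (le_trans s3 O4_2) w2,
              ln13 h3 (le_trans s3 O4_3) w3,
              ln25 h7 z7 (le_trans O7_4 s6),
              o5,
              ln11 h1 (le_trans s3 O4_1) w1,
              o7,
              c5,
              hRl (27/50) (4/25) (fun _ _ h h2 => lm2 h h2) s6,
              (le_trans O9_8 s7),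
              ln12 h1 (le_trans s3 O4_1) w1]
        · rcases le_total t9 (9/400) with s8 | s8
          · linarith only [ln12 h0 (le_trans s3 O4_0) w0,
                c4,
                ln24 h4 s3 s6,
                ln26 h5 (le_trans s7 O8_5) (le_trans O5_4 s6),
                ln26 h6 (le_trans s7 O8_6) (le_trans O6_4 s6),
                ln26 h7 (le_trans s7 O8_7) (le_trans O7_4 s6),
                ln26 h8 s7 (le_trans O8_4 s6),
                o7,
                sp,
                st,
                s8,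
                ln13 h2 (le_trans s3 O4_2) w2,
                ln13 h3 (le_trans s3 O4_3) w3,
                ln21 h9 z9 s8,
                o5,
                o6,
                ln12 h1 (le_trans s3 O4_1) w1,
                o8,
                hRl (27/50) (4/25) (fun _ _ h h2 => lm2 h h2) s6,
                c5,
                hR]
          · linarith only [ln27 h0 (le_trans s3 O4_0) w0,
                ln28 h1 (le_trans s3 O4_1) w1,
                c4,
                ln24 h4 s3 s6,
                ln29 h5 (le_trans s8 O9_5) (le_trans O5_4 s6),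
                ln29 h6 (le_trans s8 O9_6) (le_trans O6_4 s6),
                ln29 h7 (le_trans s8 O9_7) (le_trans O7_4 s6),
                ln29 h8 (le_trans s8 O9_8) (le_trans O8_4 s6),
                ln29 h9 s8 (le_trans O9_4 s6),
                sp,
                st,
                ln27 h1 (le_trans s3 O4_1) w1,
                ln13 h2 (le_trans s3 O4_2) w2,
                ln13 h3 (le_trans s3 O4_3) w3,
                s3,
                o5,
                o6,
                o7,
                o8,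
                hRl (27/50) (4/25) (fun _ _ h h2 => lm2 h h2) s6,
                ln28 h0 (le_trans s3 O4_0) w0,
                hR]
      · rcases le_total t4 (81/400) with s9 | s9
        · rcases le_total t8 (1/100) with s10 | s10
          · linarith only [o8,
                ln30 h0 (le_trans s6 O4_0) w0,
                (le_trans O9_8 s10),
                ln31 h4 s6 s9,
                ln32 h5 z5 (le_trans O5_4 s9),
                ln32 h6 z6 (le_trans O6_4 s9),
                o6,
                ln3 h8 z8 s10,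
                ln3 h9 z9 (le_trans O9_8 s10),
                sp,
                ln33 h0 (le_trans s6 O4_0) w0,
                ln30 h1 (le_trans s6 O4_1) w1,
                ln34 h2 (le_trans s6 O4_2) w2,
                ln34 h3 (le_trans s6 O4_3) w3,
                ln32 h7 z7 (le_trans O7_4 s9),
                o5,
                ln33 h1 (le_trans s6 O4_1) w1,
                o7,
                s6,
                hRl (1/2) (81/400) (fun _ _ h h2 => lm3 h h2) s9,
                c5,
                st]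
          · rcases le_total t9 (9/400) with s11 | s11
            · linarith only [hR,
                  s6,
                  ln31 h4 s6 s9,
                  ln35 h5 (le_trans s10 O8_5) (le_trans O5_4 s9),
                  ln35 h6 (le_trans s10 O8_6) (le_trans O6_4 s9),
                  ln35 h7 (le_trans s10 O8_7) (le_trans O7_4 s9),
                  o7,
                  ln21 h9 z9 s11,
                  sp,
                  s11,
                  ln30 h0 (le_trans s6 O4_0) w0,
                  ln34 h2 (le_trans s6 O4_2) w2,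
                  ln34 h3 (le_trans s6 O4_3) w3,
                  ln35 h8 s10 (le_trans O8_4 s9),
                  o5,
                  o6,
                  o8,
                  ln30 h1 (le_trans s6 O4_1) w1,
                  hRl (1/2) (81/400) (fun _ _ h h2 => lm3 h h2) s9,
                  c5,
                  st]
            · linarith only [hR,
                  ln36 h1 (le_trans s6 O4_1) w1,
                  s6,
                  ln31 h4 s6 s9,
                  ln37 h5 (le_trans s11 O9_5) (le_trans O5_4 s9),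
                  ln37 h6 (le_trans s11 O9_6) (le_trans O6_4 s9),
                  ln37 h7 (le_trans s11 O9_7) (le_trans O7_4 s9),
                  ln37 h8 (le_trans s11 O9_8) (le_trans O8_4 s9),
                  o7,
                  sp,
                  ln38 h0 (le_trans s6 O4_0) w0,
                  ln38 h1 (le_trans s6 O4_1) w1,
                  ln34 h2 (le_trans s6 O4_2) w2,
                  ln34 h3 (le_trans s6 O4_3) w3,
                  ln37 h9 s11 (le_trans O9_4 s9),
                  o5,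
                  o6,
                  ln36 h0 (le_trans s6 O4_0) w0,
                  o8,
                  hRl (1/2) (81/400) (fun _ _ h h2 => lm3 h h2) s9,
                  c5,
                  st]
        · rcases le_total t4 (1/4) with s12 | s12
          · rcases le_total t8 (9/400) with s13 | s13
            · rcases le_total t7 (1/100) with s14 | s14
              · linarith only [ln39 h0 (le_trans s9 O4_0) w0,
                    ln39 h1 (le_trans s9 O4_1) w1,
                    c5,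
                    (le_trans s9 O4_2),
                    ln40 h4 s9 s12,
                    ln41 h5 z5 (le_trans O5_4 s12),
                    ln41 h6 z6 (le_trans O6_4 s12),
                    ln3 h7 z7 s14,
                    ln3 h8 z8 (le_trans O8_7 s14),
                    ln3 h9 z9 (le_trans O9_7 s14),
                    sp,
                    ln42 h0 (le_trans s9 O4_0) w0,
                    ln42 h1 (le_trans s9 O4_1) w1,
                    ln43 h2 (le_trans s9 O4_2) w2,
                    ln43 h3 (le_trans s9 O4_3) w3,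
                    s9,
                    o5,
                    o6,
                    o7,
                    o8,
                    hRl (47/100) (1/4) (fun _ _ h h2 => lm4 h h2) s12,
                    (le_trans s9 O4_3),
                    st]
              · linarith only [hR,
                    ln44 h1 (le_trans s9 O4_1) w1,
                    c5,
                    (le_trans s9 O4_2),
                    ln40 h4 s9 s12,
                    ln45 h5 (le_trans s14 O7_5) (le_trans O5_4 s12),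
                    ln45 h6 (le_trans s14 O7_6) (le_trans O6_4 s12),
                    ln45 h7 s14 (le_trans O7_4 s12),
                    ln21 h8 z8 s13,
                    o8,
                    sp,
                    ln39 h0 (le_trans s9 O4_0) w0,
                    ln39 h1 (le_trans s9 O4_1) w1,
                    ln43 h2 (le_trans s9 O4_2) w2,
                    ln43 h3 (le_trans s9 O4_3) w3,
                    s9,
                    ln44 h0 (le_trans s9 O4_0) w0,
                    (le_trans s9 O4_3),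
                    hRl (47/100) (1/4) (fun _ _ h h2 => lm4 h h2) s12,
                    ln21 h9 z9 (le_trans O9_8 s13),
                    st]
            · linarith only [hR,
                  ln39 h1 (le_trans s9 O4_1) w1,
                  c5,
                  ln40 h4 s9 s12,
                  ln46 h5 (le_trans s13 O8_5) (le_trans O5_4 s12),
                  o5,
                  o6,
                  o7,
                  ln41 h9 z9 (le_trans O9_4 s12),
                  sp,
                  ln42 h0 (le_trans s9 O4_0) w0,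
                  ln42 h1 (le_trans s9 O4_1) w1,
                  ln43 h2 (le_trans s9 O4_2) w2,
                  ln43 h3 (le_trans s9 O4_3) w3,
                  s9,
                  st,
                  ln46 h6 (le_trans s13 O8_6) (le_trans O6_4 s12),
                  ln46 h7 (le_trans s13 O8_7) (le_trans O7_4 s12),
                  o8,
                  hRl (47/100) (1/4) (fun _ _ h h2 => lm4 h h2) s12,
                  ln39 h0 (le_trans s9 O4_0) w0,
                  ln46 h8 s13 (le_trans O8_4 s12)]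
          · rcases le_total t4 (9/25) with s15 | s15
            · rcases le_total t8 (9/400) with s16 | s16
              · rcases le_total t7 (1/100) with s17 | s17
                · rcases le_total t4 (121/400) with s18 | s18
                  · linarith only [o7,
                        c5,
                        (le_trans s12 O4_2),
                        ln47 h4 s12 s18,
                        ln48 h5 z5 (le_trans O5_4 s18),
                        ln48 h6 z6 (le_trans O6_4 s18),
                        ln3 h7 z7 s17,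
                        ln3 h8 z8 (le_trans O8_7 s17),
                        ln3 h9 z9 (le_trans O9_7 s17),
                        sp,
                        ln49 h0 (le_trans s12 O4_0) w0,
                        ln49 h1 (le_trans s12 O4_1) w1,
                        ln49 h2 (le_trans s12 O4_2) w2,
                        ln49 h3 (le_trans s12 O4_3) w3,
                        s12,
                        q5,
                        q6,
                        q7,
                        o8,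
                        hRl (9/20) (121/400) (fun _ _ h h2 => lm5 h h2) s18,
                        (le_trans s12 O4_3),
                        st]
                  · linarith only [o7,
                        ln50 h6 z6 (le_trans O6_4 s15),
                        c5,
                        (le_trans s18 O4_2),
                        ln51 h4 s18 s15,
                        ln50 h5 z5 (le_trans O5_4 s15),
                        q5,
                        ln3 h7 z7 s17,
                        ln3 h8 z8 (le_trans O8_7 s17),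
                        ln3 h9 z9 (le_trans O9_7 s17),
                        sp,
                        ln52 h0 (le_trans s18 O4_0) w0,
                        ln52 h1 (le_trans s18 O4_1) w1,
                        ln52 h2 (le_trans s18 O4_2) w2,
                        ln52 h3 (le_trans s18 O4_3) w3,
                        (le_trans s18 O4_1),
                        st,
                        o6,
                        (le_trans s18 O4_0),
                        o8,
                        hRl (43/100) (9/25) (fun _ _ h h2 => lm6 h h2) s15,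
                        s18,
                        (le_trans s18 O4_3)]
                · linarith only [hR,
                      ln53 h1 (le_trans s12 O4_1) w1,
                      c5,
                      (le_trans s12 O4_2),
                      ln54 h4 s12 s15,
                      ln55 h5 (le_trans s17 O7_5) (le_trans O5_4 s15),
                      ln21 h8 z8 s16,
                      ln53 h0 (le_trans s12 O4_0) w0,
                      sp,
                      ln56 h0 (le_trans s12 O4_0) w0,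
                      ln56 h1 (le_trans s12 O4_1) w1,
                      ln49 h2 (le_trans s12 O4_2) w2,
                      ln49 h3 (le_trans s12 O4_3) w3,
                      s12,
                      st,
                      ln55 h6 (le_trans s17 O7_6) (le_trans O6_4 s15),
                      (le_trans s12 O4_3),
                      o8,
                      hRl (43/100) (9/25) (fun _ _ h h2 => lm6 h h2) s15,
                      ln21 h9 z9 (le_trans O9_8 s16),
                      ln55 h7 s17 (le_trans O7_4 s15)]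
              · linarith only [hR,
                    ln53 h1 (le_trans s12 O4_1) w1,
                    c5,
                    ln54 h4 s12 s15,
                    ln57 h5 (le_trans s16 O8_5) (le_trans O5_4 s15),
                    o5,
                    o6,
                    o7,
                    o8,
                    sp,
                    ln56 h0 (le_trans s12 O4_0) w0,
                    ln56 h1 (le_trans s12 O4_1) w1,
                    ln49 h2 (le_trans s12 O4_2) w2,
                    ln49 h3 (le_trans s12 O4_3) w3,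
                    st,
                    ln57 h6 (le_trans s16 O8_6) (le_trans O6_4 s15),
                    ln57 h7 (le_trans s16 O8_7) (le_trans O7_4 s15),
                    ln57 h8 s16 (le_trans O8_4 s15),
                    hRl (43/100) (9/25) (fun _ _ h h2 => lm6 h h2) s15,
                    ln53 h0 (le_trans s12 O4_0) w0,
                    ln50 h9 z9 (le_trans O9_4 s15)]
            · rcases le_total t9 (1/100) with s19 | s19
              · linarith only [s19,
                    ln4 h8 z8 w8,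
                    (le_trans s15 O4_1),
                    (le_trans s15 O4_2),
                    (le_trans s15 O4_3),
                    ln4 h5 z5 w5,
                    q5,
                    q6,
                    o7,
                    ln3 h9 z9 s19,
                    sp,
                    ln58 h0 (le_trans s15 O4_0) w0,
                    ln58 h1 (le_trans s15 O4_1) w1,
                    ln58 h2 (le_trans s15 O4_2) w2,
                    ln58 h3 (le_trans s15 O4_3) w3,
                    ln58 h4 s15 w4,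
                    (le_trans s15 O4_0),
                    ln4 h6 z6 w6,
                    ln4 h7 z7 w7,
                    o8,
                    hRl (39/100) 1 (fun _ _ h h2 => lm7 h h2) w4,
                    c5,
                    s15]
              · rcases le_total t6 (1/16) with s20 | s20
                · linarith only [hR,
                      ln59 h6 (le_trans s19 O9_6) s20,
                      ln60 h0 (le_trans s15 O4_0) w0,
                      (le_trans s15 O4_2),
                      (le_trans s15 O4_3),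
                      ln8 h5 (le_trans s19 O9_5) w5,
                      ln60 h1 (le_trans s15 O4_1) w1,
                      ln59 h7 (le_trans s19 O9_7) (le_trans O7_6 s20),
                      o7,
                      ln59 h8 (le_trans s19 O9_8) (le_trans O8_6 s20),
                      sp,
                      ln61 h0 (le_trans s15 O4_0) w0,
                      ln61 h1 (le_trans s15 O4_1) w1,
                      ln58 h2 (le_trans s15 O4_2) w2,
                      ln58 h3 (le_trans s15 O4_3) w3,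
                      ln58 h4 s15 w4,
                      st,
                      o6,
                      o8,
                      c5,
                      hRl (39/100) 1 (fun _ _ h h2 => lm7 h h2) w4,
                      ln59 h9 s19 (le_trans O9_6 s20),
                      s15]
                · linarith only [hR,
                      ln8 h9 s19 w9,
                      s15,
                      (le_trans s15 O4_2),
                      (le_trans s15 O4_3),
                      ln62 h5 (le_trans s20 O6_5) w5,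
                      (le_trans s20 O6_5),
                      s20,
                      o7,
                      o8,
                      sp,
                      ln61 h0 (le_trans s15 O4_0) w0,
                      ln61 h1 (le_trans s15 O4_1) w1,
                      ln58 h2 (le_trans s15 O4_2) w2,
                      ln58 h3 (le_trans s15 O4_3) w3,
                      ln58 h4 s15 w4,
                      st,
                      ln62 h6 s20 w6,
                      ln8 h7 (le_trans s19 O9_7) w7,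
                      ln8 h8 (le_trans s19 O9_8) w8,
                      hRl (39/100) 1 (fun _ _ h h2 => lm7 h h2) w4,
                      c5]

end Vale.Agent.Propeller.Num10
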