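import Vale.Agent.Propeller.Defs

/-!
# P226: data of the numerical part
-/

namespace Vale.Agent.Propeller

open MeasureTheory ProbabilityTheory

/-- intercept of the cap line -/
noncomputable def capA (n : ℕ) (c : ℝ) : ℝ :=
  (1 - c ^ 2) ^ (((n : ℝ) - 1) / 2)
    - ((n : ℝ) - 1) * c * (∫ s in c..1, (1 - s ^ 2) ^ (((n : ℝ) - 3) / 2))

/-- slope of the cap line -/
noncomputable def capB (n : ℕ) (c : ℝ) : ℝ :=
  2 * ((n : ℝ) - 1) * (∫ s in (0 : ℝ)..1, (1 - s ^ 2) ^ (((n : ℝ) - 3) / 2)) * c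

/-- sorted values `t i = 2π |w i|²` (antitone) and Gaussian measures `p i` of the cells, with the
necessary conditions -/
structure Data (k : ℕ) (t p : ℕ → ℝ) : Prop where
  anti : ∀ i j, i ≤ j → j < k → t j ≤ t i
  nonneg : ∀ i < k, 0 ≤ t i
  pnonneg : ∀ i < k, 0 ≤ p i
  psum : ∑ i ∈ Finset.range k, p i ≤ 1
  tsum : 9 / 4 < ∑ i ∈ Finset.range k, t i
  cons : ∀ b : ℕ, 2 ≤ b → b ≤ k - 1 → ∑ i ∈ Finset.range b, t i ≤
    t 0 + t 1 + ((b : ℝ) ^ 2 + b - 1) * t (k - 1) + ∑ i ∈ Finset.Ico b (k - 1), t i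
  cons3 : 3 / 2 * (t 1 + t 2 - t 0) ≤
    23 / 2 * t (k - 1) + 3 / 2 * ∑ i ∈ Finset.Ico 3 (k - 1), t i

/-- the cap inequalities in dimension `n` -/
def CapIneq (n k : ℕ) (t p : ℕ → ℝ) : Prop :=
  ∀ i < k, ∀ c : ℝ, 0 ≤ c → c < 1 → Real.sqrt (t i) ≤ capA n c + capB n c * p i

/-- the half-space inequalities -/
def HalfIneq (k : ℕ) (t p : ℕ → ℝ) : Prop :=
  ∀ i < k, ∀ a : ℝ, 0 ≤ a → Real.sqrt (t i) ≤ Real.exp (-a ^ 2 / 2) +
    Real.sqrt (2 * Real.pi) * a * (p i - (gaussianReal 0 1 (Set.Ioi a)).toReal)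

end Vale.Agent.Propeller
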