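import Vale.Agent.Propeller.K3
import Vale.Agent.Propeller.Cap

/-!
# P226: Gaussian measure of a planar sector (Sheppard's formula, as an inequality)
-/

namespace Vale.Agent.Propeller

open MeasureTheory ProbabilityTheory Filter Topology

namespace FO

lemma ph_mul (a c : ℝ) : ph a * ph (c * a) =
    (2 * Real.pi)⁻¹ * Real.exp (-((1 + c ^ 2) / 2) * a ^ 2) := by
  unfold ph
  have h1 : (Real.sqrt (2 * Real.pi))⁻¹ * (Real.sqrt (2 * Real.pi))⁻¹ = (2 * Real.pi)⁻¹ := by
    rw [← mul_inv, Real.mul_self_sqrt (by positivity)]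
  have h2 : Real.exp (-a ^ 2 / 2) * Real.exp (-(c * a) ^ 2 / 2) =
      Real.exp (-((1 + c ^ 2) / 2) * a ^ 2) := by
    rw [← Real.exp_add]
    congr 1
    ring
  rw [← h1, ← h2]
  ring

lemma half_gauss (b : ℝ) (hb : 0 < b) :
    ∫ x in Set.Ioi (0 : ℝ), x * Real.exp (-b * x ^ 2) = 1 / (2 * b) := by
  have h1 : ∀ x ∈ Set.Ioi (0 : ℝ), HasDerivAt (fun x => -(1 / (2 * b)) * Real.exp (-b * x ^ 2))
      (x * Real.exp (-b * x ^ 2)) x := by
    intro x _
    have h2 : HasDerivAt (fun x : ℝ => -b * x ^ 2) (-b * (2 * x)) x := by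
      have := (hasDerivAt_pow 2 x).const_mul (-b)
      refine this.congr_deriv ?_
      norm_num
    have h3 := (h2.exp).const_mul (-(1 / (2 * b)))
    refine h3.congr_deriv ?_
    field_simp
  have h4 : Tendsto (fun x => -(1 / (2 * b)) * Real.exp (-b * x ^ 2)) atTop (𝓝 0) := by
    have h5 : Tendsto (fun x : ℝ => -b * x ^ 2) atTop atBot := by
      have h6 : Tendsto (fun x : ℝ => b * x ^ 2) atTop atTop :=
        (tendsto_pow_atTop (by norm_num)).const_mul_atTop hb
      refine (tendsto_neg_atTop_atBot.comp h6).congr fun x => ?_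
      simp
    have := (Real.tendsto_exp_atBot.comp h5).const_mul (-(1 / (2 * b)))
    simpa using this
  have h7 := integral_Ioi_of_hasDerivAt_of_tendsto
    (f := fun x => -(1 / (2 * b)) * Real.exp (-b * x ^ 2))
    (f' := fun x => x * Real.exp (-b * x ^ 2)) (a := 0) (m := 0)
    (by fun_prop) h1 ((integrable_mul_exp_neg_mul_sq hb).integrableOn) h4
  rw [h7]
  simp

lemma inner_int (t v : ℝ) :
    ∫ η, ind (0 < η) * (t * η * ph ((t * v) * η)) ∂gaussianReal 0 1 =
      (t / (2 * Real.pi)) * (1 / (1 + (t * v) ^ 2)) := by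
  rw [integral_gauss]
  have h1 : ∀ x, ph x * (ind (0 < x) * (t * x * ph ((t * v) * x))) =
      (Set.Ioi (0 : ℝ)).indicator (fun x => (t * (2 * Real.pi)⁻¹) *
        (x * Real.exp (-((1 + (t * v) ^ 2) / 2) * x ^ 2))) x := by
    intro x
    by_cases hx : 0 < x
    · rw [ind_true hx, Set.indicator_of_mem (show x ∈ Set.Ioi (0 : ℝ) from hx)]
      have := ph_mul x (t * v)
      calc _ = t * x * (ph x * ph (t * v * x)) := by ring
        _ = _ := by rw [this]; ring
    · rw [ind_false hx, Set.indicator_of_notMem (show x ∉ Set.Ioi (0 : ℝ) from hx)]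
      ring
  simp only [h1]
  rw [integral_indicator measurableSet_Ioi, integral_const_mul, half_gauss _ (by positivity)]
  field_simp

lemma sector_one (t : ℝ) :
    ∫ η, ind (0 < η) * ((t * η) * ∫ v in (0 : ℝ)..1, ph ((t * η) * v + 0) * 1) ∂gaussianReal 0 1 =
      Real.arctan t / (2 * Real.pi) := by
  have h1 : ∀ η, ind (0 < η) * ((t * η) * ∫ v in (0 : ℝ)..1, ph ((t * η) * v + 0) * 1) =
      ∫ v in Set.Ioc (0 : ℝ) 1, ind (0 < η) * (t * η * ph ((t * v) * η)) := by
    intro η
    rw [intervalIntegral.integral_of_le (by norm_num), ← integral_const_mul, ← integral_const_mul]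
    refine integral_congr_ae (Eventually.of_forall fun v => ?_)
    simp only [add_zero, mul_one]
    have : t * η * v = t * v * η := by ring
    rw [this]
  simp only [h1]
  rw [integral_integral_swap]
  · simp only [inner_int]
    rw [← intervalIntegral.integral_of_le (by norm_num), intervalIntegral.integral_const_mul]
    by_cases ht : t = 0
    · subst ht; simp
    · have h2 := intervalIntegral.integral_comp_mul_left (a := 0) (b := 1)
        (fun x : ℝ => 1 / (1 + x ^ 2)) ht
      rw [h2, mul_zero, mul_one, integral_one_div_one_add_sq, Real.arctan_zero, sub_zero,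
        smul_eq_mul]
      field_simp
  · have hdom : Integrable (fun z : ℝ × ℝ => |t| * |z.1| * 1)
        ((gaussianReal 0 1).prod (volume.restrict (Set.Ioc (0 : ℝ) 1))) := by
      have h3 : Integrable (fun x : ℝ => |t| * |x|) (gaussianReal 0 1) := by
        have h4 : Integrable (fun x : ℝ => x) (gaussianReal 0 1) :=
          IsGaussian.integrable_id (μ := gaussianReal 0 1)
        exact h4.abs.const_mul _
      have h5 : Integrable (fun _ : ℝ => (1 : ℝ)) (volume.restrict (Set.Ioc (0 : ℝ) 1)) :=
        integrable_const _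
      exact h3.mul_prod h5
    refine hdom.mono' ?_ (Eventually.of_forall fun z => ?_)
    · apply Measurable.aestronglyMeasurable
      refine Measurable.mul (measurable_ind ?_) ?_
      · exact measurableSet_lt measurable_const measurable_fst
      · exact Measurable.mul (by fun_prop) (continuous_ph.measurable.comp (by fun_prop))
    · simp only [Function.uncurry]
      rw [Real.norm_eq_abs, abs_mul, abs_mul, abs_mul, abs_of_nonneg (ind_nonneg _),
        abs_of_pos (ph_pos _)]
      calc ind (0 < z.1) * (|t| * |z.1| * ph (t * z.2 * z.1)) ≤ 1 * (|t| * |z.1| * 1) := by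
            apply mul_le_mul (ind_le_one _) _ (by have := ph_pos (t * z.2 * z.1); positivity)
              (by norm_num)
            apply mul_le_mul_of_nonneg_left (ph_le_one _) (by positivity)
        _ = |t| * |z.1| * 1 := by ring

lemma int_ind_Ioi (α : ℝ) : ∫ ζ, ind (α < ζ) ∂gaussianReal 0 1 =
    (gaussianReal 0 1).real (Set.Ioi α) := by
  rw [← integral_indicator_one measurableSet_Ioi]
  refine integral_congr_ae (Eventually.of_forall fun x => ?_)
  by_cases hx : α < x
  · show ind (α < x) = _
    rw [ind_true hx, Set.indicator_of_mem (show x ∈ Set.Ioi α from hx)]; rfl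
  · show ind (α < x) = _
    rw [ind_false hx, Set.indicator_of_notMem (show x ∉ Set.Ioi α from hx)]

lemma tail_eq (α : ℝ) (hα : 0 ≤ α) : ∫ ζ, ind (α < ζ) ∂gaussianReal 0 1 =
    1 / 2 - α * ∫ v in (0 : ℝ)..1, ph (α * v + 0) * 1 := by
  have h0 : ∫ ζ, ind (0 < ζ) ∂gaussianReal 0 1 = 1 / 2 := by
    rw [int_ind_Ioi, Cap.gauss_Ioi_zero]
  rcases hα.lt_or_eq with hpos | hz
  · have h1 := short 0 α hpos (fun _ => 1)
    rw [← h1, ← h0]
    have h2 : ∫ ζ, ind (0 < ζ) ∂gaussianReal 0 1 =
        ∫ ζ, (ind (α < ζ) + ind (0 < ζ ∧ ζ < 0 + α) * 1) ∂gaussianReal 0 1 := by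
      apply integral_congr_ae
      have h3 : ∀ᵐ ζ ∂gaussianReal 0 1, ζ ≠ α := by
        have : NullSingletonClass (gaussianReal 0 1) := nullSingletonClass_gaussianReal (by norm_num)
        rw [ae_iff]
        simp
      filter_upwards [h3] with ζ hζ
      by_cases ha : α < ζ
      · have hb : 0 < ζ := hpos.trans ha
        have hc : ¬ (0 < ζ ∧ ζ < 0 + α) := fun h => by linarith [h.2]
        rw [ind_true ha, ind_true hb, ind_false hc]; norm_num
      · have ha' : ζ < α := lt_of_le_of_ne (not_lt.1 ha) hζ
        by_cases hb : 0 < ζ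
        · have hc : (0 < ζ ∧ ζ < 0 + α) := ⟨hb, by linarith⟩
          rw [ind_false ha, ind_true hb, ind_true hc]; norm_num
        · have hc : ¬ (0 < ζ ∧ ζ < 0 + α) := fun h => hb h.1
          rw [ind_false ha, ind_false hb, ind_false hc]; norm_num
    rw [h2, integral_add]
    · ring
    · exact integrable_ind _ measurableSet_Ioi
    · simp only [mul_one]
      exact integrable_ind _ measurableSet_Ioo
  · rw [← hz, h0]; simp

variable {n : ℕ}

lemma meas_two (v1 v2 : E n) : MeasurableSet {x : E n | 0 < inner ℝ v1 x ∧ 0 < inner ℝ v2 x} :=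
  (meas_pos v1).inter (meas_pos v2)

lemma int_ind_two (v1 v2 : E n) : ∫ x, ind (0 < inner ℝ v1 x ∧ 0 < inner ℝ v2 x) ∂gs n =
    (gs n).real {x : E n | 0 < inner ℝ v1 x ∧ 0 < inner ℝ v2 x} := by
  rw [← integral_indicator_one (meas_two v1 v2)]
  refine integral_congr_ae (Eventually.of_forall fun x => ?_)
  by_cases hx : 0 < inner ℝ v1 x ∧ 0 < inner ℝ v2 x
  · show ind (0 < inner ℝ v1 x ∧ 0 < inner ℝ v2 x) = _
    rw [ind_true hx, Set.indicator_of_mem
      (show x ∈ {x : E n | 0 < inner ℝ v1 x ∧ 0 < inner ℝ v2 x} from hx)]; rfl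
  · show ind (0 < inner ℝ v1 x ∧ 0 < inner ℝ v2 x) = _
    rw [ind_false hx, Set.indicator_of_notMem
      (show x ∉ {x : E n | 0 < inner ℝ v1 x ∧ 0 < inner ℝ v2 x} from hx)]

/-- Sheppard's formula as an inequality -/
theorem sector (v1 v2 : E n) (h1 : v1 ≠ 0) (hneg : inner ℝ v1 v2 ≤ 0) :
    -inner ℝ v1 v2 ≤ 2 * Real.pi * (1 / 4 -
      (gs n).real {x : E n | 0 < inner ℝ v1 x ∧ 0 < inner ℝ v2 x}) * (‖v1‖ * ‖v2‖) := by
  have ha : 0 < ‖v1‖ := norm_pos_iff.2 h1
  have hpi := Real.pi_pos
  set e : E n := ‖v1‖⁻¹ • v1 with hedef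
  have he : ‖e‖ = 1 := by rw [hedef, norm_smul, norm_inv, norm_norm, inv_mul_cancel₀ ha.ne']
  set ρ : ℝ := -inner ℝ v2 e with hρdef
  have hρ : ‖v1‖ * ρ = -inner ℝ v1 v2 := by
    rw [hρdef, hedef, inner_smul_right, real_inner_comm v1 v2]
    field_simp
  have hρ0 : 0 ≤ ρ := by
    have : 0 ≤ ‖v1‖ * ρ := by rw [hρ]; linarith
    exact nonneg_of_mul_nonneg_right this ha
  set u : E n := v2 + ρ • e with hudef
  have hnorm : ‖v2‖ ^ 2 = ‖u‖ ^ 2 + ρ ^ 2 := by
    have : v2 = u - ρ • e := by rw [hudef]; abel
    have hue : inner ℝ u e = 0 := by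
      rw [hudef, inner_add_left, inner_smul_left, real_inner_self_eq_norm_sq, he]
      simp [hρdef]
    conv_lhs => rw [this]
    rw [norm_sub_sq_real, inner_smul_right, hue, norm_smul, he]
    simp
  have hρle : ρ ≤ ‖v2‖ := by
    apply le_of_sq_le_sq _ (norm_nonneg _)
    nlinarith [sq_nonneg ‖u‖]
  -- the formula
  have hP : (gs n).real {x : E n | 0 < inner ℝ v1 x ∧ 0 < inner ℝ v2 x} =
      ∫ η, ind (0 < η) * ∫ x, ind (ρ * η < inner ℝ u x) ∂gs n ∂gaussianReal 0 1 := by
    rw [← int_ind_two, integral_rs n e he _ (integrable_ind _ (meas_two v1 v2))]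
    have h2 : ∀ x η, ind (0 < inner ℝ v1 (rs e x η) ∧ 0 < inner ℝ v2 (rs e x η)) =
        ind (0 < η) * ind (ρ * η < inner ℝ u x) := by
      intro x η
      rw [ind_and]
      have e1 : inner ℝ v1 (rs e x η) = ‖v1‖ * η := by
        unfold rs
        simp only [inner_add_right, inner_sub_right, inner_smul_right]
        have : inner ℝ v1 e = ‖v1‖ := by
          rw [hedef, inner_smul_right, real_inner_self_eq_norm_sq]
          field_simp
        have h3 : inner ℝ v1 x = ‖v1‖ * inner ℝ x e := by
          rw [hedef, inner_smul_right, real_inner_comm v1 x]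
          field_simp
        rw [this, h3]
        ring
      have e2 : inner ℝ v2 (rs e x η) = inner ℝ u x - ρ * η := by
        unfold rs
        rw [hudef]
        simp only [inner_add_right, inner_sub_right, inner_smul_right, inner_add_left,
          inner_smul_left, conj_trivial]
        rw [real_inner_comm e x, hρdef]
        ring
      rw [e1, e2]
      congr 1
      · congr 1
        exact propext (mul_pos_iff_of_pos_left ha)
      · congr 1
        exact propext ⟨fun h => by linarith, fun h => by linarith⟩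
    simp only [h2]
    rw [integral_integral_swap]
    · simp only [integral_const_mul]
    · refine Integrable.of_bound (Measurable.aestronglyMeasurable ?_) 1 (Eventually.of_forall ?_)
      · refine Measurable.mul (measurable_ind ?_) (measurable_ind ?_)
        · exact measurableSet_lt measurable_const measurable_snd
        · exact measurableSet_lt (by fun_prop) (by fun_prop)
      · intro z
        simp only [Function.uncurry]
        rw [Real.norm_eq_abs, abs_mul, abs_of_nonneg (ind_nonneg _), abs_of_nonneg (ind_nonneg _)]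
        calc _ ≤ (1 : ℝ) * 1 := mul_le_mul (ind_le_one _) (ind_le_one _) (ind_nonneg _) (by norm_num)
          _ = 1 := by norm_num
  by_cases hu : u = 0
  · have hP0 : (gs n).real {x : E n | 0 < inner ℝ v1 x ∧ 0 < inner ℝ v2 x} = 0 := by
      rw [hP, hu]
      have : ∀ η, ind (0 < η) * ∫ x, ind (ρ * η < inner ℝ (0 : E n) x) ∂gs n = 0 := by
        intro η
        by_cases hη : 0 < η
        · have h3 : ∀ x : E n, ind (ρ * η < inner ℝ (0 : E n) x) = 0 := by
            intro x
            apply ind_false
            rw [inner_zero_left, not_lt]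
            positivity
          rw [integral_congr_ae (Eventually.of_forall h3), integral_zero, mul_zero]
        · rw [ind_false hη, zero_mul]
      rw [integral_congr_ae (Eventually.of_forall this), integral_zero]
    rw [hP0, ← hρ]
    have : 1 ≤ 2 * Real.pi * (1 / 4 - 0) := by linarith [Real.pi_gt_three]
    calc ‖v1‖ * ρ ≤ ‖v1‖ * ‖v2‖ := mul_le_mul_of_nonneg_left hρle ha.le
      _ = 1 * (‖v1‖ * ‖v2‖) := by ring
      _ ≤ _ := mul_le_mul_of_nonneg_right this (by positivity)
  · have hs : 0 < ‖u‖ := norm_pos_iff.2 hu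
    set t : ℝ := ρ / ‖u‖ with htdef
    have ht : 0 ≤ t := div_nonneg hρ0 hs.le
    have hinner : ∀ η, 0 < η → ∫ x, ind (ρ * η < inner ℝ u x) ∂gs n =
        1 / 2 - (t * η) * ∫ v in (0 : ℝ)..1, ph ((t * η) * v + 0) * 1 := by
      intro η hη
      rw [← tail_eq (t * η) (by positivity)]
      have hm : Measurable (fun g : E n => inner ℝ g u) := by fun_prop
      have hf : Measurable (fun y : ℝ => ind (ρ * η < y)) :=
        measurable_ind (measurableSet_lt measurable_const measurable_id)
      have h3 : ∫ x, ind (ρ * η < inner ℝ u x) ∂gs n =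
          ∫ y, ind (ρ * η < y) ∂((gs n).map (fun g => inner ℝ g u)) := by
        rw [integral_map hm.aemeasurable hf.aestronglyMeasurable]
        refine integral_congr_ae (Eventually.of_forall fun x => ?_)
        simp only [real_inner_comm]
      rw [h3, map_inner, integral_map (by fun_prop) hf.aestronglyMeasurable]
      refine integral_congr_ae (Eventually.of_forall fun y => ?_)
      simp only
      congr 1
      apply propext
      rw [htdef]
      constructor
      · intro h
        rw [div_mul_eq_mul_div, div_lt_iff₀ hs]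
        linarith
      · intro h
        rw [div_mul_eq_mul_div, div_lt_iff₀ hs] at h
        linarith
    have h4 : ∀ η, ind (0 < η) * ∫ x, ind (ρ * η < inner ℝ u x) ∂gs n =
        (1 / 2) * ind (0 < η) - ind (0 < η) * ((t * η) *
          ∫ v in (0 : ℝ)..1, ph ((t * η) * v + 0) * 1) := by
      intro η
      by_cases hη : 0 < η
      · rw [hinner η hη]; ring
      · rw [ind_false hη]; ring
    have hint2 : Integrable (fun η => ind (0 < η) * ((t * η) *
        ∫ v in (0 : ℝ)..1, ph ((t * η) * v + 0) * 1)) (gaussianReal 0 1) := by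
      have h4' : Integrable (fun x : ℝ => x) (gaussianReal 0 1) :=
        IsGaussian.integrable_id (μ := gaussianReal 0 1)
      refine (h4'.abs.const_mul t).mono' ?_ (Eventually.of_forall fun η => ?_)
      · apply Measurable.aestronglyMeasurable
        refine Measurable.mul (measurable_ind (measurableSet_lt measurable_const measurable_id)) ?_
        refine Measurable.mul (by fun_prop) ?_
        have : (fun η : ℝ => ∫ v in (0 : ℝ)..1, ph ((t * η) * v + 0) * 1) =
            fun η : ℝ => ∫ v in Set.Ioc (0 : ℝ) 1, ph ((t * η) * v + 0) * 1 := by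
          funext x
          rw [intervalIntegral.integral_of_le (by norm_num)]
        rw [this]
        refine StronglyMeasurable.measurable ?_
        apply StronglyMeasurable.integral_prod_right
        refine Measurable.stronglyMeasurable ?_
        exact (continuous_ph.measurable.comp (by fun_prop)).mul measurable_const
      · have h1 : |∫ v in (0 : ℝ)..1, ph ((t * η) * v + 0) * 1| ≤ 1 := by
          have := intervalIntegral.norm_integral_le_of_norm_le_const (a := 0) (b := 1) (C := 1)
            (f := fun v => ph ((t * η) * v + 0) * 1) (by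
              intro v _
              rw [mul_one, Real.norm_eq_abs, abs_of_pos (ph_pos _)]
              exact ph_le_one _)
          simpa using this
        rw [Real.norm_eq_abs, abs_mul, abs_mul, abs_mul, abs_of_nonneg (ind_nonneg _),
          abs_of_nonneg ht]
        calc _ ≤ 1 * (t * |η| * 1) := by
              apply mul_le_mul (ind_le_one _) _ (by positivity) (by norm_num)
              exact mul_le_mul_of_nonneg_left h1 (by positivity)
          _ = t * |η| := by ring
    have hval : (gs n).real {x : E n | 0 < inner ℝ v1 x ∧ 0 < inner ℝ v2 x} =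
        1 / 4 - Real.arctan t / (2 * Real.pi) := by
      rw [hP]
      simp only [h4]
      rw [integral_sub, integral_const_mul, sector_one]
      · rw [int_ind_Ioi, Cap.gauss_Ioi_zero]; norm_num
      · exact (integrable_ind _ measurableSet_Ioi).const_mul _
      · exact hint2
    rw [hval]
    have h5 : 2 * Real.pi * (1 / 4 - (1 / 4 - Real.arctan t / (2 * Real.pi))) = Real.arctan t := by
      field_simp
      ring
    rw [h5, ← hρ]
    have h6 : t / Real.sqrt (1 + t ^ 2) ≤ Real.arctan t := by
      rw [← Real.sin_arctan]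
      exact Real.sin_le (by rw [Real.arctan_nonneg]; exact ht)
    have hv2 : 0 < ‖v2‖ := by
      have : 0 < ‖v2‖ ^ 2 := by rw [hnorm]; positivity
      rcases (norm_nonneg v2).lt_or_eq with h | h
      · exact h
      · rw [← h] at this; norm_num at this
    have h7 : Real.sqrt (1 + t ^ 2) = ‖v2‖ / ‖u‖ := by
      rw [htdef, ← Real.sqrt_sq (by positivity : 0 ≤ ‖v2‖ / ‖u‖)]
      congr 1
      rw [div_pow, div_pow, hnorm]
      field_simp
      try ring
    have h8 : ρ / ‖v2‖ ≤ Real.arctan t := by
      rw [h7, htdef] at h6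
      have : ρ / ‖u‖ / (‖v2‖ / ‖u‖) = ρ / ‖v2‖ := by field_simp
      rwa [this] at h6
    calc ‖v1‖ * ρ = (ρ / ‖v2‖) * (‖v1‖ * ‖v2‖) := by field_simp
      _ ≤ Real.arctan t * (‖v1‖ * ‖v2‖) := mul_le_mul_of_nonneg_right h8 (by positivity)

end FO

end Vale.Agent.Propeller
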