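import Vale.Agent.Propeller.Alg
import Vale.Agent.Propeller.Cap
import Vale.Agent.Propeller.Opt
import Vale.Agent.Propeller.Dim
import Vale.Agent.Propeller.NumDefs

/-!
# P226, part STEP: from the optimal configuration to the numerical data
-/

namespace Vale.Agent.Propeller

open MeasureTheory ProbabilityTheory Finset

namespace StepAux

variable {n k : ℕ}

theorem cell_perm (w : Fin k → E n) (σ : Equiv.Perm (Fin k)) (i : Fin k) :
    cell (w ∘ σ) i = cell w (σ i) := by
  ext x
  constructor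
  · intro h j hj
    have h1 := h (σ.symm j) (fun hc => hj (by rw [← hc, Equiv.apply_symm_apply]))
    simpa using h1
  · intro h j hj
    exact h (σ j) (fun hc => hj (σ.injective hc))

theorem hmax_perm [NeZero k] (w : Fin k → E n) (σ : Equiv.Perm (Fin k)) (x : E n) :
    hmax (w ∘ σ) x = hmax w x := by
  unfold hmax
  apply le_antisymm
  · refine sup'_le _ _ fun i _ => ?_
    exact le_sup' (fun i => inner ℝ (w i) x) (mem_univ (σ i))
  · refine sup'_le _ _ fun i _ => ?_
    have h1 := le_sup' (fun i => (inner ℝ ((w ∘ σ) i) x : ℝ)) (mem_univ (σ.symm i))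
    have h2 : (inner ℝ ((w ∘ σ) (σ.symm i)) x : ℝ) = inner ℝ (w i) x := by
      rw [Function.comp, Equiv.apply_symm_apply]
    rw [h2] at h1
    exact h1

theorem opt_perm [NeZero k] {M : ℝ} {w : Fin k → E n} (h : Opt n k M w) (σ : Equiv.Perm (Fin k)) :
    Opt n k M (w ∘ σ) where
  pos := h.pos
  bd := h.bd
  sumsq := by
    rw [← h.sumsq]
    exact Equiv.sum_comp σ (fun i => ‖w i‖ ^ 2)
  emax_eq := by
    rw [← h.emax_eq]
    unfold emax
    simp_rw [hmax_perm]
  neg := fun i j hij => h.neg (σ i) (σ j) (fun hc => hij (σ.injective hc))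
  mom := fun i => by rw [cell_perm]; exact h.mom (σ i)

theorem cell_meas (w : Fin k → E n) (i : Fin k) : MeasurableSet (cell w i) := by
  have : cell w i = ⋂ j, {x | j ≠ i → inner ℝ (w j) x < inner ℝ (w i) x} := by
    ext x; simp [cell]
  rw [this]
  refine MeasurableSet.iInter fun j => ?_
  by_cases hj : j ≠ i
  · have h1 : {x : E n | j ≠ i → inner ℝ (w j) x < inner ℝ (w i) x} =
        {x | (inner ℝ (w j) x : ℝ) < inner ℝ (w i) x} := by
      ext x; simp [hj]
    rw [h1]
    exact measurableSet_lt (by fun_prop) (by fun_prop)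
  · have h1 : {x : E n | j ≠ i → inner ℝ (w j) x < inner ℝ (w i) x} = Set.univ := by
      ext x; simp [not_not.1 hj]
    rw [h1]; exact MeasurableSet.univ

theorem cell_cone (w : Fin k → E n) (i : Fin k) : ∀ x ∈ cell w i, ∀ t : ℝ, 0 < t →
    t • x ∈ cell w i := by
  intro x hx t ht j hj
  rw [inner_smul_right, inner_smul_right]
  exact mul_lt_mul_of_pos_left (hx j hj) ht

theorem cell_disj (w : Fin k → E n) : Pairwise (Function.onFun Disjoint (cell w)) := by
  intro i j hij
  rw [Function.onFun, Set.disjoint_left]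
  intro x hx hx'
  exact absurd (hx j hij.symm) (not_lt.2 (hx' i hij).le)

theorem sum_cells (w : Fin k → E n) : ∑ i, (gs n (cell w i)).toReal ≤ 1 := by
  have h1 : ∑ i, (gs n).real (cell w i) = (gs n).real (⋃ i ∈ (univ : Finset (Fin k)), cell w i) := by
    rw [measureReal_biUnion_finset (fun i _ j _ hij => cell_disj w hij) fun i _ => cell_meas w i]
  have h2 : ∑ i, (gs n (cell w i)).toReal = ∑ i, (gs n).real (cell w i) := rfl
  rw [h2, h1]
  exact measureReal_le_one

end StepAux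

open StepAux in
theorem opt_data_cap_of (n k : ℕ) [NeZero k] (hcore : Alg.CoreSt n) (hk : 4 ≤ k) (hn : 3 ≤ n)
    (M : ℝ) (w : Fin k → E n) (h : Opt n k M w) (hM : 9 / (8 * Real.pi) < M) :
    ∃ t p : ℕ → ℝ, Data k t p ∧ CapIneq n k t p ∧ HalfIneq k t p := by
  have hpi := Real.pi_pos
  set σ := Tuple.sort (fun i => -‖w i‖) with hσ
  have hmono : Monotone ((fun i => -‖w i‖) ∘ σ) := Tuple.monotone_sort _
  set v : Fin k → E n := w ∘ σ with hv
  have hO : Opt n k M v := opt_perm h σ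
  have hanti : ∀ i j : Fin k, i ≤ j → ‖v j‖ ≤ ‖v i‖ := by
    intro i j hij
    have := hmono hij
    simp only [Function.comp] at this
    simpa [hv] using this
  have hsq : ∀ i j : Fin k, i ≤ j → ‖v j‖ ^ 2 ≤ ‖v i‖ ^ 2 := fun i j hij =>
    pow_le_pow_left₀ (norm_nonneg _) (hanti i j hij) 2
  let V : ℕ → ℝ := fun i => if hi : i < k then ‖v ⟨i, hi⟩‖ ^ 2 else 0
  let P : ℕ → ℝ := fun i => if hi : i < k then (gs n (cell v ⟨i, hi⟩)).toReal else 0
  have hV : ∀ (i : Fin k), V i = ‖v i‖ ^ 2 := fun i => by simp [V]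
  have hP : ∀ (i : Fin k), P i = (gs n (cell v i)).toReal := fun i => by simp [P]
  have hVn : ∀ i, 0 ≤ V i := fun i => by
    by_cases hi : i < k
    · simp only [V, hi, dite_true]; positivity
    · simp only [V, hi, dite_false]; exact le_refl _
  -- sums over finsets of `Fin k`
  have hsumB : ∀ s : Finset ℕ, (∀ i ∈ s, i < k) →
      ∑ i ∈ s, V i = ∑ j ∈ (univ : Finset (Fin k)).filter (fun j => j.val ∈ s), ‖v j‖ ^ 2 := by
    intro s hs
    symm
    refine sum_bij (fun (j : Fin k) _ => j.val) ?_ ?_ ?_ ?_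
    · intro j hj; simpa using hj
    · intro j _ j' _ hjj; exact Fin.ext hjj
    · intro i hi; exact ⟨⟨i, hs i hi⟩, by simpa using hi, rfl⟩
    · intro j _; exact (hV j).symm
  have hlast : k - 1 < k := by omega
  let il : Fin k := ⟨k - 1, hlast⟩
  let z0 : Fin k := ⟨0, by omega⟩
  let z1 : Fin k := ⟨1, by omega⟩
  let z2 : Fin k := ⟨2, by omega⟩
  have hconsV : ∀ b : ℕ, 2 ≤ b → b ≤ k - 1 → ∑ i ∈ range b, V i ≤
      V 0 + V 1 + ((b : ℝ) ^ 2 + b - 1) * V (k - 1) + ∑ i ∈ Ico b (k - 1), V i := by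
    intro b hb2 hbk
    set B : Finset (Fin k) := (univ : Finset (Fin k)).filter (fun j => j.val ∈ range b) with hB
    have hcard : B.card = b := by
      have : B.map Fin.valEmbedding = range b := by
        ext i
        simp only [hB, mem_map, mem_filter, mem_univ, true_and, mem_range, Fin.valEmbedding_apply]
        constructor
        · rintro ⟨j, hj, rfl⟩; exact hj
        · intro hi; exact ⟨⟨i, by omega⟩, hi, rfl⟩
      rw [← card_map Fin.valEmbedding, this, card_range]
    have h1 := Alg.alg_b_of hk hcore hO il B (by simp [hB, il]; omega) (by rw [hcard]; exact hb2)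
      (‖v z0‖ ^ 2 + ‖v z1‖ ^ 2) (by
        intro i j hij
        have hpos : ∀ i j : Fin k, i < j → ‖v i‖ ^ 2 + ‖v j‖ ^ 2 ≤ ‖v z0‖ ^ 2 + ‖v z1‖ ^ 2 := by
          intro i j hlt
          have h1 := hsq z0 i (Fin.mk_le_of_le_val (by omega))
          have h2 := hsq z1 j (Fin.mk_le_of_le_val (by
            have : i.val < j.val := hlt
            omega))
          linarith
        rcases lt_or_gt_of_ne hij with hlt | hlt
        · exact hpos i j hlt
        · rw [add_comm]; exact hpos j i hlt)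
    rw [hcard] at h1
    rw [hsumB (range b) (fun i hi => by rw [mem_range] at hi; omega),
      hsumB (Ico b (k - 1)) (fun i hi => by rw [mem_Ico] at hi; omega)]
    have h2 : (univ \ B).erase il =
        (univ : Finset (Fin k)).filter (fun j => j.val ∈ Ico b (k - 1)) := by
      ext j
      simp only [hB, mem_erase, mem_sdiff, mem_univ, true_and, mem_filter, mem_range, mem_Ico,
        not_lt, il, ne_eq, Fin.ext_iff]
      have := j.isLt
      constructor
      · rintro ⟨h3, h4⟩; exact ⟨h4, by omega⟩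
      · rintro ⟨h3, h4⟩; exact ⟨by omega, h3⟩
    rw [h2] at h1
    have e0 : V 0 = ‖v z0‖ ^ 2 := hV z0
    have e1 : V 1 = ‖v z1‖ ^ 2 := hV z1
    have el : V (k - 1) = ‖v il‖ ^ 2 := hV il
    rw [e0, e1, el]
    exact h1
  have hcons3V : 3 / 2 * (V 1 + V 2 - V 0) ≤
      23 / 2 * V (k - 1) + 3 / 2 * ∑ i ∈ Ico 3 (k - 1), V i := by
    have h1 := Alg.alg_3_of hk hcore hO il z0 z1 z2
      (by simp only [il, z0, ne_eq, Fin.ext_iff]; omega)
      (by simp only [il, z1, ne_eq, Fin.ext_iff]; omega)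
      (by simp only [il, z2, ne_eq, Fin.ext_iff]; omega)
      (by simp only [z0, z1, ne_eq, Fin.ext_iff]; omega)
      (by simp only [z0, z2, ne_eq, Fin.ext_iff]; omega)
      (by simp only [z1, z2, ne_eq, Fin.ext_iff]; omega)
      (hanti z0 z1 (Fin.mk_le_of_le_val (by simp [z1])))
      (hanti z0 z2 (Fin.mk_le_of_le_val (by simp [z2])))
    have h2 : univ \ {il, z0, z1, z2} =
        (univ : Finset (Fin k)).filter (fun j => j.val ∈ Ico 3 (k - 1)) := by
      ext j
      simp only [mem_sdiff, mem_univ, true_and, mem_filter, mem_Ico, mem_insert, mem_singleton,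
        il, z0, z1, z2, Fin.ext_iff, not_or]
      have := j.isLt
      omega
    rw [h2] at h1
    rw [hsumB (Ico 3 (k - 1)) (fun i hi => by rw [mem_Ico] at hi; omega)]
    have e0 : V 0 = ‖v z0‖ ^ 2 := hV z0
    have e1 : V 1 = ‖v z1‖ ^ 2 := hV z1
    have e2 : V 2 = ‖v z2‖ ^ 2 := hV z2
    have el : V (k - 1) = ‖v il‖ ^ 2 := hV il
    rw [e0, e1, e2, el]
    exact h1
  have hsqrt : ∀ i : Fin k, Real.sqrt (2 * Real.pi * V i) =
      Real.sqrt (2 * Real.pi) * ‖∫ x in cell v i, x ∂gs n‖ := by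
    intro i
    rw [hV i, hO.mom i, Real.sqrt_mul (by positivity), Real.sqrt_sq (norm_nonneg _)]
  refine ⟨fun i => 2 * Real.pi * V i, P, ⟨?_, ?_, ?_, ?_, ?_, ?_, ?_⟩, ?_, ?_⟩
  · intro i j hij hj
    have h1 := hsq ⟨i, by omega⟩ ⟨j, hj⟩ hij
    have e1 : V i = ‖v ⟨i, by omega⟩‖ ^ 2 := hV ⟨i, by omega⟩
    have e2 : V j = ‖v ⟨j, hj⟩‖ ^ 2 := hV ⟨j, hj⟩
    rw [e1, e2]
    exact mul_le_mul_of_nonneg_left h1 (by positivity)
  · intro i _
    exact mul_nonneg (by positivity) (hVn i)
  · intro i hi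
    have e1 : P i = (gs n (cell v ⟨i, hi⟩)).toReal := hP ⟨i, hi⟩
    rw [e1]; exact ENNReal.toReal_nonneg
  · rw [← Fin.sum_univ_eq_sum_range]
    simp_rw [hP]
    exact sum_cells v
  · rw [← mul_sum, ← Fin.sum_univ_eq_sum_range]
    simp_rw [hV]
    rw [hO.sumsq]
    have h1 : 2 * Real.pi * (9 / (8 * Real.pi)) = 9 / 4 := by field_simp; norm_num
    rw [← h1]
    exact mul_lt_mul_of_pos_left hM (by positivity)
  · intro b hb2 hbk
    have h1 := mul_le_mul_of_nonneg_left (hconsV b hb2 hbk) (by positivity : 0 ≤ 2 * Real.pi)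
    rw [← mul_sum, ← mul_sum]
    linarith
  · have h1 := mul_le_mul_of_nonneg_left hcons3V (by positivity : 0 ≤ 2 * Real.pi)
    rw [← mul_sum]
    linarith
  · intro i hi c hc0 hc1
    have h1 := cap_lin n hn (cell v ⟨i, hi⟩) (cell_meas v _) (cell_cone v _) c hc0 hc1
    have h2 := hsqrt ⟨i, hi⟩
    have e1 : P i = (gs n (cell v ⟨i, hi⟩)).toReal := hP ⟨i, hi⟩
    simp only at h2 ⊢
    rw [h2, e1]
    exact h1
  · intro i hi a ha
    have h1 := half_lin n (cell v ⟨i, hi⟩) (cell_meas v _) a ha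
    have h2 := hsqrt ⟨i, hi⟩
    have e1 : P i = (gs n (cell v ⟨i, hi⟩)).toReal := hP ⟨i, hi⟩
    simp only at h2 ⊢
    rw [h2, e1]
    exact h1

/-- the induction step, from the core inequality and the numerical parts -/
theorem step_of (hcore : ∀ n, 2 ≤ n → Alg.CoreSt n)
    (num5 : ∀ t p : ℕ → ℝ, Data 5 t p → CapIneq 4 5 t p → False)
    (num6 : ∀ t p : ℕ → ℝ, Data 6 t p → CapIneq 5 6 t p → False)
    (num7 : ∀ t p : ℕ → ℝ, Data 7 t p → CapIneq 7 7 t p → False)
    (num8 : ∀ t p : ℕ → ℝ, Data 8 t p → CapIneq 7 8 t p → False)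
    (num9 : ∀ t p : ℕ → ℝ, Data 9 t p → CapIneq 9 9 t p → False)
    (num10 : ∀ k : ℕ, 10 ≤ k → ∀ t p : ℕ → ℝ, Data k t p → HalfIneq k t p → False)
    (k : ℕ) [NeZero k] [NeZero (k - 1)] (hk : 5 ≤ k) (C : ℝ)
    (hC : 9 / (8 * Real.pi) ≤ C) (hb : ∀ n, Bd n (Fin (k - 1)) C) (n : ℕ) : Bd n (Fin k) C := by
  have hpi := Real.pi_pos
  have hC0 : 0 < C := lt_of_lt_of_le (by positivity) hC
  have key : ∀ m : ℕ, 3 ≤ m → k ≤ m + 1 →
      (∀ t p : ℕ → ℝ, Data k t p → CapIneq m k t p → HalfIneq k t p → False) →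
      Bd n (Fin k) C := by
    intro m hm hkm hnum
    refine bd_of_bd n m k hkm C hC0.le ?_
    by_contra hno
    obtain ⟨M, w, hCM, hO⟩ := exists_opt m k (by omega) C hC0 (hb m) hno
    obtain ⟨t, p, hd, hc, hh⟩ := opt_data_cap_of m k (hcore m (by omega)) (by omega) hm M w hO
      (lt_of_le_of_lt hC hCM)
    exact hnum t p hd hc hh
  rcases Nat.lt_or_ge k 10 with hlt | hge
  · interval_cases k
    · exact key 4 (by norm_num) (by norm_num) fun t p hd hc _ => num5 t p hd hc
    · exact key 5 (by norm_num) (by norm_num) fun t p hd hc _ => num6 t p hd hc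
    · exact key 7 (by norm_num) (by norm_num) fun t p hd hc _ => num7 t p hd hc
    · exact key 7 (by norm_num) (by norm_num) fun t p hd hc _ => num8 t p hd hc
    · exact key 9 (by norm_num) (by norm_num) fun t p hd hc _ => num9 t p hd hc
  · exact key (k - 1) (by omega) (by omega) fun t p hd _ hh => num10 k hge t p hd hh

end Vale.Agent.Propeller
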