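import Vale.Agent.Propeller.Defs

/-!
# P226: statements of the parts (specification only; never import this file)
-/

namespace Vale.Agent.Propeller.Stub

open MeasureTheory ProbabilityTheory Vale.Agent.Propeller Finset

/-- Part P (file Polar.lean) [helper8]: norm and direction are independent. -/
theorem polar (n : ℕ) (hn : 1 ≤ n) :
    (gs n).map (fun x => (‖x‖, ‖x‖⁻¹ • x)) =
      ((gs n).map (fun x => ‖x‖)).prod ((gs n).map (fun x => ‖x‖⁻¹ • x)) := by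
  sorry

/-- Part P2 (file Polar.lean) [helper8] -/
theorem norm_inv_moment (n : ℕ) (hn : 2 ≤ n) :
    ∫ x, ‖x‖ ∂gs n = ((n : ℝ) - 1) * ∫ x, ‖x‖⁻¹ ∂gs n := by
  sorry

/-- Part CORE (file Core.lean) [helper8]: the second order necessary condition -/
theorem core_abstract (n : ℕ) (hn : 2 ≤ n) {ι : Type} [Fintype ι] [Nonempty ι] (d : ι → E n)
    (q : E n) (hq : ∀ j, inner ℝ q (d j) = 1) (β : ℝ) (hβ : 0 < β)
    (hz : inner ℝ q (∫ x in {x | ∀ j, 0 < inner ℝ (d j) x}, x ∂gs n) = β)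
    (hF : ∀ δ : E n, ∫ x, max (|inner ℝ δ x| - |hmin d x|) 0 ∂gs n ≤ β * ‖δ‖ ^ 2)
    (B : Finset ι) (L : ℝ) (hL : 0 < L)
    (hf : ∀ x : E n, ∑ j ∈ B, (inner ℝ (d j) x) ^ 2 - (∑ j ∈ B, inner ℝ (d j) x) ^ 2
      ≤ L * ‖x‖ ^ 2) :
    ∑ j ∈ B, ‖d j‖ ^ 2 - ‖∑ j ∈ B, d j‖ ^ 2 ≤ L := by
  sorry

/-- Part DIM (file Dim.lean): dimension reduction -/
theorem bd_of_bd (n m k : ℕ) [NeZero k] (h : k ≤ m + 1) (C : ℝ) (hC : 0 ≤ C)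
    (hb : Bd m (Fin k) C) : Bd n (Fin k) C := by
  sorry

/-- Part OPT (file Opt.lean): existence of the optimal configuration.
Proof: `emax` is Lipschitz in `w`, so `M = sup emax^2/Σ|w|^2` is attained (compact unit sphere);
`M > C`; rescale so that `Σ|w|^2 = M = emax w`.  The cells of `w` cover a.e. and are disjoint; if
two `w`s were equal or a merge of cells `i,j` had `2⟪w i,w j⟫ ≥ 0` we would get a configuration of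
`k-1` vectors with ratio `≥ M`; `Σ⟪w i, z i⟫ = emax w = M`, and `Σ|z|^2 ≤ M` (since
`Σ|z|^2 = Σ E⟪z i, x⟫ 1_{A_i} ≤ emax z ≤ sqrt(M Σ|z|^2)`), so `Σ|w-z|^2 ≤ 0`. -/
theorem exists_opt (n k : ℕ) [NeZero k] [NeZero (k - 1)] (hk : 2 ≤ k) (C : ℝ) (hC : 0 < C)
    (hb : Bd n (Fin (k - 1)) C) (hno : ¬ Bd n (Fin k) C) :
    ∃ (M : ℝ) (w : Fin k → E n), C < M ∧ Opt n k M w := by
  sorry

/-- Part CAP (file Cap.lean): cap bound for cones in `ℝⁿ`.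
With `J = ∫₀¹ (1-s²)^((n-3)/2)`, `g c = ∫₀ᶜ (1-s²)^((n-3)/2)`. -/
theorem cap_lin (n : ℕ) (hn : 3 ≤ n) (A : Set (E n)) (hA : MeasurableSet A)
    (hcone : ∀ x ∈ A, ∀ t : ℝ, 0 < t → t • x ∈ A) (c : ℝ) (hc0 : 0 ≤ c) (hc1 : c < 1) :
    Real.sqrt (2 * Real.pi) * ‖∫ x in A, x ∂gs n‖ ≤
      (1 - c ^ 2) ^ (((n : ℝ) - 1) / 2)
        - ((n : ℝ) - 1) * c * (∫ s in c..1, (1 - s ^ 2) ^ (((n : ℝ) - 3) / 2))
        + 2 * ((n : ℝ) - 1) * (∫ s in (0 : ℝ)..1, (1 - s ^ 2) ^ (((n : ℝ) - 3) / 2)) * c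
          * (gs n A).toReal := by
  sorry

/-- Part CAP (file Cap.lean): half-space bound for arbitrary sets. -/
theorem half_lin (n : ℕ) (A : Set (E n)) (hA : MeasurableSet A) (a : ℝ) (ha : 0 ≤ a) :
    Real.sqrt (2 * Real.pi) * ‖∫ x in A, x ∂gs n‖ ≤
      Real.exp (-a ^ 2 / 2) + Real.sqrt (2 * Real.pi) * a *
        ((gs n A).toReal - (gaussianReal 0 1 (Set.Ioi a)).toReal) := by
  sorry

/-- Part ALG (file Alg.lean): consequences of `core_abstract` for an optimal configuration. -/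
theorem alg_b (n k : ℕ) [NeZero k] (hk : 4 ≤ k) (hn : 2 ≤ n) (M : ℝ) (w : Fin k → E n)
    (h : Opt n k M w) (i0 : Fin k) (B : Finset (Fin k)) (hB : i0 ∉ B) (hB2 : 2 ≤ B.card) (L : ℝ)
    (hL : ∀ i j, i ≠ j → ‖w i‖ ^ 2 + ‖w j‖ ^ 2 ≤ L) :
    ∑ j ∈ B, ‖w j‖ ^ 2 ≤ L + ((B.card : ℝ) ^ 2 + B.card - 1) * ‖w i0‖ ^ 2
      + ∑ j ∈ (univ \ B).erase i0, ‖w j‖ ^ 2 := by
  sorry

theorem alg_3 (n k : ℕ) [NeZero k] (hk : 4 ≤ k) (hn : 2 ≤ n) (M : ℝ) (w : Fin k → E n)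
    (h : Opt n k M w) (i0 i1 i2 i3 : Fin k) (h01 : i0 ≠ i1) (h02 : i0 ≠ i2) (h03 : i0 ≠ i3)
    (h12 : i1 ≠ i2) (h13 : i1 ≠ i3) (h23 : i2 ≠ i3)
    (hs2 : ‖w i2‖ ≤ ‖w i1‖) (hs3 : ‖w i3‖ ≤ ‖w i1‖) :
    3 / 2 * (‖w i2‖ ^ 2 + ‖w i3‖ ^ 2 - ‖w i1‖ ^ 2) ≤ 23 / 2 * ‖w i0‖ ^ 2
      + 3 / 2 * ∑ j ∈ univ \ {i0, i1, i2, i3}, ‖w j‖ ^ 2 := by
  sorry

/-- Part FIN: main step -/
theorem step (k : ℕ) [NeZero k] [NeZero (k - 1)] (hk : 5 ≤ k) (C : ℝ)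
    (hC : 9 / (8 * Real.pi) ≤ C) (hb : ∀ n, Bd n (Fin (k - 1)) C) (n : ℕ) : Bd n (Fin k) C := by
  sorry

end Vale.Agent.Propeller.Stub
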