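import Vale.Agent.Propeller.NumDefs

/-!
# P226: statements of the numerical parts (specification only; never import this file)
-/

namespace Vale.Agent.Propeller.Stub

open MeasureTheory ProbabilityTheory Vale.Agent.Propeller Finset

/-- Part NUM5 -/
theorem num5 (t p : ℕ → ℝ) (hd : Data 5 t p) (hc : CapIneq 4 5 t p) : False := by
  sorry

/-- Part NUM6 -/
theorem num6 (t p : ℕ → ℝ) (hd : Data 6 t p) (hc : CapIneq 5 6 t p) : False := by
  sorry

/-- Part NUM7 -/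
theorem num7 (t p : ℕ → ℝ) (hd : Data 7 t p) (hc : CapIneq 7 7 t p) : False := by
  sorry

/-- Part NUM8 -/
theorem num8 (t p : ℕ → ℝ) (hd : Data 8 t p) (hc : CapIneq 7 8 t p) : False := by
  sorry

/-- Part NUM9 -/
theorem num9 (t p : ℕ → ℝ) (hd : Data 9 t p) (hc : CapIneq 9 9 t p) : False := by
  sorry

/-- Part NUM10 -/
theorem num10 (k : ℕ) (hk : 10 ≤ k) (t p : ℕ → ℝ) (hd : Data k t p) (hc : HalfIneq k t p) :
    False := by
  sorry

/-- Part STEP -/
theorem opt_data_cap (n k : ℕ) [NeZero k] (hk : 4 ≤ k) (hn : 3 ≤ n) (M : ℝ) (w : Fin k → E n)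
    (h : Opt n k M w) (hM : 9 / (8 * Real.pi) < M) :
    ∃ t p : ℕ → ℝ, Data k t p ∧ CapIneq n k t p ∧ HalfIneq k t p := by
  sorry

/-- Part STEP (from `exists_opt`, `bd_of_bd`, `opt_data_cap` and `num*`) -/
theorem step (k : ℕ) [NeZero k] [NeZero (k - 1)] (hk : 5 ≤ k) (C : ℝ)
    (hC : 9 / (8 * Real.pi) ≤ C) (hb : ∀ n, Bd n (Fin (k - 1)) C) (n : ℕ) : Bd n (Fin k) C := by
  sorry

end Vale.Agent.Propeller.Stub
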